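import Vale.Agent.P283R.Sp.Gn38
import Vale.Agent.P287D.Va.Bas

/-!
# P283R, block SP: one section is inverted
-/

set_option linter.all false

open Set

noncomputable section

namespace Vale.Agent.P283R.Sp.G38

open Vale.Agent.P287D Vale.Agent.P297Z

variable {K : Type} [Field K] [Algebra ℂ K] {k : ℕ}

theorem sm_one {ι : Type} (deg : ι → Fin k → ℤ) (V : ι → Submodule ℂ K) : 1 ∈ Sm deg V 0 :=
  Submodule.subset_span (Mo deg fun j => (V j : Set K)).one_mem

theorem sm_gen {ι : Type} (deg : ι → Fin k → ℤ) (V : ι → Submodule ℂ K) (j : ι) {x : K}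
    (hx : x ∈ V j) : x ∈ Sm deg V (deg j) :=
  Submodule.subset_span (mo_gen deg _ j hx)

theorem sm_pow {ι : Type} (deg : ι → Fin k → ℤ) (V : ι → Submodule ℂ K) {m : Fin k → ℤ} {x : K}
    (hx : x ∈ Sm deg V m) (n : ℕ) : x ^ n ∈ Sm deg V (n • m) := by
  induction n with
  | zero => rw [pow_zero, zero_smul]; exact sm_one deg V
  | succ n ih => rw [pow_succ, succ_nsmul]; exact sm_mul deg V ih hx

open MvPolynomial in
/-- the converse of `gg_span`: induction on a ring with generators -/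
theorem gg_ind {N : ℕ} {A : (Fin k → ℤ) → Set K} (h : Sl.GradedGen N A) (A0 : ∀ m, 0 ∈ A m) :
    ∃ (s : Fin N → K) (a : Fin N → Fin k → ℤ), (∀ j, s j ∈ A (a j)) ∧
      ∀ M : (Fin k → ℤ) → Submodule ℂ K, 1 ∈ M 0 →
        (∀ m j, ∀ x ∈ M m, x * s j ∈ M (m + a j)) → ∀ m, ∀ φ ∈ A m, φ ∈ M m := by
  classical
  obtain ⟨s, a, π, hπ, h⟩ := h
  refine ⟨s, a, fun j => ?_, fun M M1 Mm m φ hφ => ?_⟩
  · have := (h _).1 ⟨_, hπ j⟩ (a j)
    rwa [AddMonoidAlgebra.coeff_single, Finsupp.single_eq_same] at this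
  have key : ∀ p m, (π p).coeff m ∈ M m := fun p => by
    induction p using induction_on with
    | C r =>
      intro m
      rw [C_eq_smul_one, map_smul, map_one, AddMonoidAlgebra.one_def, AddMonoidAlgebra.smul_single,
        AddMonoidAlgebra.coeff_single, Finsupp.single_apply]
      split_ifs with z
      · subst z
        exact Submodule.smul_mem _ _ M1
      · exact zero_mem _
    | add p q hp hq => intro m; rw [map_add]; exact add_mem (hp m) (hq m)
    | mul_X p j hp =>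
      intro m
      rw [map_mul, hπ, AddMonoidAlgebra.coeff_mul_single_apply]
      have := Mm _ j _ (hp (m + -a j))
      rwa [neg_add_cancel_right] at this
  obtain ⟨p, e⟩ := (h (.single m φ)).2 fun m' => by
    rw [AddMonoidAlgebra.coeff_single, Finsupp.single_apply]
    split_ifs with z
    · exact z ▸ hφ
    · exact A0 _
  have := key p m
  rwa [e, AddMonoidAlgebra.coeff_single, Finsupp.single_eq_same] at this

/-- one homogeneous element is inverted -/
theorem gg_inv {N : ℕ} {A : (Fin k → ℤ) → Set K} (h : Sl.GradedGen N A) (A0 : ∀ m, 0 ∈ A m)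
    (A' : (Fin k → ℤ) → Submodule ℂ K) (A1 : 1 ∈ A' 0)
    (Am : ∀ m m', ∀ x ∈ A' m, ∀ y ∈ A' m', x * y ∈ A' (m + m'))
    (le : ∀ m, ∀ φ ∈ A m, φ ∈ A' m) (σ : K) (μ : Fin k → ℤ) (σ0 : σ ≠ 0) (hσ : σ⁻¹ ∈ A' (-μ))
    (hn : ∀ m, ∀ φ ∈ A' m, ∃ n : ℕ, φ * σ ^ n ∈ A (m + n • μ)) :
    Sl.GradedGen (N + 1) fun m => (A' m : Set K) := by
  obtain ⟨s, a, sa, h⟩ := gg_ind h A0
  let deg : Option (Fin N) → Fin k → ℤ := fun o => o.elim (-μ) a
  let x : Option (Fin N) → K := fun o => o.elim σ⁻¹ s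
  let V : Option (Fin N) → Submodule ℂ K := fun o => Submodule.span ℂ {x o}
  have hx : ∀ o, x o ∈ Sm deg V (deg o) := fun o =>
    sm_gen deg V o (Submodule.mem_span_singleton_self _)
  refine gg_span A' A1 Am deg V (fun o => inferInstance) (fun o => ?_) (fun m φ hφ => ?_) _ ?_
  · refine (Submodule.span_singleton_le_iff_mem _ _).2 ?_
    cases o with
    | none => exact hσ
    | some j => exact le _ _ (sa j)
  · obtain ⟨n, hn⟩ := hn m φ hφ
    have a1 := h (Sm deg V) (sm_one deg V) (fun m j y hy => sm_mul deg V hy (hx (some j))) _ _ hn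
    have a2 := sm_mul deg V a1 (sm_pow deg V (hx none) n)
    have e1 : m + n • μ + n • deg none = m := by
      show m + n • μ + n • -μ = m
      rw [smul_neg, add_neg_cancel_right]
    have e2 : φ * σ ^ n * x none ^ n = φ := by
      show φ * σ ^ n * σ⁻¹ ^ n = φ
      rw [mul_assoc, ← mul_pow, mul_inv_cancel₀ σ0, one_pow, mul_one]
    rwa [e1, e2] at a2
  · refine (Finset.sum_le_card_nsmul _ _ 1 fun o _ => ?_).trans (by simp)
    exact (finrank_span_le_card ({x o} : Set K)).trans (by simp)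

variable {ι : Type}

/-- the sections as a submodule -/
def sec (pl : ι → Pl K) (w : ι → Prop) (c : ι → ℤ) : Submodule ℂ K where
  carrier := {φ | φ ≠ 0 → ∀ E, w E → 0 ≤ (pl E).ord φ + c E}
  zero_mem' := fun a => (a rfl).elim
  add_mem' := fun {a b} ha hb z E e => by
    rcases eq_or_ne a 0 with rfl | a0
    · rw [zero_add] at z ⊢
      exact hb z E e
    rcases eq_or_ne b 0 with rfl | b0
    · rw [add_zero]
      exact ha a0 E e
    have k1 := ha a0 E e
    have k2 := hb b0 E e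
    have k3 : min ((pl E).ord a) ((pl E).ord b) ≤ (pl E).ord (a + b) :=
      Pl.min_ord_le_add (pl E).toPlace a0 b0 z
    omega
  smul_mem' := fun c a ha e E f => by
    have c0 : c ≠ 0 := by rintro rfl; exact e (zero_smul _ _)
    have a0 : a ≠ 0 := by rintro rfl; exact e (smul_zero _)
    rw [Pl.ord_smul _ c0]
    exact ha a0 E f

theorem mem_sec {pl : ι → Pl K} {w : ι → Prop} {c : ι → ℤ} {φ : K} :
    φ ∈ sec pl w c ↔ φ ≠ 0 → ∀ E, w E → 0 ≤ (pl E).ord φ + c E := Iff.rfl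

theorem sec_one (pl : ι → Pl K) (w : ι → Prop) (D : Fin k → ι → ℤ) :
    1 ∈ sec pl w fun E => ∑ i, (0 : Fin k → ℤ) i * D i E := fun _ E _ => by
  simp [Pl.ord_one]

theorem sec_mul (pl : ι → Pl K) (w : ι → Prop) (D : Fin k → ι → ℤ) (m m' : Fin k → ℤ) :
    ∀ x ∈ sec pl w fun E => ∑ i, m i * D i E, ∀ y ∈ sec pl w fun E => ∑ i, m' i * D i E,
      x * y ∈ sec pl w fun E => ∑ i, (m + m') i * D i E := fun x hx y hy z E e => by
  obtain ⟨x0, y0⟩ := mul_ne_zero_iff.1 z
  have k1 := hx x0 E e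
  have k2 := hy y0 E e
  rw [Pl.ord_mul _ x0 y0]
  simp only [Pi.add_apply, add_mul, Finset.sum_add_distrib] at k1 k2 ⊢
  omega

/-- **a smaller open set**: one more generator -/
theorem shrink {N : ℕ} (pl : ι → Pl K) (w w' : ι → Prop) (D : Fin k → ι → ℤ)
    (h : Sl.GradedGen N fun m => {φ | φ ≠ 0 → ∀ E, w E → 0 ≤ (pl E).ord φ + ∑ i, m i * D i E})
    (le : ∀ E, w' E → w E) (fin : {E | w E ∧ ¬ w' E}.Finite) (σ : K) (μ : Fin k → ℤ) (σ0 : σ ≠ 0)
    (h0 : ∀ E, w' E → (pl E).ord σ + ∑ i, μ i * D i E = 0)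
    (h1 : ∀ E, w E → ¬ w' E → 0 < (pl E).ord σ + ∑ i, μ i * D i E) :
    Sl.GradedGen (N + 1) fun m =>
      {φ | φ ≠ 0 → ∀ E, w' E → 0 ≤ (pl E).ord φ + ∑ i, m i * D i E} := by
  refine gg_inv h (fun m a => (a rfl).elim) (fun m => sec pl w' fun E => ∑ i, m i * D i E)
    (sec_one pl w' D) (sec_mul pl w' D) (fun m φ a b E e => a b E (le E e)) σ μ σ0
    (fun _ E e => ?_) fun m φ hφ => ?_
  · have := h0 E e
    rw [Pl.ord_inv]
    simp only [Pi.neg_apply, neg_mul, Finset.sum_neg_distrib]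
    omega
  · refine ⟨∑ E ∈ fin.toFinset, ((pl E).ord φ + ∑ i, m i * D i E).natAbs, fun z E e => ?_⟩
    generalize hn : ∑ E ∈ fin.toFinset, ((pl E).ord φ + ∑ i, m i * D i E).natAbs = n at z ⊢
    have φ0 := left_ne_zero_of_mul z
    have e1 : (pl E).ord (φ * σ ^ n) + ∑ i, (m + n • μ) i * D i E =
        ((pl E).ord φ + ∑ i, m i * D i E) + n * ((pl E).ord σ + ∑ i, μ i * D i E) := by
      rw [Pl.ord_mul _ φ0 (pow_ne_zero _ σ0), ← zpow_natCast, Pl.ord_zpow]
      simp only [Pi.add_apply, Pi.smul_apply]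
      simp only [nsmul_eq_mul, add_mul, Finset.sum_add_distrib,
        mul_add, Finset.mul_sum, mul_assoc]
      ring
    rw [e1]
    by_cases e' : w' E
    · rw [h0 E e', mul_zero, add_zero]
      exact hφ φ0 E e'
    · have a := h1 E e e'
      have b : ((pl E).ord φ + ∑ i, m i * D i E).natAbs ≤ n :=
        hn ▸ Finset.single_le_sum (f := fun E => ((pl E).ord φ + ∑ i, m i * D i E).natAbs)
          (fun _ _ => Nat.zero_le _) (fin.mem_toFinset.2 ⟨e, e'⟩)
      have c : (n : ℤ) * 1 ≤ n * ((pl E).ord σ + ∑ i, μ i * D i E) :=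
        mul_le_mul_of_nonneg_left a (Int.natCast_nonneg n)
      omega

end Vale.Agent.P283R.Sp.G38
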