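import Mathlib

/-! Complete reducibility through the apolar form: a stable space of polynomials is spanned by
any stable subspace that holds all its Borel eigenvectors. -/

namespace Vale.Agent.P283R.Sp.C71

open MvPolynomial

variable {s : Type} [DecidableEq s]

/-- The polarisation operator `sum X u * d/dX v` over the pairs `(u, v)` of `S`. -/
noncomputable def op (S : Finset (s × s)) : MvPolynomial s ℂ →ₗ[ℂ] MvPolynomial s ℂ :=
  ∑ p ∈ S, (LinearMap.mulLeft ℂ (X p.1 : MvPolynomial s ℂ)) ∘ₗ (pderiv p.2).toLinearMap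

omit [DecidableEq s] in
theorem op_apply (S : Finset (s × s)) (F : MvPolynomial s ℂ) :
    op S F = ∑ p ∈ S, X p.1 * pderiv p.2 F := by
  simp [op, LinearMap.sum_apply]

omit [DecidableEq s] in
theorem op_mul (S : Finset (s × s)) (F G : MvPolynomial s ℂ) :
    op S (F * G) = op S F * G + F * op S G := by
  simp only [op_apply, pderiv_mul, Finset.sum_mul, Finset.mul_sum, ← Finset.sum_add_distrib]
  exact Finset.sum_congr rfl fun p _ => by ring

theorem supp_one (u v : s) (F : MvPolynomial s ℂ) (m : s →₀ ℕ)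
    (h : coeff m (X u * pderiv v F) ≠ 0) :
    ∃ m' ∈ F.support, m' + Finsupp.single u 1 = m + Finsupp.single v 1 := by
  rw [coeff_X_mul'] at h
  split_ifs at h with hu
  · rw [coeff_pderiv] at h
    refine ⟨_, mem_support_iff.2 (left_ne_zero_of_mul h), ?_⟩
    have h1 : Finsupp.single u 1 ≤ m := by
      rw [Finsupp.single_le_iff]; exact Nat.one_le_iff_ne_zero.2 (Finsupp.mem_support_iff.1 hu)
    rw [add_right_comm, tsub_add_cancel_of_le h1]
  · exact absurd rfl h

theorem supp_op (S : Finset (s × s)) (F : MvPolynomial s ℂ) (m : s →₀ ℕ)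
    (h : m ∈ (op S F).support) :
    ∃ p ∈ S, ∃ m' ∈ F.support, m' + Finsupp.single p.1 1 = m + Finsupp.single p.2 1 := by
  rw [mem_support_iff, op_apply, coeff_sum] at h
  obtain ⟨p, hp, h1⟩ := Finset.exists_ne_zero_of_sum_ne_zero h
  exact ⟨p, hp, supp_one _ _ _ _ h1⟩

theorem deg_op (S : Finset (s × s)) (F : MvPolynomial s ℂ) :
    (op S F).totalDegree ≤ F.totalDegree := by
  rw [totalDegree, Finset.sup_le_iff]
  intro m hm
  obtain ⟨p, -, m', hm', e⟩ := supp_op S F m hm
  have h1 := le_totalDegree hm'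
  have h2 := congrArg (fun x : s →₀ ℕ => x.sum fun _ e => e) e
  simp only [Finsupp.sum_add_index' (h := fun (_ : s) (e : ℕ) => e) (fun _ => rfl)
    (fun _ _ _ => rfl), Finsupp.sum_single_index (h := fun (_ : s) (e : ℕ) => e) rfl] at h2
  omega

theorem coeff_diag (S : Finset (s × s)) (hS : ∀ p ∈ S, p.1 = p.2) (F : MvPolynomial s ℂ)
    (m : s →₀ ℕ) : coeff m (op S F) = (∑ p ∈ S, (m p.1 : ℂ)) * coeff m F := by
  rw [op_apply, coeff_sum, Finset.sum_mul]
  refine Finset.sum_congr rfl fun p hp => ?_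
  rw [← hS p hp, coeff_X_mul']
  split_ifs with hu
  · have h0 := Finsupp.mem_support_iff.1 hu
    have h1 : Finsupp.single p.1 1 ≤ m := by
      rw [Finsupp.single_le_iff]; exact Nat.one_le_iff_ne_zero.2 h0
    rw [coeff_pderiv, tsub_add_cancel_of_le h1, mul_comm]
    congr 1
    simp only [Finsupp.coe_tsub, Pi.sub_apply, Finsupp.single_eq_same]
    rw [Nat.cast_sub (Nat.one_le_iff_ne_zero.2 h0)]; simp
  · rw [Finsupp.notMem_support_iff.1 hu]; simp

/-- A nonzero space stable under the Borel operators holds a common eigenvector. -/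
theorem eig {A : Type} (S : A → Finset (s × s)) (Bo : Set A) (ht : s → ℕ)
    (hB : ∀ a ∈ Bo, (∀ p ∈ S a, p.1 = p.2) ∨ ∀ p ∈ S a, ht p.1 < ht p.2)
    (W : Submodule ℂ (MvPolynomial s ℂ)) (hW : ∀ a ∈ Bo, ∀ F ∈ W, op (S a) F ∈ W)
    (h0 : ∃ F ∈ W, F ≠ 0) :
    ∃ F ∈ W, F ≠ 0 ∧ ∀ a ∈ Bo, ∃ c : ℂ, op (S a) F = c • F := by
  classical
  have hex : ∃ n, ∃ F ∈ W, F ≠ 0 ∧ ∀ m ∈ F.support, Finsupp.weight ht m < n := by
    obtain ⟨F, hF, hF0⟩ := h0
    exact ⟨F.support.sup (Finsupp.weight ht) + 1, F, hF, hF0,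
      fun m hm => Nat.lt_succ_of_le (Finset.le_sup (f := Finsupp.weight ht) hm)⟩
  have hex2 : ∃ k, ∃ F ∈ W, F ≠ 0 ∧ (∀ m ∈ F.support, Finsupp.weight ht m < Nat.find hex) ∧
      F.support.card = k := by
    obtain ⟨F, hF, hF0, h⟩ := Nat.find_spec hex
    exact ⟨_, F, hF, hF0, h, rfl⟩
  obtain ⟨F, hF, hF0, hh, hk⟩ := Nat.find_spec hex2
  obtain ⟨m0, hm0⟩ := support_nonempty.2 hF0
  refine ⟨F, hF, hF0, fun a ha => ?_⟩
  rcases hB a ha with hd | hn
  · refine ⟨∑ p ∈ S a, (m0 p.1 : ℂ), ?_⟩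
    by_contra hne
    have hsub : (op (S a) F - (∑ p ∈ S a, (m0 p.1 : ℂ)) • F).support ⊆ F.support.erase m0 := by
      intro m hm
      rw [mem_support_iff, coeff_sub, coeff_smul, coeff_diag _ hd, smul_eq_mul, ← sub_mul] at hm
      refine Finset.mem_erase.2 ⟨?_, mem_support_iff.2 (right_ne_zero_of_mul hm)⟩
      rintro rfl
      exact left_ne_zero_of_mul hm (sub_self _)
    have hlt := lt_of_le_of_lt (Finset.card_le_card hsub) (Finset.card_erase_lt_of_mem hm0)
    rw [hk] at hlt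
    exact Nat.find_min hex2 hlt ⟨_, W.sub_mem (hW a ha F hF) (W.smul_mem _ hF),
      sub_ne_zero.2 hne, fun m hm => hh m (Finset.mem_of_mem_erase (hsub hm)), rfl⟩
  · refine ⟨0, ?_⟩
    rw [zero_smul]
    by_contra hne
    have hpos : Nat.find hex - 1 < Nat.find hex := by have := hh m0 hm0; omega
    refine Nat.find_min hex hpos ⟨_, hW a ha F hF, hne, fun m hm => ?_⟩
    obtain ⟨p, hp, m', hm', e⟩ := supp_op _ F m hm
    have h2 := congrArg (Finsupp.weight ht) e
    simp only [map_add, Finsupp.weight_apply (w := ht) (Finsupp.single _ _),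
      Finsupp.sum_single_index (h := fun i (c : ℕ) => c • ht i) (zero_smul _ _), one_smul] at h2
    have := hh m' hm'
    have := hn p hp
    omega

/-- The weight `m!` of a monomial. -/
def wt (m : s →₀ ℕ) : ℕ := m.prod fun _ e => e.factorial

omit [DecidableEq s] in
theorem wt_pos (m : s →₀ ℕ) : 0 < wt m :=
  Finset.prod_pos fun _ _ => Nat.factorial_pos _

theorem wt_add (m : s →₀ ℕ) (u : s) : wt (m + Finsupp.single u 1) = wt m * (m u + 1) := by
  have key : ∀ x : s →₀ ℕ, wt x = (x u).factorial * wt (x.erase u) := fun x => by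
    unfold wt
    exact (Finsupp.mul_prod_erase' x u (fun _ e => e.factorial) fun _ => rfl).symm
  rw [key (m + _), key m, Finsupp.erase_add, Finsupp.erase_single, add_zero, Finsupp.add_apply,
    Finsupp.single_eq_same, Nat.factorial_succ]
  ring

/-- The apolar bilinear form. -/
noncomputable def ap : MvPolynomial s ℂ →ₗ[ℂ] MvPolynomial s ℂ →ₗ[ℂ] ℂ :=
  (basisMonomials s ℂ).constr ℂ fun m => (wt m : ℂ) • lcoeff ℂ m

omit [DecidableEq s] in
theorem ap_mon (m : s →₀ ℕ) (c : ℂ) (G : MvPolynomial s ℂ) :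
    ap (monomial m c) G = c * (wt m * coeff m G) := by
  have h : (monomial m c : MvPolynomial s ℂ) = c • basisMonomials s ℂ m := by
    simp [smul_monomial]
  rw [h, map_smul, ap, Module.Basis.constr_basis]
  simp [lcoeff]

theorem ap_symm (F G : MvPolynomial s ℂ) : ap F G = ap G F := by
  induction F using MvPolynomial.induction_on' with
  | add p q hp hq => simp [hp, hq]
  | monomial m c =>
    induction G using MvPolynomial.induction_on' with
    | add p q hp hq => simp only [map_add, LinearMap.add_apply, hp, hq]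
    | monomial n e =>
      rw [ap_mon, ap_mon, coeff_monomial, coeff_monomial]
      by_cases h : n = m
      · subst h; simp only [if_true]; ring
      · rw [if_neg h, if_neg (Ne.symm h)]; simp

theorem ap_X (u : s) (F G : MvPolynomial s ℂ) : ap (X u * F) G = ap F (pderiv u G) := by
  induction F using MvPolynomial.induction_on' with
  | add p q hp hq => simp only [mul_add, map_add, LinearMap.add_apply, hp, hq]
  | monomial m c =>
    have h : (X u * monomial m c : MvPolynomial s ℂ) = monomial (m + Finsupp.single u 1) c := by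
      rw [monomial_add_single, pow_one, mul_comm]
    rw [h, ap_mon, ap_mon, coeff_pderiv, wt_add]
    push_cast; ring

theorem ap_op (S : Finset (s × s)) (F G : MvPolynomial s ℂ) :
    ap (op S F) G = ap F (op (S.image Prod.swap) G) := by
  rw [op_apply, op_apply, Finset.sum_image (fun _ _ _ _ h => Prod.swap_injective h), map_sum,
    LinearMap.sum_apply, map_sum]
  refine Finset.sum_congr rfl fun p _ => ?_
  rw [ap_X, ap_symm F, Prod.fst_swap, Prod.snd_swap, ap_X, ap_symm]

/-- Complex conjugation of the coefficients. -/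
noncomputable def cj : MvPolynomial s ℂ →+* MvPolynomial s ℂ := map (starRingEnd ℂ)

omit [DecidableEq s] in
theorem cj_op (S : Finset (s × s)) (F : MvPolynomial s ℂ) : cj (op S F) = op S (cj F) := by
  simp only [op_apply, map_sum, map_mul, cj, map_X, pderiv_map]

omit [DecidableEq s] in
theorem cj_smul (c : ℂ) (F : MvPolynomial s ℂ) : cj (c • F) = (starRingEnd ℂ c) • cj F := by
  simp only [smul_eq_C_mul, map_mul, cj, map_C]

omit [DecidableEq s] in
theorem ap_pos (F : MvPolynomial s ℂ) (h : ap F (cj F) = 0) : F = 0 := by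
  have h1 : ap F (cj F) =
      ((∑ m ∈ F.support, (wt m : ℝ) * Complex.normSq (coeff m F) : ℝ) : ℂ) := by
    conv_lhs => rw [F.as_sum, map_sum, LinearMap.sum_apply, ← F.as_sum]
    push_cast
    refine Finset.sum_congr rfl fun m _ => ?_
    rw [ap_mon, cj, coeff_map, ← Complex.mul_conj]; ring
  rw [h1, Complex.ofReal_eq_zero, Finset.sum_eq_zero_iff_of_nonneg
    (fun m _ => mul_nonneg (Nat.cast_nonneg _) (Complex.normSq_nonneg _))] at h
  by_contra hne
  obtain ⟨m, hm⟩ := support_nonempty.2 hne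
  rcases mul_eq_zero.1 (h m hm) with h2 | h2
  · exact (wt_pos m).ne' (by exact_mod_cast h2)
  · exact mem_support_iff.1 hm (Complex.normSq_eq_zero.1 h2)

/-- A stable subspace that holds all Borel eigenvectors of a stable space is everything. -/
theorem cr [Finite s] {A : Type} (S : A → Finset (s × s))
    (hS : ∀ a, ∃ a', S a' = (S a).image Prod.swap) (Bo : Set A) (ht : s → ℕ)
    (hB : ∀ a ∈ Bo, (∀ p ∈ S a, p.1 = p.2) ∨ ∀ p ∈ S a, ht p.1 < ht p.2)
    (W W' : Submodule ℂ (MvPolynomial s ℂ)) (hW : ∀ a, ∀ F ∈ W, op (S a) F ∈ W)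
    (hW' : ∀ a, ∀ F ∈ W', op (S a) F ∈ W')
    (h : ∀ F ∈ W, F ≠ 0 → (∀ a ∈ Bo, ∃ c : ℂ, op (S a) F = c • F) → F ∈ W') : W ≤ W' := by
  classical
  intro F hF
  set V := W ⊓ restrictTotalDegree s ℂ F.totalDegree with hV
  set V' := W' ⊓ V with hV'
  have sV : ∀ a, ∀ G ∈ V, op (S a) G ∈ V := fun a G hG =>
    ⟨hW a G hG.1, (mem_restrictTotalDegree _ _ _).2
      ((deg_op _ G).trans ((mem_restrictTotalDegree _ _ _).1 hG.2))⟩
  have sV' : ∀ a, ∀ G ∈ V', op (S a) G ∈ V' := fun a G hG => ⟨hW' a G hG.1, sV a G hG.2⟩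
  haveI : Module.Finite ℂ V := Submodule.finiteDimensional_of_le inf_le_right
  haveI : Module.Finite ℂ V' := Submodule.finiteDimensional_of_le inf_le_right
  let Cc : Submodule ℂ (MvPolynomial s ℂ) :=
    { carrier := {G | G ∈ V ∧ ∀ w ∈ V', ap G (cj w) = 0}
      add_mem' := fun {x y} hx hy => ⟨V.add_mem hx.1 hy.1, fun w hw => by
        rw [map_add, LinearMap.add_apply, hx.2 w hw, hy.2 w hw, add_zero]⟩
      zero_mem' := ⟨V.zero_mem, fun w _ => by simp⟩
      smul_mem' := fun c x hx => ⟨V.smul_mem c hx.1, fun w hw => by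
        rw [map_smul, LinearMap.smul_apply, hx.2 w hw, smul_zero]⟩ }
  have hC : ∀ G ∈ Cc, G = 0 := by
    by_contra hne
    push Not at hne
    obtain ⟨G, hG, hG0, he⟩ := eig S Bo ht hB Cc (fun a _ G hG => ⟨sV a G hG.1, fun w hw => by
      obtain ⟨a', ha'⟩ := hS a
      rw [ap_op, ← ha', ← cj_op]
      exact hG.2 _ (sV' a' w hw)⟩) hne
    exact hG0 (ap_pos G (hG.2 G ⟨h G hG.1.1 hG0 he, hG.1⟩))
  let b := Module.finBasis ℂ V'
  let Φ : V →ₗ[ℂ] (Fin (Module.finrank ℂ V') → ℂ) :=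
    LinearMap.pi fun i => (ap.flip (cj (b i : MvPolynomial s ℂ))) ∘ₗ V.subtype
  have hΦ : Function.Injective Φ := by
    rw [injective_iff_map_eq_zero]
    intro x hx
    refine Subtype.ext (hC x ⟨x.2, fun w hw => ?_⟩)
    have e := congrArg V'.subtype (b.sum_repr ⟨w, hw⟩)
    simp only [map_sum, map_smul, Submodule.subtype_apply] at e
    rw [← e, map_sum, map_sum]
    refine Finset.sum_eq_zero fun i _ => ?_
    have h1 : ap (x : MvPolynomial s ℂ) (cj (b i : MvPolynomial s ℂ)) = 0 := congrFun hx i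
    rw [cj_smul, map_smul, h1, smul_zero]
  have hle := LinearMap.finrank_le_finrank_of_injective hΦ
  rw [Module.finrank_fin_fun] at hle
  have heq : V' = V := Submodule.eq_of_le_of_finrank_le inf_le_right hle
  have hFV : F ∈ V := ⟨hF, (mem_restrictTotalDegree _ _ _).2 le_rfl⟩
  rw [← heq] at hFV
  exact hFV.1

/-- The same in an algebra `L` over the polynomial ring, for spaces whose elements become
polynomials after multiplication by a power of an eigenfunction `del`. -/
theorem crL [Finite s] {A : Type} (S : A → Finset (s × s))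
    (hS : ∀ a, ∃ a', S a' = (S a).image Prod.swap) (Bo : Set A) (ht : s → ℕ)
    (hB : ∀ a ∈ Bo, (∀ p ∈ S a, p.1 = p.2) ∨ ∀ p ∈ S a, ht p.1 < ht p.2)
    {L : Type} [Field L] [Algebra ℂ L] (i : MvPolynomial s ℂ →ₐ[ℂ] L)
    (D : A → L →ₗ[ℂ] L) (hD : ∀ a x y, D a (x * y) = D a x * y + x * D a y)
    (hi : ∀ a F, D a (i F) = i (op (S a) F)) (del : L) (hd0 : del ≠ 0)
    (hd : ∀ a, ∃ c : ℂ, D a del = c • del)
    (W W' : Submodule ℂ L) (hW : ∀ a, ∀ x ∈ W, D a x ∈ W) (hW' : ∀ a, ∀ x ∈ W', D a x ∈ W')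
    (hP : ∀ x ∈ W, ∃ n F, del ^ n * x = i F)
    (h : ∀ x ∈ W, x ≠ 0 → (∀ a ∈ Bo, ∃ c : ℂ, D a x = c • x) → x ∈ W') : W ≤ W' := by
  intro x hx
  obtain ⟨n, F, hF⟩ := hP x hx
  have hu : del ^ n ≠ 0 := pow_ne_zero n hd0
  have hpw : ∀ a, ∃ c : ℂ, D a (del ^ n) = c • del ^ n := fun a => by
    obtain ⟨c, hc⟩ := hd a
    refine ⟨n * c, ?_⟩
    clear hF hu
    induction n with
    | zero =>
      have h1 := hD a 1 1
      simp only [mul_one, one_mul] at h1
      have h2 : D a 1 = 0 := left_eq_add.1 h1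
      simp [h2]
    | succ k ih =>
      rw [pow_succ, hD, ih, hc]
      simp only [Algebra.smul_def, Nat.cast_succ, map_mul, map_add, map_one]; ring
  let T : MvPolynomial s ℂ →ₗ[ℂ] L := (LinearMap.mulLeft ℂ (del ^ n)⁻¹) ∘ₗ i.toLinearMap
  have hT : ∀ G, T G = (del ^ n)⁻¹ * i G := fun _ => rfl
  have hTD : ∀ a, ∃ c : ℂ, ∀ G, T (op (S a) G) = D a (T G) + c • T G := fun a => by
    obtain ⟨c, hc⟩ := hpw a
    refine ⟨c, fun G => ?_⟩
    have h1 : i G = del ^ n * T G := by rw [hT, mul_inv_cancel_left₀ hu]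
    rw [hT, ← hi, h1, hD, hc, smul_mul_assoc, mul_add, inv_mul_cancel_left₀ hu, mul_smul_comm,
      inv_mul_cancel_left₀ hu, add_comm]
  have st : ∀ U : Submodule ℂ L, (∀ a, ∀ x ∈ U, D a x ∈ U) →
      ∀ a, ∀ G ∈ U.comap T, op (S a) G ∈ U.comap T := fun U hU a G hG => by
    obtain ⟨c, hc⟩ := hTD a
    rw [Submodule.mem_comap] at hG ⊢
    rw [hc]
    exact U.add_mem (hU a _ hG) (U.smul_mem c hG)
  have hx' : T F = x := by rw [hT, ← hF, inv_mul_cancel_left₀ hu]
  have key := cr S hS Bo ht hB (W.comap T) (W'.comap T) (st W hW) (st W' hW') (fun G hG _ he => by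
    rw [Submodule.mem_comap] at hG ⊢
    by_cases h0 : T G = 0
    · rw [h0]; exact W'.zero_mem
    refine h _ hG h0 fun a ha => ?_
    obtain ⟨c, hc⟩ := hTD a
    obtain ⟨e, he⟩ := he a ha
    refine ⟨e - c, ?_⟩
    rw [sub_smul, ← map_smul, ← he, hc, add_sub_cancel_right])
  have := key (show F ∈ W.comap T by rw [Submodule.mem_comap, hx']; exact hx)
  rwa [Submodule.mem_comap, hx'] at this

end Vale.Agent.P283R.Sp.C71
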