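import Vale.Agent.P283R.Sp.Bas
import Vale.Agent.P283R.Sg.Top20
import Vale.Agent.P283R.Sg.Out11
import Vale.Agent.P283R.To.Sc1
import Vale.Agent.P283R.Br.Idn

/-!
# P283R, block SP: the prime divisors of a spherical variety
-/

set_option linter.all false

open Set CategoryTheory AlgebraicGeometry

noncomputable section

namespace Vale.Agent.P283R.Sp

namespace D47

open Vale.Agent.P289 (Pt)
open Vale.Agent.P287D Vale.Agent.P283M.Stm Vale.Agent.P283M.Stm.Var Vale.Agent.P297Z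
open Vale.Agent.P283M Vale.Agent.P283M.Br Vale.Agent.P283R.Gl Vale.Agent.P283R.Sch Sg.T20

variable {X : Var} {n : ℕ} {W V : X.X.Opens} {x : Pt X.X}

theorem dif (W : X.X.Opens) (hx : x ∈ V) : (pls W \ pls V).Finite := by
  have : IsNoetherian X.X := Am.noeth X
  refine (((Sg.O11.fin_out V hx).preimage (f := fun E : X.PrimeDiv => (E.1 : X.X))
    Subtype.val_injective.injOn).image pq).subset ?_
  rintro _ ⟨⟨E, a, rfl⟩, b⟩
  exact ⟨E, ⟨E.2, fun c => b ⟨E, c, rfl⟩⟩, rfl⟩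

theorem cht (hK : FF X.K (n + 1)) (hx : x ∈ W) : ∃ A : Finset X.K,
    IntermediateField.adjoin ℂ (A : Set X.K) = ⊤ ∧ (∀ Q, Ov A Q → On n (inf A) Q → Q ∈ pls W) ∧
      {Q ∈ pls W | ¬ (Ov A Q ∧ On n (inf A) Q)}.Finite := by
  classical
  obtain ⟨_, ⟨V, hV, rfl⟩, xV, le⟩ :=
    X.X.isBasis_affineOpens.exists_subset_of_mem_open (a := x) hx W.isOpen
  have := LocallyOfFiniteType.jacobsonSpace X.str
  obtain ⟨z, zV, hz⟩ := nonempty_inter_closedPoints (Z := (V : Set X.X)) ⟨x, xV⟩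
    V.isOpen.isLocallyClosed
  obtain ⟨u, b⟩ := basV P283R.Br.ctr_id (z := z) hz hV zV
  have g1 : ∀ y ∈ V, GenAt (insert 1 u) 1 y := fun y hy =>
    ⟨Finset.mem_insert_self _ _, one_ne_zero, fun g hg => by
      rw [div_one]
      rcases Finset.mem_insert.1 hg with rfl | hg
      · exact reg_one
      · exact b.reg g hg y hy⟩
  have fr : ∀ y ∈ V, ∀ a, RegAt a y → ∃ p ∈ Algebra.adjoin ℂ (u : Set X.K),
      ∃ q ∈ Algebra.adjoin ℂ (u : Set X.K), UnAt q y ∧ a = p / q := fun y hy a ha => by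
    obtain ⟨q, h1, h2, h3⟩ := Am.frac (f := a) hV hy ha
    exact ⟨_, b.con _ (Am.mem_reg.1 h3), q, b.con _ (Am.mem_reg.1 h1), h2,
      (mul_div_cancel_left₀ a h2.1).symm⟩
  have em : Emb (insert 1 u) V := fun y hy g hg a ha => by
    obtain ⟨p, hp, q, hq, w, rfl⟩ := fr y hy a ha
    have k : Algebra.adjoin ℂ (u : Set X.K) ≤
        lz (Algebra.adjoin ℂ ((· / g) '' ((insert 1 u : Finset X.K) : Set X.K))) y := by
      refine Algebra.adjoin_le fun e he => ?_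
      refine ⟨e / g, Algebra.subset_adjoin ⟨_, Finset.mem_insert_of_mem he, rfl⟩, 1 / g,
        Algebra.subset_adjoin ⟨_, Finset.mem_insert_self _ _, rfl⟩, hg.un (g1 y hy), ?_⟩
      have := hg.2.1
      field_simp
    exact lz_div (k hp) (k hq) w
  have on := (onc X n hK _ V ⟨x, xV⟩ (fun y hy => ⟨1, g1 y hy⟩) em).2
  have ei : inf u = mx (insert 1 u) := by unfold inf; congr
  refine ⟨u, eq_top_iff.2 fun a _ => ?_, fun Q o h => ?_, (dif W xV).subset ?_⟩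
  · obtain ⟨p, hp, q, hq, -, rfl⟩ := fr _
      ((genericPoint_specializes (x : X.X)).mem_open V.isOpen xV) a (P270L.S.mem_loc_gen a)
    exact div_mem (IntermediateField.algebra_adjoin_le_adjoin _ _ hp)
      (IntermediateField.algebra_adjoin_le_adjoin _ _ hq)
  · obtain ⟨y, hy, d⟩ := b.ctr Q.ring Q.con o
    have c := (on Q y hy d).1 (ei ▸ h)
    refine ⟨⟨y, c⟩, le hy, Pl.ext_mem fun f => ?_⟩
    exact (pq_is ⟨y, c⟩ f).trans (Am.dom_ring (Am.nrm X) (dom_S d) c).symm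
  · rintro _ ⟨⟨E, a, rfl⟩, h⟩
    refine ⟨⟨E, a, rfl⟩, ?_⟩
    rintro ⟨E', a', e⟩
    obtain rfl := pq_inj e
    exact h ⟨fun g hg => (pq_is E' g).2 (b.reg g hg _ a'),
      ei ▸ (on _ _ a' (pq_is E').dom).2 E'.2⟩

theorem tra (σ : X.K ≃ₐ[ℂ] X.K) (E : X.PrimeDiv) (hx : x ∈ W)
    (h : ∀ a, RegAt a E.1 ↔ RegAt (σ a) x) :
    ∃ E' : X.PrimeDiv, E'.1 ∈ W ∧ ∀ a, a ∈ (pq E).ring ↔ σ a ∈ (pq E').ring := by
  have t0 := (pq E).t_ne
  have t1 : ¬ RegAt (σ (pq E).t⁻¹) x := fun k => by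
    have := Pl.ord_nonneg_of_mem _ ((pq_is E (pq E).t⁻¹).2 ((h (pq E).t⁻¹).2 k))
    rw [Pl.ord_inv, (pq E).ord_t] at this
    omega
  obtain ⟨y, sp, hy⟩ : ∃ y : X.PrimeDiv, y.1 ⤳ x ∧ ¬ 0 ≤ ord (σ (pq E).t⁻¹) y := by
    by_contra! c
    exact t1 (har X _ _ c)
  have up : ∀ a ∈ (pq E).ring, σ a ∈ (pq y).ring := fun a ha =>
    (pq_is y _).2 (reg_gen sp ((h a).1 ((pq_is E a).1 ha)))
  refine ⟨y, sp.mem_open W.isOpen hx, fun a => ⟨up a, fun ha => by_contra fun c => hy ?_⟩⟩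
  have a0 : a ≠ 0 := fun e => c (e ▸ zero_mem _)
  have k : (a * (pq E).t)⁻¹ ∈ (pq E).ring := by
    refine (Pl.ord_nonneg_iff _ (inv_ne_zero (mul_ne_zero a0 t0))).1 ?_
    have := mt (Pl.ord_nonneg_iff (pq E).toPlace a0).1 c
    rw [Pl.ord_inv, Pl.ord_mul _ a0 t0, (pq E).ord_t]
    omega
  have := mul_mem ha (up _ k)
  rw [← map_mul, mul_inv, mul_inv_cancel_left₀ a0] at this
  rw [pq_ord]
  exact Pl.ord_nonneg_of_mem _ this

end D47

open Sl Sl.Var in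
/-- **DVS** -/
theorem dvs47 (X : Var) (d N : ℕ) (U : X.X.Opens) (x : Pt X.X) (hd : 1 ≤ d)
    (a : dimension X.str = d) (hx : x.In U) (h : Spherical N U) :
    ∃ (c : Fin N → ℕ) (H : Subgroup (GL (Fin N) ℂ)) (ι : X.K →ₐ[ℂ] LL c),
      Sph H ι ∧ Dvs ι (Sg.T20.pls (X := X.o) U) := by
  obtain ⟨c, H, ι, h1, h2, h3, h4⟩ := h
  obtain ⟨n, rfl⟩ : ∃ n, d = n + 1 := ⟨d - 1, by omega⟩
  have hK := P283M.Br.ffd X.o _ a
  have S : Sph H ι := ⟨h1, h2, h3⟩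
  refine ⟨c, H, ι, S, fun φ => Sg.T20.fn (P283M.Br.fin X.o φ) fun E e =>
    (Gl.pq_ord E φ).trans_ne e, ?_, ?_⟩
  · rintro g hg _ ⟨E, e, rfl⟩
    obtain ⟨σ, hσ⟩ := S.mvK hg
    obtain ⟨x', e', k⟩ := h4 g hg E.1 e
    obtain ⟨E', b, w⟩ := D47.tra (X := X.o) (W := U) σ E e' fun a =>
      k a (σ a) ((shl_iff hg).2 (hσ a))
    refine ⟨_, ⟨E', b, rfl⟩, fun a a' s => ?_⟩
    obtain rfl : a' = σ a := ι.injective (((shl_iff hg).1 s).trans (hσ a).symm)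
    exact w a
  · obtain ⟨A, k⟩ := D47.cht (X := X.o) (W := U) hK hx
    exact ⟨n, A, hK, k⟩

end Vale.Agent.P283R.Sp
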