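import Vale.Agent.P283R.Sp.St

/-!
# P283R, block SP: the determinant, left and right, the number of the colours
-/

set_option linter.all false

open Set

noncomputable section

namespace Vale.Agent.P283R.Sp

open Vale.Agent.P287D Vale.Agent.P283M Sl MvPolynomial

namespace D38

/-- a derivation which acts on one row only -/
theorem der_det {R n : Type} [CommRing R] [Algebra ℂ R] [Fintype n] [DecidableEq n]
    (D : Derivation ℂ R R) (M : Matrix n n R) (j : n) (v : n → R)
    (h0 : ∀ r, r ≠ j → ∀ a, D (M r a) = 0) (h1 : ∀ a, D (M j a) = v a) :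
    D M.det = (M.updateRow j v).det := by
  rw [← Matrix.det_transpose, ← Matrix.det_transpose (M.updateRow j v), Matrix.det_apply,
    Matrix.det_apply, map_sum]
  refine Finset.sum_congr rfl fun σ _ => ?_
  rw [Units.smul_def, Units.smul_def, map_zsmul]
  congr 1
  simp only [Matrix.transpose_apply]
  rw [← Finset.mul_prod_erase _ _ (Finset.mem_univ j),
    ← Finset.mul_prod_erase Finset.univ (fun i => M.updateRow j v i (σ i)) (Finset.mem_univ j)]
  have a : D (∏ i ∈ Finset.univ.erase j, M i (σ i)) = 0 :=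
    Finset.prod_induction _ (fun x => D x = 0)
      (fun x y hx hy => by rw [Derivation.leibniz, hx, hy, smul_zero, smul_zero, add_zero])
      D.map_one_eq_zero fun i hi => h0 i (Finset.ne_of_mem_erase hi) _
  rw [Derivation.leibniz, a, h1, smul_zero, zero_add, smul_eq_mul, mul_comm,
    Matrix.updateRow_self]
  congr 1
  exact Finset.prod_congr rfl fun i hi => by rw [Matrix.updateRow_ne (Finset.ne_of_mem_erase hi)]

variable {N : ℕ} {c : Fin N → ℕ}

theorem bv_X (w : Vr c) : blockVar c w.1.1 w.1.2 = X w := by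
  simp only [blockVar, dif_pos w.2]

theorem bv_ne {i j : Fin N} (h : c i ≠ c j) : blockVar c i j = 0 := by
  simp only [blockVar, dif_neg h]

theorem dd_X (i j : Fin N) (w : Vr c) :
    dd c i j (X w) = if w.1.1 = j then X (sw c i w) else 0 := mkDerivation_X _ _ _

/-- the vector field on the generic matrix -/
theorem dd_bv {i j : Fin N} (h : c i = c j) (r a : Fin N) :
    dd c i j (blockVar c r a) = if r = j then blockVar c i a else 0 := by
  by_cases e : c r = c a
  · rw [show blockVar c r a = X ⟨(r, a), e⟩ from bv_X ⟨(r, a), e⟩, dd_X]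
    split_ifs with z
    · have z' : r = j := z
      have e' : c i = c a := h.trans (z' ▸ e)
      simp only [sw, dif_pos e', blockVar]
    · rfl
  · rw [bv_ne e, map_zero]
    split_ifs with z
    · exact (bv_ne fun e' => e (z ▸ h.symm.trans e')).symm
    · rfl

/-- substitution of a block matrix -/
theorem map_bv {R : Type} [CommRing R] [Algebra ℂ R] (M : Matrix (Fin N) (Fin N) R)
    (hM : ∀ i j, c i ≠ c j → M i j = 0) :
    (blockVar c).map (aeval (fun e : Vr c => M e.1.1 e.1.2) : BlockPoly c →ₐ[ℂ] R) = M := by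
  ext i j
  rw [Matrix.map_apply]
  by_cases e : c i = c j
  · rw [show blockVar c i j = X ⟨(i, j), e⟩ from bv_X ⟨(i, j), e⟩, aeval_X]
  · rw [bv_ne e, map_zero, hM i j e]

theorem aev_del {R : Type} [CommRing R] [Algebra ℂ R] (M : Matrix (Fin N) (Fin N) R)
    (hM : ∀ i j, c i ≠ c j → M i j = 0) :
    (aeval (fun e : Vr c => M e.1.1 e.1.2) : BlockPoly c →ₐ[ℂ] R) (del c) = M.det := by
  rw [del, AlgHom.map_det, AlgHom.mapMatrix_apply, map_bv M hM]

theorem blk_mul {R : Type} [CommRing R] {M M' : Matrix (Fin N) (Fin N) R}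
    (h : ∀ i j, c i ≠ c j → M i j = 0) (h' : ∀ i j, c i ≠ c j → M' i j = 0) (i j : Fin N)
    (e : c i ≠ c j) : (M * M') i j = 0 := by
  rw [Matrix.mul_apply]
  refine Finset.sum_eq_zero fun a _ => ?_
  by_cases z : c i = c a
  · rw [h' a j fun e' => e (z.trans e'), mul_zero]
  · rw [h i a z, zero_mul]

theorem blk_C {g : Matrix (Fin N) (Fin N) ℂ} (h : Block c g) (i j : Fin N) (e : c i ≠ c j) :
    (g.map (C : ℂ → BlockPoly c)) i j = 0 := by
  rw [Matrix.map_apply, h i j e, map_zero]

theorem sh_mul (g h : Matrix (Fin N) (Fin N) ℂ) (p q : BlockPoly c) :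
    shift c g h (p * q) = shift c g h p * shift c g h q := map_mul _ _ _

theorem sh_X (h : Matrix (Fin N) (Fin N) ℂ) (w : Vr c) :
    shift c 1 h (X w) = ∑ a, h a w.1.2 • blockVar c w.1.1 a := by
  rw [shift, aeval_X, Matrix.map_one _ (map_zero _) (map_one _), one_mul, Matrix.mul_apply]
  exact Finset.sum_congr rfl fun a _ => by rw [Matrix.map_apply, mul_comm, C_mul']

theorem hi_mul {p q : BlockPoly c} (hp : Hi p) (hq : Hi q) : Hi (p * q) := fun i j e l => by
  obtain ⟨a, ha⟩ := hp i j e l
  obtain ⟨b, hb⟩ := hq i j e l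
  refine ⟨a + b, ?_⟩
  rw [Derivation.leibniz, ha, hb, smul_eq_mul, smul_eq_mul, mul_smul_comm, mul_smul_comm, add_smul,
    mul_comm q, add_comm]

theorem hi_one : Hi (1 : BlockPoly c) := fun i j _ _ =>
  ⟨0, by rw [Derivation.map_one_eq_zero, zero_smul]⟩

theorem sem_mul {H : Subgroup (GL (Fin N) ℂ)} {p q : BlockPoly c} (hp : Sem H p) (hq : Sem H q) :
    Sem H (p * q) := fun h e => by
  obtain ⟨a, ha⟩ := hp h e
  obtain ⟨b, hb⟩ := hq h e
  exact ⟨a * b, by rw [sh_mul, ha, hb, smul_mul_smul_comm]⟩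

theorem sem_one {H : Subgroup (GL (Fin N) ℂ)} : Sem H (1 : BlockPoly c) := fun h _ =>
  ⟨1, by rw [one_smul]; exact map_one _⟩

theorem deg_pos {σ : Type} {p : MvPolynomial σ ℂ} (p0 : p ≠ 0) (h : ¬ IsUnit p) :
    1 ≤ p.totalDegree := by
  by_contra z
  have e := totalDegree_eq_zero_iff_eq_C.1 (show p.totalDegree = 0 by omega)
  refine h (e ▸ (IsUnit.mk0 _ fun a => p0 ?_).map C)
  rw [e, a, map_zero]

theorem deg_prod {σ ι : Type} (f : ι → MvPolynomial σ ℂ) (s : Finset ι) (f0 : ∀ i ∈ s, f i ≠ 0)
    (h : ∀ i ∈ s, ¬ IsUnit (f i)) : s.card ≤ (∏ i ∈ s, f i).totalDegree := by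
  classical
  induction s using Finset.induction_on with
  | empty => simp
  | insert a s ha ih =>
    have a0 := f0 a (Finset.mem_insert_self _ _)
    have s0 : ∀ i ∈ s, f i ≠ 0 := fun i hi => f0 i (Finset.mem_insert_of_mem hi)
    rw [Finset.prod_insert ha, Finset.card_insert_of_notMem ha,
      totalDegree_mul_of_isDomain a0 (Finset.prod_ne_zero_iff.2 s0)]
    have := deg_pos a0 (h a (Finset.mem_insert_self _ _))
    have := ih s0 fun i hi => h i (Finset.mem_insert_of_mem hi)
    omega

end D38

open D38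

theorem del38 : DEL := fun N c => by
  refine ⟨fun z => ?_, fun i j e => ?_, fun g h hg hh => ?_⟩
  · have := aev_del (c := c) (1 : Matrix (Fin N) (Fin N) ℂ) fun i j e =>
      Matrix.one_apply_ne fun a => e (congrArg c a)
    rw [z, map_zero, Matrix.det_one] at this
    exact zero_ne_one this
  · rw [del, der_det (dd c i j) (blockVar c) j (blockVar c i)
      (fun r hr a => by rw [dd_bv e, if_neg hr]) fun a => by rw [dd_bv e, if_pos rfl]]
    split_ifs with z
    · rw [z, Matrix.updateRow_eq_self]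
    · exact Matrix.det_updateRow_eq_zero z
  · rw [shift, aev_del _ (blk_mul (blk_mul (blk_C hg) fun _ _ => bv_ne) (blk_C hh)),
      Matrix.det_mul, Matrix.det_mul, ← RingHom.mapMatrix_apply, ← RingHom.mapMatrix_apply,
      ← RingHom.map_det, ← RingHom.map_det, ← C_mul', map_mul, del]
    ring

theorem com38 : COM := fun N c h _ i j e p => by
  induction p using MvPolynomial.induction_on with
  | C a =>
    have a1 : shift c 1 h (C a) = C a := aeval_C _ _
    rw [a1, derivation_C]
    exact map_zero _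
  | add p q hp hq =>
    have a1 : ∀ p q, shift c 1 h (p + q) = shift c 1 h p + shift c 1 h q := fun _ _ => map_add _ _ _
    rw [map_add, a1, a1, map_add, hp, hq]
  | mul_X p w hp =>
    have a1 : ∀ p q, shift c 1 h (p + q) = shift c 1 h p + shift c 1 h q := fun _ _ => map_add _ _ _
    have a2 : shift c 1 h (dd c i j (X w)) = dd c i j (shift c 1 h (X w)) := by
      rw [sh_X, map_sum, dd_X]
      simp only [Derivation.map_smul, dd_bv e]
      split_ifs with z
      · have e' : c i = c w.1.2 := e.trans (z ▸ w.2)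
        rw [sh_X]
        simp only [sw, dif_pos e']
      · simp only [smul_zero, Finset.sum_const_zero]
        exact map_zero _
    rw [Derivation.leibniz, sh_mul, Derivation.leibniz, smul_eq_mul, smul_eq_mul, smul_eq_mul,
      smul_eq_mul, a1, sh_mul, sh_mul, hp, a2]

theorem cnt38 (col : COL) : CNT := fun N c K _ _ H ι T V f h => by
  have key : ∀ s : Finset (Pl K), ↑s ⊆ {E ∈ V | Hi (f E)} → s.card ≤ 2 * N ^ 2 := fun s hs => by
    refine (deg_prod f s (fun E _ => (h.sqf E).ne_zero) fun E e => h.nc E (hs e).1).trans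
      (col N c K H ι h.sph _ ?_ (IsRelPrime.prod_left fun E _ => h.cop E) ?_ ?_)
    · exact Finset.squarefree_prod_of_pairwise_isCoprime (fun E _ E' _ e => h.cop2 E E' e)
        fun E _ => h.sqf E
    · exact Finset.prod_induction _ _ (fun _ _ => hi_mul) hi_one fun E e => (hs e).2
    · exact Finset.prod_induction _ _ (fun _ _ => sem_mul) sem_one fun E _ => h.sem E
  have fin : {E ∈ V | Hi (f E)}.Finite := by
    by_contra z
    obtain ⟨s, hs, e⟩ := Set.Infinite.exists_subset_card_eq z (2 * N ^ 2 + 1)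
    have := key s hs
    omega
  refine ⟨fin, ?_, fun E e => col N c K H ι h.sph _ (h.sqf E) (h.cop E) e (h.sem E)⟩
  rw [Set.ncard_eq_toFinset_card _ fin]
  exact key _ (by simp)

end Vale.Agent.P283R.Sp
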