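import Vale.Agent.P283R.To.Gs2
import Vale.Agent.P287D.Bm.Sub

/-!
# P283R, block SP: prime divisors along a dominant map of affine models
-/

set_option linter.all false

open Set
open Vale.Agent.P297Z Vale.Agent.P287D

noncomputable section

namespace Vale.Agent.P283R.Sp.V61

variable {K L : Type} [Field K] [Field L] [Algebra ℂ K] [Algebra ℂ L] {d n : ℕ}

/-- the centre of `R` on `Spec T` has dimension at least `m` -/
def Pd (m : ℕ) (T : Subalgebra ℂ K) (R : Pl K) : Prop :=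
  (∀ a ∈ T, a ∈ R.ring) ∧ ∃ v : Fin m → K, (∀ i, v i ∈ T) ∧
    AlgebraicIndependent ℂ fun i => R.rd (v i)

theorem rd_ne {R : Pl K} {a : K} (a0 : a ≠ 0) (h : R.ord a = 0) : R.rd a ≠ 0 := fun e => by
  rcases (Bm.rd_zero_iff R ((Pl.ord_nonneg_iff _ a0).1 h.ge)).1 e with k | k
  · exact a0 k
  · omega

theorem ord_prod {ι : Type} {R : Pl K} {s : Finset ι} {c : ι → K} (m : ∀ i ∈ s, c i ∈ R.ring)
    (h0 : ∏ i ∈ s, c i ≠ 0) (h : R.ord (∏ i ∈ s, c i) = 0) {i : ι} (hi : i ∈ s) :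
    R.rd (c i) ≠ 0 := by
  classical
  rw [← Finset.mul_prod_erase _ _ hi] at h h0
  have m' : ∏ j ∈ s.erase i, c j ∈ R.ring := prod_mem fun j hj => m j (Finset.mem_of_mem_erase hj)
  rw [Pl.ord_mul _ (left_ne_zero_of_mul h0) (right_ne_zero_of_mul h0)] at h
  have a := Pl.ord_nonneg_of_mem _ (m i hi)
  have b := Pl.ord_nonneg_of_mem _ m'
  exact rd_ne (left_ne_zero_of_mul h0) (by omega)

variable [Algebra K L] [IsScalarTower ℂ K L]

/-- the residue map as a map of algebras -/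
def kh {R : Pl L} {Q : Pl K} (l : Lies (algebraMap K L) R Q) : Q.κ →ₐ[ℂ] R.κ :=
  { l.κ with
    commutes' := fun c => by
      have := l.isRd _ (Q.con c)
      rw [Bm.rd_const, ← IsScalarTower.algebraMap_apply, Bm.rd_const] at this
      exact this }

variable {ι : Type} {A : Subalgebra ℂ K} {y : ι → L} {B : Finset L}

/-- evaluation of polynomials -/
def ev (A : Subalgebra ℂ K) (y : ι → L) : MvPolynomial ι A →+* L :=
  MvPolynomial.eval₂Hom ((algebraMap K L).comp A.val.toRingHom) y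

theorem ev_C (a : A) : ev A y (MvPolynomial.C a) = algebraMap K L a := MvPolynomial.eval₂Hom_C _ _ _

theorem ev_X (i : ι) : ev A y (MvPolynomial.X i) = y i := MvPolynomial.eval₂Hom_X' _ _ _

theorem ev_mem {σ : Type} [SetLike σ L] [SubringClass σ L] (S : σ)
    (h1 : ∀ a ∈ A, algebraMap K L a ∈ S) (h2 : ∀ i, y i ∈ S) (w : MvPolynomial ι A) :
    ev A y w ∈ S := by
  induction w using MvPolynomial.induction_on with
  | C a => rw [ev_C]; exact h1 a a.2
  | add p q hp hq => rw [map_add]; exact add_mem hp hq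
  | mul_X p j hp => rw [map_mul, ev_X]; exact mul_mem hp (h2 j)

theorem exists_eq (fA : ∀ x : K, ∃ s ∈ A, ∃ t ∈ A, x = s / t) (hy : IsTranscendenceBasis K y) :
    Function.Injective (ev A y) ∧ ∀ b : L, ∃ q : Polynomial (MvPolynomial ι A), q ≠ 0 ∧
      q.eval₂ (ev A y) b = 0 := by
  have : IsFractionRing A K := .of_field _ _ fun x =>
    let ⟨s, hs, t, ht, e⟩ := fA x; ⟨⟨s, hs⟩, ⟨t, ht⟩, e⟩
  have := IsLocalization.isAlgebraic K (nonZeroDivisors A)
  have t3 : IsTranscendenceBasis A y := (Algebra.IsAlgebraic.isTranscendenceBasis_iff A K).2 hy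
  refine ⟨t3.1, fun b => ?_⟩
  obtain ⟨q, q0, hq⟩ := t3.isAlgebraic.isAlgebraic b
  refine ⟨q.map t3.1.aevalEquiv.symm.toRingEquiv.toRingHom, fun e => q0
    (Polynomial.map_injective _ t3.1.aevalEquiv.symm.injective
      (e.trans (Polynomial.map_zero _).symm)), ?_⟩
  rw [Polynomial.eval₂_map]
  refine Eq.trans ?_ hq
  rw [Polynomial.aeval_def]
  congr 1
  refine RingHom.ext fun w => ?_
  obtain ⟨w, rfl⟩ := t3.1.aevalEquiv.surjective w
  refine Eq.trans ?_ (t3.1.algebraMap_aevalEquiv w).symm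
  exact congrArg (ev A y) (t3.1.aevalEquiv.symm_apply_apply w)

theorem alg_rd {R : Pl L} {T : Subalgebra ℂ L} (r1 : ∀ a ∈ T, a ∈ R.ring)
    (hA : ∀ a ∈ A, algebraMap K L a ∈ T) (hy : ∀ i, y i ∈ T) {b : L} (hb : b ∈ T)
    {q : Polynomial (MvPolynomial ι A)} (hq : q.eval₂ (ev A y) b = 0)
    (h0 : R.rd (ev A y q.leadingCoeff) ≠ 0) {S : Subalgebra ℂ R.κ}
    (s1 : ∀ a : A, R.rd (algebraMap K L a) ∈ S) (s2 : ∀ i, R.rd (y i) ∈ S) :
    IsAlgebraic S (R.rd b) := by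
  have mT := ev_mem T hA hy
  let ρ : T →+* R.κ := Bm.rdh R T r1
  let χ : MvPolynomial ι A →+* T := (ev A y).codRestrict T mT
  have mS : ∀ w, R.rd (ev A y w) ∈ S := fun w => by
    induction w using MvPolynomial.induction_on with
    | C a => rw [ev_C]; exact s1 a
    | add p q hp hq => rw [map_add, Bm.rd_add R (r1 _ (mT _)) (r1 _ (mT _))]; exact add_mem hp hq
    | mul_X p j hp =>
      rw [map_mul, Bm.rd_mul R (r1 _ (mT _)) (r1 _ (mT _)), ev_X]
      exact mul_mem hp (s2 j)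
  let θ : MvPolynomial ι A →+* S := (ρ.comp χ).codRestrict S mS
  have n0 : θ q.leadingCoeff ≠ 0 := fun e => h0 (congrArg Subtype.val e)
  refine ⟨q.map θ, fun e => n0 ?_, ?_⟩
  · rw [← Polynomial.leadingCoeff_map_of_leadingCoeff_ne_zero θ n0, e,
      Polynomial.leadingCoeff_zero]
  · have e : q.eval₂ χ ⟨b, hb⟩ = 0 := Subtype.ext
      ((Polynomial.hom_eval₂ q χ T.val.toRingHom _).trans hq)
    rw [Polynomial.aeval_def, Polynomial.eval₂_map]
    exact (Polynomial.hom_eval₂ q χ ρ ⟨b, hb⟩).symm.trans ((congrArg ρ e).trans (map_zero ρ))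

theorem pick {F : Type} [Field F] [Algebra ℂ F] (hF : Algebra.trdeg ℂ F = n) {s₁ s₂ : Set F}
    (h : Algebra.IsAlgebraic (Algebra.adjoin ℂ (s₁ ∪ s₂)) F) {c : Cardinal}
    (h2 : Cardinal.mk s₂ ≤ c) (ct : c + d = n) :
    ∃ z : Fin d → F, (∀ i, z i ∈ s₁) ∧ AlgebraicIndependent ℂ z := by
  obtain ⟨u, u1, u2⟩ := exists_isTranscendenceBasis_subset (R := ℂ) (s₁ ∪ s₂)
  have cu : (d : Cardinal) ≤ Cardinal.mk ↥(u ∩ s₁) := by
    have k1 : Cardinal.mk u ≤ Cardinal.mk ↥(u ∩ s₁) + c :=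
      (Cardinal.mk_le_mk_of_subset (t := u ∩ s₁ ∪ s₂) fun x hx =>
        (u1 hx).imp (fun k => ⟨hx, k⟩) id).trans ((Cardinal.mk_union_le _ _).trans
          (add_le_add_right h2 _))
    rw [u2.cardinalMk_eq_trdeg, hF, ← ct, add_comm] at k1
    exact (Cardinal.add_le_add_iff_of_lt_aleph0
      ((le_self_add.trans ct.le).trans_lt Cardinal.natCast_lt_aleph0)).1 k1
  rw [← Cardinal.mk_fin, Cardinal.le_def] at cu
  obtain ⟨e⟩ := cu
  exact ⟨fun i => e i, fun i => (e i).2.2, u2.1.comp (fun i => (⟨e i, (e i).2.1⟩ : u)) fun i j h =>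
    e.injective (Subtype.ext (Subtype.mk.inj h))⟩

theorem down (hL : FF L (n + 1)) (ct : Cardinal.mk ι + d = n)
    (hA : ∀ a ∈ A, algebraMap K L a ∈ Algebra.adjoin ℂ (B : Set L))
    (hy : ∀ i, y i ∈ Algebra.adjoin ℂ (B : Set L)) {q : L → Polynomial (MvPolynomial ι A)}
    (hq : ∀ b, (q b).eval₂ (ev A y) b = 0) {R : Pl L} {Q : Pl K}
    (hR : Pd n (Algebra.adjoin ℂ (B : Set L)) R)
    (h0 : ∀ b ∈ B, R.rd (ev A y (q b).leadingCoeff) ≠ 0) (l : Lies (algebraMap K L) R Q) :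
    Pd d A Q := by
  obtain ⟨r1, v, v1, v2⟩ := hR
  have mA : ∀ a ∈ A, a ∈ Q.ring := fun a ha => (l a).2 (r1 _ (hA a ha))
  refine ⟨mA, ?_⟩
  let s₁ : Set R.κ := range fun a : A => R.rd (algebraMap K L a)
  let s₂ : Set R.κ := range fun i => R.rd (y i)
  have aT : ∀ x, ∀ hx : x ∈ Algebra.adjoin ℂ (B : Set L),
      IsAlgebraic (Algebra.adjoin ℂ (s₁ ∪ s₂)) (R.rd x) := fun x hx => by
    induction hx using Algebra.adjoin_induction with
    | mem x hx =>
      exact alg_rd r1 hA hy (Algebra.subset_adjoin hx) (hq x) (h0 x hx)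
        (fun a => Algebra.subset_adjoin (Or.inl ⟨a, rfl⟩))
        (fun i => Algebra.subset_adjoin (Or.inr ⟨i, rfl⟩))
    | algebraMap c =>
      rw [Bm.rd_const, IsScalarTower.algebraMap_apply ℂ (Algebra.adjoin ℂ (s₁ ∪ s₂))]
      exact isAlgebraic_algebraMap _
    | add x y hx hy a b => rw [Bm.rd_add R (r1 x hx) (r1 y hy)]; exact a.add b
    | mul x y hx hy a b => rw [Bm.rd_mul R (r1 x hx) (r1 y hy)]; exact a.mul b
  have b := v2.isTranscendenceBasis_of_trdeg_le_of_finite (by simp [Bm.trdeg_κ hL R])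
  obtain ⟨z, z1, z2⟩ := pick (Bm.trdeg_κ hL R) (s₁ := s₁) (s₂ := s₂)
    ⟨fun z => IsAlgebraic.adjoin_of_forall_isAlgebraic
      (by rintro _ ⟨⟨i, rfl⟩, -⟩; exact aT _ (v1 i)) (b.isAlgebraic.isAlgebraic z)⟩
    Cardinal.mk_range_le ct
  choose w hw using z1
  refine ⟨fun i => w i, fun i => (w i).2, AlgebraicIndependent.of_comp (kh l) ?_⟩
  refine (congrArg (fun w => AlgebraicIndependent ℂ w) (funext fun i => ?_)).mp z2
  exact (hw i).symm.trans (l.isRd _ (mA _ (w i).2)).symm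

theorem mem_up {R : Pl L} {Q : Pl K} (l : Lies (algebraMap K L) R Q) (r1 : ∀ a ∈ A, a ∈ Q.ring)
    (y1 : ∀ i, y i ∈ R.ring)
    (y2 : ∀ p, MvPolynomial.eval₂ l.κ (fun i => R.rd (y i)) p = 0 → p = 0) {b : L}
    {q : Polynomial (MvPolynomial ι A)} (hq : q.eval₂ (ev A y) b = 0) {μ : ι →₀ ℕ}
    (h0 : Q.rd (q.leadingCoeff.coeff μ : A) ≠ 0) : b ∈ R.ring := by
  have mR := ev_mem R.ring (fun a ha => (l _).1 (r1 a ha)) y1
  let χ : MvPolynomial ι A →+* R.ring := (ev A y).codRestrict R.ring mR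
  let ρ : A →+* Q.κ := Bm.rdh Q A r1
  have e : ∀ w, R.rd (ev A y w) =
      MvPolynomial.eval₂ l.κ (fun i => R.rd (y i)) (MvPolynomial.map ρ w) := fun w => by
    induction w using MvPolynomial.induction_on with
    | C a =>
      rw [ev_C, MvPolynomial.map_C, MvPolynomial.eval₂_C]
      exact (l.isRd _ (r1 a a.2)).symm
    | add p q hp hq => rw [map_add, map_add, MvPolynomial.eval₂_add, Bm.rd_add R (mR _) (mR _),
        hp, hq]
    | mul_X p j hp => rw [map_mul, map_mul, MvPolynomial.eval₂_mul, Bm.rd_mul R (mR _) (mR _),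
        hp, ev_X, MvPolynomial.map_X, MvPolynomial.eval₂_X]
  have n0 : R.rd (ev A y q.leadingCoeff) ≠ 0 := fun k => h0 (by
    have := congrArg (MvPolynomial.coeff μ) (y2 _ ((e _).symm.trans k))
    rwa [MvPolynomial.coeff_map] at this)
  have k := mt (Bm.rd_zero_iff R (mR _)).2 n0
  rw [not_or, not_lt] at k
  have i := ((Pl.ord_eq_zero_iff R.toPlace k.1).1
    (le_antisymm k.2 (Pl.ord_nonneg_of_mem _ (mR _)))).2
  obtain ⟨p, p1, p2⟩ := (ev A y).isIntegralElem_leadingCoeff_mul q b hq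
  have j' : IsIntegral R.ring (ev A y q.leadingCoeff * b) :=
    ⟨p.map χ, p1.map _, by rw [Polynomial.eval₂_map]; exact p2⟩
  obtain ⟨w, hw⟩ := IsIntegrallyClosed.isIntegral_iff.1 j'
  rw [← inv_mul_cancel_left₀ k.1 b, ← hw]
  exact mul_mem i w.2

theorem ind_up {R : Pl L} {Q : Pl K} (l : Lies (algebraMap K L) R Q) (ct : Cardinal.mk ι + d = n)
    (y2 : ∀ p, MvPolynomial.eval₂ l.κ (fun i => R.rd (y i)) p = 0 → p = 0) {v : Fin d → K}
    (v1 : ∀ i, v i ∈ Q.ring) (v2 : AlgebraicIndependent ℂ fun i => Q.rd (v i)) :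
    ∃ e : Fin n → ι ⊕ Fin d, AlgebraicIndependent ℂ fun i =>
      R.rd (Sum.elim y (fun j => algebraMap K L (v j)) (e i)) := by
  let _ := l.κ.toAlgebra
  have : IsScalarTower ℂ Q.κ R.κ := .of_algebraMap_eq fun c => ((kh l).commutes c).symm
  have k := v2.sumElim_comp (A := R.κ) (y := fun i => R.rd (y i)) (algebraicIndependent_iff.2 y2)
  obtain ⟨e⟩ : Nonempty (Fin n ≃ ι ⊕ Fin d) := Cardinal.eq.1 (by simp [ct])
  refine ⟨e, (congrArg (fun w => AlgebraicIndependent ℂ w) (funext fun i => ?_)).mp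
    (k.comp e e.injective)⟩
  simp only [Function.comp_apply]
  rcases e i with j | j
  exacts [rfl, l.isRd _ (v1 j)]

theorem val (hK : FF K (d + 1)) (hL : FF L (n + 1)) (A : Subalgebra ℂ K)
    (fA : ∀ x : K, ∃ s ∈ A, ∃ t ∈ A, x = s / t) (B : Finset L)
    (fB : ∀ x : L, ∃ s ∈ Algebra.adjoin ℂ (B : Set L), ∃ t ∈ Algebra.adjoin ℂ (B : Set L), x = s / t)
    (hA : ∀ a ∈ A, algebraMap K L a ∈ Algebra.adjoin ℂ (B : Set L)) :
    (∃ c ∈ Algebra.adjoin ℂ (B : Set L), c ≠ 0 ∧ ∀ (R : Pl L) (Q : Pl K),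
      Pd n (Algebra.adjoin ℂ (B : Set L)) R → R.ord c = 0 → Lies (algebraMap K L) R Q → Pd d A Q) ∧
    ∃ a ∈ A, a ≠ 0 ∧ ∀ Q : Pl K, Pd d A Q → Q.ord a = 0 →
      ∃ R, Lies (algebraMap K L) R Q ∧ Pd n (Algebra.adjoin ℂ (B : Set L)) R := by
  classical
  have le : ∀ x ∈ Algebra.adjoin ℂ (B : Set L), x ∈ Algebra.adjoin K (B : Set L) := fun x hx => by
    induction hx using Algebra.adjoin_induction with
    | mem x hx => exact Algebra.subset_adjoin hx
    | algebraMap c => rw [IsScalarTower.algebraMap_apply ℂ K L]; exact Subalgebra.algebraMap_mem _ _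
    | add x y _ _ a b => exact add_mem a b
    | mul x y _ _ a b => exact mul_mem a b
  have : IsFractionRing (Algebra.adjoin K (B : Set L)) L := .of_field _ _ fun x =>
    let ⟨s, hs, t, ht, e⟩ := fB x; ⟨⟨s, le s hs⟩, ⟨t, le t ht⟩, e⟩
  have := IsLocalization.isAlgebraic L (nonZeroDivisors (Algebra.adjoin K (B : Set L)))
  obtain ⟨t, t1, t2⟩ := exists_isTranscendenceBasis_subset (R := K) (B : Set L)
  have ct : Cardinal.mk t + d = n := by
    have k := trdeg_add_eq ℂ K (A := L)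
    rw [Bm.trdeg_eq hK, Bm.trdeg_eq hL, ← t2.cardinalMk_eq_trdeg, Nat.cast_succ, Nat.cast_succ,
      add_right_comm, Cardinal.add_one_inj, add_comm] at k
    exact k
  have hy : ∀ i : t, (i : L) ∈ Algebra.adjoin ℂ (B : Set L) := fun i =>
    Algebra.subset_adjoin (t1 i.2)
  obtain ⟨inj, ex⟩ := exists_eq fA t2
  choose q q0 hq using ex
  have lc : ∀ b, (q b).leadingCoeff ≠ 0 := fun b => Polynomial.leadingCoeff_ne_zero.2 (q0 b)
  have mT := ev_mem _ hA hy
  constructor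
  · have c0 : ∏ b ∈ B, ev A ((↑) : t → L) (q b).leadingCoeff ≠ 0 :=
      Finset.prod_ne_zero_iff.2 fun b _ => (map_ne_zero_iff _ inj).2 (lc b)
    exact ⟨_, prod_mem fun b _ => mT _, c0, fun R Q hR hc l => down hL ct hA hy hq hR
      (fun b hb => ord_prod (fun b _ => hR.1 _ (mT _)) c0 hc hb) l⟩
  · choose μ hμ using fun b => MvPolynomial.ne_zero_iff.1 (lc b)
    have a0 : ∏ b ∈ B, (((q b).leadingCoeff.coeff (μ b) : A) : K) ≠ 0 :=
      Finset.prod_ne_zero_iff.2 fun b _ e => hμ b (Subtype.ext e)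
    refine ⟨_, prod_mem fun b _ => ((q b).leadingCoeff.coeff (μ b)).2, a0,
      fun Q ⟨r1, v, v1, v2⟩ ha => ?_⟩
    obtain ⟨R, l, y1, y2⟩ := To.gauss_alg hL t2 Q
    let O : Subalgebra ℂ L := { R.ring.toSubring with algebraMap_mem' := R.con }
    obtain ⟨e, he⟩ := ind_up l ct y2 (fun i => r1 _ (v1 i)) v2
    refine ⟨R, l, fun a h => (Algebra.adjoin_le (S := O) fun b hb => mem_up l r1 y1 y2 (hq b)
      (ord_prod (fun b _ => r1 _ ((q b).leadingCoeff.coeff (μ b)).2) a0 ha hb)) h, _,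
      fun i => ?_, he⟩
    rcases e i with j | j
    exacts [hy j, hA _ (v1 j)]

/-- no ramification -/
theorem e_one {R : Pl L} {Q : Pl K} (l : Lies (algebraMap K L) R Q) (D : Derivation ℂ L L)
    (hK : ∀ a : K, ∃ b : K, D (algebraMap K L a) = algebraMap K L b)
    (hR : ∀ a ∈ R.ring, D a ∈ R.ring) {π : L} (h1 : R.ord π = 1) (h0 : D π ≠ 0)
    (h2 : R.ord (D π) = 0) (a : K) : R.ord (algebraMap K L a) = Q.ord a := by
  have : CharZero L := charZero_of_injective_algebraMap (algebraMap ℂ L).injective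
  obtain ⟨e, he⟩ := Int.eq_ofNat_of_zero_le l.e_pos.le
  have e0 := l.e_pos
  obtain ⟨e, rfl⟩ : ∃ k, e = k + 1 := ⟨e - 1, by omega⟩
  have π0 : π ≠ 0 := fun k => h0 (by rw [k, map_zero])
  have t0 : algebraMap K L Q.t ≠ 0 := (map_ne_zero _).2 Q.t_ne
  have pk : ∀ k : ℕ, R.ord (π ^ k) = k := fun k => by
    induction k with
    | zero => simp
    | succ k ih => rw [pow_succ, Pl.ord_mul _ (pow_ne_zero _ π0) π0, ih, h1, Nat.cast_succ]
  obtain ⟨u, hu⟩ : ∃ u, algebraMap K L Q.t = u * π ^ (e + 1) :=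
    ⟨_, (div_mul_cancel₀ _ (pow_ne_zero _ π0)).symm⟩
  have u0 : u ≠ 0 := left_ne_zero_of_mul (hu ▸ t0)
  have ou : R.ord u = 0 := by
    have := he
    rw [hu, Pl.ord_mul _ u0 (pow_ne_zero _ π0), pk] at this
    omega
  have um := (Pl.ord_nonneg_iff _ u0).1 ou.ge
  obtain ⟨b, hb⟩ := hK Q.t
  have eb : algebraMap K L b = π ^ e * (((e + 1 : ℕ) : L) * u * D π + π * D u) := by
    rw [← hb, hu, Derivation.leibniz, Derivation.leibniz_pow]
    simp only [smul_eq_mul, nsmul_eq_mul, Nat.add_sub_cancel]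
    ring
  have c0 : ((e + 1 : ℕ) : L) ≠ 0 := Nat.cast_ne_zero.2 e.succ_ne_zero
  have oc : R.ord ((e + 1 : ℕ) : L) = 0 := by
    have m : ∀ c : ℂ, algebraMap ℂ L c ∈ R.ring := R.con
    have a1 := m (e + 1 : ℕ)
    have a2 := m (e + 1 : ℕ)⁻¹
    rw [map_inv₀] at a2
    rw [map_natCast] at a1 a2
    exact Pl.ord_unit _ a1 a2
  have w0 := mul_ne_zero (mul_ne_zero c0 u0) h0
  have ow : R.ord (((e + 1 : ℕ) : L) * u * D π) = 0 := by
    rw [Pl.ord_mul _ (mul_ne_zero c0 u0) h0, Pl.ord_mul _ c0 u0, oc, ou, h2]; rfl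
  have wm := (Pl.ord_nonneg_iff _ w0).1 ow.ge
  have πm := (Pl.ord_nonneg_iff _ π0).1 (h1 ▸ zero_le_one)
  have r : R.rd (((e + 1 : ℕ) : L) * u * D π + π * D u) ≠ 0 := by
    rw [Bm.rd_add R wm (mul_mem πm (hR u um)), Bm.rd_mul R πm (hR u um),
      (Bm.rd_zero_iff R πm).2 (.inr (h1 ▸ one_pos)), zero_mul, add_zero]
    exact rd_ne w0 ow
  have k := mt (Bm.rd_zero_iff R (add_mem wm (mul_mem πm (hR u um)))).2 r
  rw [not_or, not_lt] at k
  have k2 := le_antisymm k.2 (Pl.ord_nonneg_of_mem _ (add_mem wm (mul_mem πm (hR u um))))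
  have k3 := l.ord b
  rw [eb, Pl.ord_mul _ (pow_ne_zero _ π0) k.1, k2, pk, he, add_zero] at k3
  have k4 : e = 0 := by
    have : (e + 1 : ℕ) ∣ e := Int.natCast_dvd_natCast.1 ⟨_, k3⟩
    exact Nat.eq_zero_of_dvd_of_lt this e.lt_succ_self
  rw [l.ord, he, k4]
  simp

end Vale.Agent.P283R.Sp.V61
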