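import Mathlib.RingTheory.Polynomial.RationalRoot
import Mathlib.RingTheory.UniqueFactorizationDomain.Ideal
import Vale.Agent.P283R.Sp.Val61
import Vale.Agent.P283R.Tp.Hrt
import Vale.Agent.P287D.Iso.Bas
import Vale.Agent.P287D.Pb.Abh

/-!
# P283R, blocks SP and SQ: the primes of a factorial ring and the prime divisors below
-/

set_option linter.all false

open Set
open Vale.Agent.P297Z Vale.Agent.P287D

noncomputable section

namespace Vale.Agent.P283R.Sp.V61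

variable {K L : Type} [Field K] [Field L] [Algebra ℂ K] [Algebra ℂ L] {d n N : ℕ}
  {A : Subalgebra ℂ L} {p : A} {R : Pl L}

/-- `R` is the place of the prime element `p` -/
def Pr (A : Subalgebra ℂ L) (p : A) (R : Pl L) : Prop :=
  (∀ a ∈ A, a ∈ R.ring) ∧ R.ord p = 1 ∧ ∀ a : A, ¬ p ∣ a → R.ord a = 0

theorem pr_of (hp : p ≠ 0) (h : Cen A (Ideal.span {p}) R)
    (h' : ∀ a ∈ R.ring, a ∈ Lo A (Ideal.span {p})) : Pr A p R := by
  refine ⟨fun a b => (h ⟨a, b⟩).1, ?_, fun a b => Hr.cen_ord h (mt Ideal.mem_span_singleton.1 b)⟩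
  have p0 : (p : L) ≠ 0 := fun e => hp (Subtype.ext e)
  have k := ((Hr.cen_iff h p).1 (Ideal.mem_span_singleton_self p)).resolve_left p0
  obtain ⟨s, t, ht, e⟩ := h' R.t ((Pl.ord_nonneg_iff _ R.t_ne).1 (by rw [R.ord_t]; omega))
  have s0 : (s : L) ≠ 0 := fun z => R.t_ne (by rw [e, z, zero_div])
  have o := R.ord_t
  rw [e, Pl.ord_div _ s0 (Hr.ne_of_notMem ht), Hr.cen_ord h ht] at o
  obtain ⟨u, rfl⟩ := Ideal.mem_span_singleton.1 ((Hr.cen_iff h s).2 (.inr (by omega)))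
  rw [Subalgebra.coe_mul] at o s0
  rw [Pl.ord_mul _ p0 (right_ne_zero_of_mul s0)] at o
  have := Pl.ord_nonneg_of_mem _ (h u).1
  omega

theorem ht_one (h : Aff N A) (hp : Prime p) : (Ideal.span {p}).height = 1 :=
  have := h.noeth
  Ideal.height_span_singleton_eq_one_of_mem_nonZeroDivisors
    (mem_nonZeroDivisors_of_ne_zero hp.ne_zero) hp.not_unit

/-- the place of a prime element -/
theorem ex_pr (h : Aff N A) [UniqueFactorizationMonoid A] (hp : Prime p) : ∃ R, Pr A p R :=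
  let ⟨R, a, b⟩ := Hr.exists_pl h inferInstance ((Ideal.span_singleton_prime hp.ne_zero).2 hp)
    (ht_one h hp)
  ⟨R, pr_of hp.ne_zero a b⟩

theorem Pr.pos (r : Pr A p R) {a : A} (a0 : a ≠ 0) (h : p ∣ a) : 0 < R.ord a := by
  obtain ⟨u, rfl⟩ := h
  have k : ((p * u : A) : L) ≠ 0 := fun e => a0 (Subtype.ext e)
  rw [Subalgebra.coe_mul] at k ⊢
  rw [Pl.ord_mul _ (left_ne_zero_of_mul k) (right_ne_zero_of_mul k), r.2.1]
  have := Pl.ord_nonneg_of_mem _ (r.1 _ u.2)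
  omega

theorem Pr.pd (h : Aff (n + 1) A) (hp : Prime p) (r : Pr A p R) : Pd n A R := by
  obtain ⟨e, w, he, hw⟩ := Hr.exists_ind h ((Ideal.span_singleton_prime hp.ne_zero).2 hp)
    (ht_one h hp)
  obtain rfl : e = n := by omega
  refine ⟨r.1, fun i => w i, fun i => (w i).2, algebraicIndependent_iff.2 fun G z => ?_⟩
  by_contra G0
  have k := hw G G0
  exact rd_ne (Hr.ne_of_notMem k) (r.2.2 _ (mt Ideal.mem_span_singleton.2 k))
    ((MvPolynomial.comp_aeval_apply w (Bm.rdh R A r.1) G).trans z)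

theorem dim_one (hL : FF L (n + 1)) {O T : Subalgebra ℂ L} [IsLocalRing O]
    (mO : ∀ a ∈ O, a ∈ R.ring) (un : ∀ x : O, R.rd x ≠ 0 → IsUnit x) (pd : Pd n T R) (le : T ≤ O) :
    Ring.KrullDimLE 1 O := by
  obtain ⟨-, v, v1, v2⟩ := pd
  let y : Fin n → O := fun i => ⟨v i, le (v1 i)⟩
  refine P270W81.dim_le O.val Subtype.val_injective (Bm.trdeg_eq hL) y fun F F0 =>
    un _ fun a => F0 (algebraicIndependent_iff.1 v2 F ?_)
  exact (MvPolynomial.comp_aeval_apply y (Bm.rdh R O mO) F).symm.trans a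

theorem exO (h : Aff N A) (q : Ideal A) [hq : q.IsPrime] : ∃ O : Subalgebra ℂ L,
    (∀ a, a ∈ O ↔ a ∈ Lo A q) ∧ IsLocalRing O ∧ ringKrullDim O = q.height := by
  have := h.isFrac
  let O := Localization.subalgebra.ofField L q.primeCompl q.primeCompl_le_nonZeroDivisors
  exact ⟨O.restrictScalars ℂ, fun a =>
    ⟨fun ⟨s, t, b, e⟩ => ⟨s, t, b, e.trans (div_eq_mul_inv _ _).symm⟩,
      fun ⟨s, t, b, e⟩ => ⟨s, t, b, e.trans (div_eq_mul_inv _ _)⟩⟩,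
    (IsLocalization.AtPrime.isLocalRing O q :),
    (IsLocalization.AtPrime.ringKrullDim_eq_height q O :)⟩

/-- a place whose centre has codimension one -/
theorem pd_pr (h : Aff (n + 1) A) [UniqueFactorizationMonoid A] (hR : ∀ a ∈ A, a ∈ R.ring) {g : A}
    (g0 : g ≠ 0) (hg : R.ord g = 0) {T : Subalgebra ℂ L} (pd : Pd n T R)
    (hT : ∀ O : Subalgebra ℂ L, A ≤ O → (g : L)⁻¹ ∈ O → T ≤ O) : ∃ p, Prime p ∧ Pr A p R := by
  have := h.noeth
  obtain ⟨q, c⟩ : ∃ q, Cen A q R := ⟨RingHom.ker (Bm.rdh R A hR), fun a => ⟨hR _ a.2, Iff.rfl⟩⟩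
  have hq := Hr.cen_prime c
  obtain ⟨O, hO, _, dO⟩ := exO h q
  have nm : ∀ t : A, t ≠ 0 → R.ord t = 0 → t ∉ q := fun t t0 e k =>
    rd_ne (fun z => t0 (Subtype.ext z)) e ((c t).2.1 k)
  have le := hT O (fun a b => (hO _).2 ⟨⟨a, b⟩, 1, nm 1 one_ne_zero (by simp), by simp⟩)
    ((hO _).2 ⟨1, g, nm g g0 hg, by simp⟩)
  have mO : ∀ a ∈ O, a ∈ R.ring := fun a b => Hr.cen_lo c ((hO a).1 b)
  have k4 := dim_one h.ff mO (fun x a => by
    obtain ⟨s, t, ht, e⟩ := (hO _).1 x.2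
    have t0 := Hr.ne_of_notMem ht
    have hs : s ∉ q := fun k => a (by
      have z : R.rd ((x : L) * t) = 0 := by rw [e, div_mul_cancel₀ _ t0]; exact (c s).2.1 k
      rw [Bm.rd_mul R (mO _ x.2) (hR _ t.2)] at z
      exact (mul_eq_zero.1 z).resolve_right (mt (c t).2.2 ht))
    exact IsUnit.of_mul_eq_one ⟨_, (hO _).2 ⟨t, s, hs, rfl⟩⟩ (Subtype.ext (by
      change (x : L) * (t / s) = 1
      rw [e, div_mul_div_cancel₀ t0, div_self (Hr.ne_of_notMem hs)]))) pd le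
  rw [Ring.krullDimLE_iff, dO] at k4
  have q0 : q ≠ ⊥ := fun e => Pl.ring_ne_top R.toPlace (eq_top_iff.2 fun a _ => by
    obtain ⟨s, t, rfl⟩ := h.fr a
    by_cases t0 : t = 0
    · simp [t0]
    exact Hr.cen_lo c ⟨s, t, by rw [e]; exact t0, rfl⟩)
  obtain ⟨p, p1, hp⟩ := hq.exists_mem_prime_of_ne_bot q0
  have h1 : q.height = 1 := le_antisymm (by exact_mod_cast k4)
    ((ht_one h hp).ge.trans (Ideal.height_mono ((Ideal.span_singleton_le_iff_mem _).2 p1)))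
  have e := Ideal.eq_span_singleton_of_height_eq_one h1 p1 hp
  obtain ⟨R', a, b⟩ := Hr.exists_pl h inferInstance hq h1
  obtain rfl : R' = R := Pl.ext' (congrArg _
    (P297Z.Pl.eq_of_le' (v := R'.toPlace) (w := R.toPlace) fun x y => Hr.cen_lo c (b x y)))
  exact ⟨p, hp, pr_of hp.ne_zero (e ▸ a) (e ▸ b)⟩

/-- the set `T` of places is the set of prime divisors of a variety -/
def Chart (d : ℕ) (T : Set (Pl K)) : Prop :=
  (∀ a : K, {Q | Q ∈ T ∧ Q.ord a ≠ 0}.Finite) ∧ ∃ A₀ : Subalgebra ℂ K, A₀.FG ∧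
    (∀ x : K, ∃ s ∈ A₀, ∃ t ∈ A₀, x = s / t) ∧ (∀ Q, Pd d A₀ Q → Q ∈ T) ∧
      {Q | Q ∈ T ∧ ¬ Pd d A₀ Q}.Finite

variable [Algebra K L]

/-- the prime `p` can be moved away from every divisor -/
def Mov (A : Subalgebra ℂ L) (T : Set (Pl K)) (p : A) : Prop :=
  ∀ c : A, c ≠ 0 → ∃ (l : L ≃ₐ[ℂ] L) (m : K ≃ₐ[ℂ] K),
    (∀ a, l (algebraMap K L a) = algebraMap K L (m a)) ∧ (∀ x, x ∈ A ↔ l x ∈ A) ∧
    (∀ c' : A, (c' : L) = l c → ¬ p ∣ c') ∧ ∀ Q ∈ T, ∃ Q' ∈ T, ∀ a, a ∈ Q.ring ↔ m a ∈ Q'.ring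

variable [IsScalarTower ℂ K L] {T : Set (Pl K)}

theorem setup (h : Aff N A) {A₀ : Subalgebra ℂ K} (f : A₀.FG) {δ : A} (δ0 : δ ≠ 0) :
    ∃ g : A, g ≠ 0 ∧ δ ∣ g ∧ ∃ B : Finset L, A ≤ Algebra.adjoin ℂ (B : Set L) ∧
      (g : L)⁻¹ ∈ Algebra.adjoin ℂ (B : Set L) ∧
      (∀ O : Subalgebra ℂ L, A ≤ O → (g : L)⁻¹ ∈ O → Algebra.adjoin ℂ (B : Set L) ≤ O) ∧
      ∀ a ∈ A₀, algebraMap K L a ∈ Algebra.adjoin ℂ (B : Set L) := by
  classical
  have := h.isFrac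
  obtain ⟨s, rfl⟩ := f
  obtain ⟨B, hB⟩ := h.fg
  obtain ⟨b, hb⟩ := IsLocalization.exist_integer_multiples_of_finset (nonZeroDivisors A)
    (s.image (algebraMap K L))
  have b0 := nonZeroDivisors.coe_ne_zero b
  have l1 : A ≤ Algebra.adjoin ℂ ((insert ((δ * b : A) : L)⁻¹ B : Finset L) : Set L) :=
    hB.ge.trans (Algebra.adjoin_mono (Finset.coe_subset.2 (Finset.subset_insert _ _)))
  have l2 : ((δ * b : A) : L)⁻¹ ∈
      Algebra.adjoin ℂ ((insert ((δ * b : A) : L)⁻¹ B : Finset L) : Set L) :=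
    Algebra.subset_adjoin (Finset.mem_insert_self _ _)
  refine ⟨δ * b, mul_ne_zero δ0 b0, dvd_mul_right _ _, _, l1, l2, fun O a c =>
    Algebra.adjoin_le fun x y => ?_, fun a c => ?_⟩
  · rcases Finset.mem_insert.1 y with rfl | y
    · exact c
    · exact a (hB ▸ Algebra.subset_adjoin y)
  · refine (Subalgebra.mem_comap _ (IsScalarTower.toAlgHom ℂ K L) a).1
      (Algebra.adjoin_le (fun x y => ?_) c)
    obtain ⟨u, hu⟩ := hb _ (Finset.mem_image_of_mem _ y)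
    have e : algebraMap K L x = ((δ * u : A) : L) * ((δ * b : A) : L)⁻¹ := by
      have z : ((δ * b : A) : L) ≠ 0 := fun z => mul_ne_zero δ0 b0 (Subtype.ext z)
      rw [eq_mul_inv_iff_mul_eq₀ z, Subalgebra.coe_mul, Subalgebra.coe_mul,
        show (u : L) = (b : A) * algebraMap K L x from hu]
      ring
    exact (Subalgebra.mem_comap _ (IsScalarTower.toAlgHom ℂ K L) x).2
      (e ▸ mul_mem (l1 (δ * u).2) l2 :)

theorem fr_of (h : Aff N A) {S : Subalgebra ℂ L} (le : A ≤ S) (x : L) :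
    ∃ s ∈ S, ∃ t ∈ S, x = s / t := let ⟨s, t, e⟩ := h.fr x; ⟨s, le s.2, t, le t.2, e⟩

/-- **a prime which can be moved is trivial on `K` or lies over a prime divisor** -/
theorem vdown (hK : FF K (d + 1)) (h : Aff (n + 1) A) (ch : Chart d T) (hp : Prime p)
    (r : Pr A p R) (mv : Mov A T p) :
    Trv (algebraMap K L) R ∨ ∃ Q ∈ T, Lies (algebraMap K L) R Q := by
  obtain ⟨-, A₀, f, fA, h1, -⟩ := ch
  obtain ⟨g, g0, -, B, l1, l2, l3, l4⟩ := setup h f (δ := 1) one_ne_zero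
  obtain ⟨c, -, c0, hc⟩ := (val hK h.ff A₀ fA B (fr_of h l1) l4).1
  obtain ⟨s, t, rfl⟩ := h.fr c
  have s0 := (div_ne_zero_iff.1 c0).1
  have t0 := (div_ne_zero_iff.1 c0).2
  have g1 : (g : L) ≠ 0 := fun z => g0 (Subtype.ext z)
  have z : ((g * (s * t) : A) : L) ≠ 0 := mul_ne_zero g1 (mul_ne_zero s0 t0)
  obtain ⟨l, m, e1, e2, e3, e4⟩ := mv (g * (s * t)) fun e => z (congrArg _ e)
  let S := Semi.of_alg l.symm
  have mem : ∀ x, x ∈ (S.pl R).ring ↔ l x ∈ R.ring := fun x => by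
    rw [← S.mem_pl (P := R) (f := l x)]
    simp
  have od : ∀ x, (S.pl R).ord x = R.ord (l x) := fun x => by
    rw [← S.ord_pl R (l x)]
    simp
  have mA : ∀ a ∈ A, a ∈ (S.pl R).ring := fun a b => (mem a).2 (r.1 _ ((e2 a).1 b))
  have o := (od _).trans (r.2.2 ⟨_, (e2 _).1 (g * (s * t)).2⟩ (e3 _ rfl))
  rw [Subalgebra.coe_mul, Subalgebra.coe_mul, Pl.ord_mul _ g1 (mul_ne_zero s0 t0),
    Pl.ord_mul _ s0 t0] at o
  have o1 := Pl.ord_nonneg_of_mem _ (mA _ g.2)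
  have o2 := Pl.ord_nonneg_of_mem _ (mA _ s.2)
  have o3 := Pl.ord_nonneg_of_mem _ (mA _ t.2)
  obtain ⟨-, v, v1, v2⟩ := r.pd h hp
  have pd : Pd n (Algebra.adjoin ℂ (B : Set L)) (S.pl R) :=
    ⟨fun a b => l3 { (S.pl R).ring.toSubring with algebraMap_mem' := (S.pl R).con } mA
      ((Pl.ord_eq_zero_iff _ g1).1 (by omega)).2 b, fun i => l.symm (v i),
      fun i => l1 ((e2 _).2 (by simpa using v1 i)), by
        have := v2.map' (f := (Semi.κA l.symm R).toAlgHom) (Semi.κA l.symm R).injective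
        convert this using 2 with i
        exact (S.κ_rd R (v i)).symm⟩
  rcases h.ff.ok (IsScalarTower.toAlgHom ℂ K L) (S.pl R) with k | ⟨Q, k⟩
  · refine .inl fun a => ?_
    obtain ⟨a, rfl⟩ := m.surjective a
    exact e1 a ▸ (mem _).1 (k a)
  obtain ⟨Q', q1, q2⟩ := e4 Q (h1 Q (hc _ Q pd (by rw [Pl.ord_div _ s0 t0]; omega) k))
  refine .inr ⟨Q', q1, fun a => ?_⟩
  obtain ⟨a, rfl⟩ := m.surjective a
  rw [← q2, ← e1, ← mem]
  exact k a

/-- **almost all prime divisors lie under a prime** -/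
theorem vup (hK : FF K (d + 1)) (h : Aff (n + 1) A) [UniqueFactorizationMonoid A] (ch : Chart d T)
    {δ : A} (δ0 : δ ≠ 0) : {Q | Q ∈ T ∧ ¬ ∃ p R, Prime p ∧ ¬ p ∣ δ ∧ Pr A p R ∧
      Lies (algebraMap K L) R Q}.Finite := by
  obtain ⟨fin, A₀, f, fA, -, h2⟩ := ch
  obtain ⟨g, g0, dv, B, l1, l2, l3, l4⟩ := setup h f δ0
  obtain ⟨a, -, -, ha⟩ := (val hK h.ff A₀ fA B (fr_of h l1) l4).2
  refine (h2.union (fin a)).subset fun Q ⟨q1, q2⟩ => by_contra fun c => q2 ?_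
  simp only [mem_union, mem_setOf_eq, q1, true_and, not_or, not_not] at c
  obtain ⟨R, r1, r2⟩ := ha Q c.1 c.2
  have o := Pl.ord_unit R.toPlace (r2.1 _ (l1 g.2)) (r2.1 _ l2)
  obtain ⟨p, hp, r⟩ := pd_pr h (fun a b => r2.1 a (l1 b)) g0 o r2 l3
  exact ⟨p, R, hp, fun k => (r.pos g0 (k.trans dv)).ne' o, r, r1⟩

end Vale.Agent.P283R.Sp.V61
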