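import Vale.Agent.P283R.Sp.Bas
import Vale.Agent.P283R.Sp.Del38
import Vale.Agent.P283R.Sp.Vf61
import Vale.Agent.P287D.Gm.Trm
import Vale.Agent.P287D.Ba.Hy
import Mathlib.RingTheory.Nullstellensatz

/-!
# P283R, block SP: the primes of the group and the prime divisors of the variety
-/

open Set

noncomputable section

namespace Vale.Agent.P283R.Sp

open Vale.Agent.P287D Vale.Agent.P283M Sl V61

namespace V99

section chart

variable {K : Type} [Field K] [Algebra ℂ K] {d : ℕ}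

theorem pd_iff (hK : FF K (d + 1)) (A : Finset K) (Q : Pl K) :
    Pd d (Algebra.adjoin ℂ (A : Set K)) Q ↔ Ov A Q ∧ On d (inf A) Q := by
  classical
  have on : Ov A Q → (On d (inf A) Q ↔ ∀ x, x ∈ Gm.Cl (Q.rd '' (insert 1 A : Finset K))) :=
    fun o => Gm.on_iff res' Gm.ba hK (AmpOn.refl (smp_mx _)) (Finset.mem_insert_self _ _)
      fun f hf => by
        rcases Finset.mem_insert.1 hf with rfl | hf
        exacts [one_mem _, o f hf]
  have m : Ov A Q → ∀ f ∈ Algebra.adjoin ℂ (A : Set K),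
      f ∈ Q.ring ∧ Q.rd f ∈ Gm.Cl (Q.rd '' (insert 1 A : Finset K)) := fun o f a => by
    induction a using Algebra.adjoin_induction with
    | mem a b => exact ⟨o a b, Gm.sub_Cl ⟨a, Finset.mem_insert_of_mem b, rfl⟩⟩
    | algebraMap r =>
      rw [Bm.rd_const]
      exact ⟨Q.con r, IntermediateField.algebraMap_mem _ r⟩
    | add a b _ _ e k =>
      rw [Bm.rd_add Q e.1 k.1]
      exact ⟨add_mem e.1 k.1, add_mem e.2 k.2⟩
    | mul a b _ _ e k =>
      rw [Bm.rd_mul Q e.1 k.1]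
      exact ⟨mul_mem e.1 k.1, mul_mem e.2 k.2⟩
  refine ⟨fun ⟨h, v, v1, v2⟩ => ?_, fun ⟨o, h⟩ => ⟨fun a b => (m o a b).1, ?_⟩⟩
  · have o : Ov A Q := fun a b => h a (Algebra.subset_adjoin b)
    refine ⟨o, (on o).2 fun x => Gm.cl_le ?_ (Gm.cl_basis (Bm.ff_κ hK Q) v2 (by simp) x)⟩
    rintro _ ⟨i, rfl⟩
    exact (m o _ (v1 i)).2
  · obtain ⟨z, z1, z2⟩ := pick (d := d) (s₁ := Q.rd '' (insert 1 A : Finset K)) (s₂ := ∅)
      (c := 0) (Bm.trdeg_κ hK Q) ⟨fun x => by
        rw [union_empty]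
        exact Gm.mem_Cl.1 ((on o).1 h x)⟩ (by simp) (zero_add _)
    choose v v1 v2 using z1
    refine ⟨v, fun i => ?_, by rwa [funext v2]⟩
    rcases Finset.mem_insert.1 (v1 i) with e | e
    exacts [e ▸ one_mem _, Algebra.subset_adjoin e]

end chart

variable {N : ℕ} {c : Fin N → ℕ}

theorem val_sh {g x : Matrix (Fin N) (Fin N) ℂ} (b : Block c x) (q : BlockPoly c) :
    MvPolynomial.aeval (fun e : Vr c => x e.1.1 e.1.2) (shift c g 1 q) = valueAt c (g * x) q := by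
  have k : (MvPolynomial.aeval fun e : Vr c => x e.1.1 e.1.2).comp (sh c g 1) =
      MvPolynomial.aeval fun e : Vr c => (g * x) e.1.1 e.1.2 := by
    refine MvPolynomial.algHom_ext fun e => ?_
    let f : BlockPoly c →ₐ[ℂ] ℂ := MvPolynomial.aeval fun e : Vr c => x e.1.1 e.1.2
    have k1 : (g.map MvPolynomial.C : Matrix _ _ (BlockPoly c)).map f = g :=
      Matrix.ext fun i j => f.commutes _
    have k2 : (g.map MvPolynomial.C * blockVar c).map f = g * x := by
      rw [Matrix.map_mul, k1, D38.map_bv x b]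
    rw [AlgHom.comp_apply, sh, MvPolynomial.aeval_X, MvPolynomial.aeval_X,
      Matrix.map_one _ (map_zero _) (map_one _), Matrix.mul_one]
    exact congrFun (congrFun k2 e.1.1) e.1.2
  exact DFunLike.congr_fun k q

theorem pt {p : BlockPoly c} (hp : Prime p) (nd : ¬ p ∣ del c) : ∃ x : GL (Fin N) ℂ,
    Block c x ∧ MvPolynomial.aeval (fun e : Vr c => x e.1.1 e.1.2) p = 0 := by
  have := (Ideal.span_singleton_prime hp.ne_zero).2 hp
  have k : del c ∉ MvPolynomial.vanishingIdeal ℂ (MvPolynomial.zeroLocus ℂ (Ideal.span {p})) := by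
    rwa [MvPolynomial.IsPrime.vanishingIdeal_zeroLocus, Ideal.mem_span_singleton]
  rw [MvPolynomial.mem_vanishingIdeal_iff] at k
  obtain ⟨y, k⟩ := not_forall.1 k
  obtain ⟨y1, y2⟩ := Classical.not_imp.1 k
  let M : Matrix (Fin N) (Fin N) ℂ := fun i j => if h : c i = c j then y ⟨(i, j), h⟩ else 0
  have b : Block c M := fun i j e => dif_neg e
  have e : (fun e : Vr c => M e.1.1 e.1.2) = y := funext fun e => dif_pos e.2
  rw [← e, D38.aev_del M b] at y2
  refine ⟨Matrix.GeneralLinearGroup.mkOfDetNeZero M y2, b, ?_⟩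
  exact e ▸ y1 p (Ideal.mem_span_singleton_self p)

variable {K : Type} [Field K] [Algebra ℂ K] {H : Subgroup (GL (Fin N) ℂ)} {ι : K →ₐ[ℂ] LL c}

theorem move (S : Sph H ι) {p q : BlockPoly c} (hp : Prime p) (nd : ¬ p ∣ del c) (q0 : q ≠ 0) :
    ∃ g : GL (Fin N) ℂ, Block c g ∧ ¬ p ∣ shift c g 1 q := by
  obtain ⟨x, b, hx⟩ := pt hp nd
  by_contra k
  refine q0 (S.den q fun a ha _ h hh => ?_)
  obtain ⟨u, hu⟩ := not_not.1 (not_and.1 (not_exists.1 k (a * h * x⁻¹))
    (bk_mulG (bk_mulG ha (S.blk h hh)) (bk_inv b)))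
  have := val_sh (g := (a * h * x⁻¹ : GL (Fin N) ℂ)) b q
  rw [hu, map_mul, hx, zero_mul, ← Units.val_mul, inv_mul_cancel_right] at this
  exact this.symm

variable (c) in
/-- the polynomials as a ring of rational functions -/
def eq : BlockPoly c ≃ₐ[ℂ] (al c).range := AlgEquiv.ofInjective _ al_inj

theorem eq_coe (p : BlockPoly c) : (eq c p : LL c) = al c p := rfl

theorem ufm : UniqueFactorizationMonoid (al c).range :=
  (eq c).toMulEquiv.uniqueFactorizationMonoid inferInstance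

theorem aff {d : ℕ} (ι : K →ₐ[ℂ] LL c) (hK : FF K (d + 1)) : ∃ n, Aff (n + 1) (al c).range := by
  have fr : ∀ a : LL c, ∃ s t : (al c).range, a = s / t := fun a =>
    let ⟨p, q, q0, e⟩ := frac a
    ⟨eq c p, eq c q, eq_div_of_mul_eq (al_ne q0) e⟩
  have : Algebra.EssFiniteType (BlockPoly c) (LL c) :=
    .of_isLocalization (LL c) (nonZeroDivisors (BlockPoly c))
  have : Algebra.EssFiniteType ℂ (LL c) := .comp ℂ (BlockPoly c) (LL c)
  have := IsLocalization.isAlgebraic (LL c) (nonZeroDivisors (BlockPoly c))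
  obtain ⟨n, hn⟩ := Cardinal.lt_aleph0.1
    (trdeg_lt_aleph0_of_finiteType (R := ℂ) (S := BlockPoly c))
  have e : Algebra.trdeg ℂ (LL c) = n := by
    rw [← trdeg_add_eq ℂ (BlockPoly c) (A := LL c), trdeg_eq_zero (R := BlockPoly c), add_zero, hn]
  have le := trdeg_le_of_injective ι ι.injective
  rw [e, hK.trdeg] at le
  obtain ⟨n, rfl⟩ : ∃ m, n = m + 1 := ⟨n - 1, by
    have : d + 1 ≤ n := by exact_mod_cast le
    omega⟩
  exact ⟨n, Gm.ff_of_ess e, (Subalgebra.fg_iff_finiteType _).2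
    (Algebra.FiniteType.equiv inferInstance (eq c)), fr⟩

theorem mem_iff {p : BlockPoly c} (hp : Prime p) {R : Pl (LL c)}
    (r : V61.Pr (al c).range (eq c p) R) (x : LL c) :
    x ∈ R.ring ↔ ∃ a s, ¬ p ∣ s ∧ x * al c s = al c a := by
  have z : ∀ s, ¬ p ∣ s → R.ord (al c s) = 0 := fun s k =>
    r.2.2 (eq c s) fun f => k ((map_dvd_iff (eq c)).1 f)
  refine ⟨fun h => ?_, fun ⟨a, s, k, e⟩ => ?_⟩
  · obtain ⟨a, s, rel, e⟩ := IsFractionRing.exists_reduced_fraction (BlockPoly c) x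
    have s0 : (s : BlockPoly c) ≠ 0 := nonZeroDivisors.coe_ne_zero s
    have e' : x * al c s = al c a := e ▸ IsLocalization.mk'_spec (LL c) a s
    refine ⟨a, s, fun f => ?_, e'⟩
    have na : ¬ p ∣ a := fun g => hp.not_isUnit (rel g f)
    have a0 : al c a ≠ 0 := al_ne fun g => na (g ▸ dvd_zero p)
    have k1 := z a na
    have k2 : 0 < R.ord (al c s) :=
      r.pos (a := eq c s) ((map_ne_zero_iff _ (eq c).injective).2 s0) (map_dvd _ f)
    have k3 := P297Z.Pl.ord_nonneg_of_mem _ h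
    rw [← e', P297Z.Pl.ord_mul _ (left_ne_zero_of_mul (e' ▸ a0)) (al_ne s0)] at k1
    omega
  · have s0 : al c s ≠ 0 := al_ne fun g => k (g ▸ dvd_zero p)
    rw [(eq_mul_inv_iff_mul_eq₀ s0).2 e]
    exact mul_mem (r.1 _ ⟨a, rfl⟩) ((P297Z.Pl.ord_eq_zero_iff _ s0).1 (z s k)).2

theorem chart {T : Set (Pl K)} (D : Dvs ι T) : ∃ d, FF K (d + 1) ∧ Chart d T := by
  obtain ⟨d, A, hK, top, h1, h2⟩ := D.cht
  refine ⟨d, hK, D.fin, Algebra.adjoin ℂ (A : Set K), Subalgebra.fg_adjoin_finset A, fun x => ?_,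
    fun Q k => ?_, ?_⟩
  · exact IntermediateField.mem_adjoin_iff_div.1 (top ▸ IntermediateField.mem_top)
  · exact ((pd_iff hK A Q).1 k).elim (h1 Q)
  · simpa only [pd_iff hK A] using h2

end V99

open V99

/-- **VA1** -/
theorem va1 : VA1 := by
  intro N c K _ _ H ι S T D p hp nd
  obtain ⟨d, hK, ch⟩ := chart D
  obtain ⟨n, h⟩ := aff ι hK
  have := ufm (c := c)
  let _ : Algebra K (LL c) := ι.toRingHom.toAlgebra
  have : IsScalarTower ℂ K (LL c) := .of_algebraMap_eq fun a => (ι.commutes a).symm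
  have hp' : Prime (eq c p) := (MulEquiv.prime_iff (eq c)).2 hp
  obtain ⟨R, r⟩ := ex_pr h hp'
  have mo : Mov (al c).range T (eq c p) := fun q q0 => by
    obtain ⟨q, rfl⟩ := (eq c).surjective q
    obtain ⟨g, b, k⟩ := move S hp nd ((map_ne_zero_iff _ (eq c).injective).1 q0)
    obtain ⟨σ, hσ⟩ := S.mvK b
    refine ⟨ml b, σ, fun a => (hσ a).symm, fun x => ⟨?_, fun ⟨y, e⟩ => ?_⟩, fun q' e f => k ?_,
      fun Q hQ => ?_⟩
    · rintro ⟨y, rfl⟩
      exact ⟨_, (ml_al b y).symm⟩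
    · refine ⟨shift c (g⁻¹ : GL (Fin N) ℂ) 1 y, ?_⟩
      change al c y = _ at e
      change al c _ = x
      rw [← ml_al (bk_inv b), e, ml_ml, ml_congr bk_oneG (mul_inv_cancel g), ml_one]
    · obtain rfl : q' = eq c (shift c g 1 q) := Subtype.ext (e.trans (ml_al b q))
      exact (map_dvd_iff (eq c)).1 f
    · obtain ⟨Q', q1, q2⟩ := D.act g b Q hQ
      exact ⟨Q', q1, fun a => q2 a _ ((shl_iff b).2 (hσ a))⟩
  exact (vdown hK h ch hp' r mo).imp (fun k a => (mem_iff hp r _).1 (k a))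
    fun ⟨Q, q, k⟩ => ⟨Q, q, fun a => (k a).trans (mem_iff hp r _)⟩

/-- **VA2** -/
theorem va2 : VA2 := by
  intro N c K _ _ H ι S T D
  obtain ⟨d, hK, ch⟩ := chart D
  obtain ⟨n, h⟩ := aff ι hK
  have := ufm (c := c)
  let _ : Algebra K (LL c) := ι.toRingHom.toAlgebra
  have : IsScalarTower ℂ K (LL c) := .of_algebraMap_eq fun a => (ι.commutes a).symm
  refine (vup hK h ch (δ := eq c (del c))
    ((map_ne_zero_iff _ (eq c).injective).2 (del38 N c).1)).subset fun Q ⟨q1, q2⟩ =>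
      ⟨q1, fun ⟨p, R, hp, nd, r, l⟩ => q2 ?_⟩
  obtain ⟨p, rfl⟩ := (eq c).surjective p
  have hp' := (MulEquiv.prime_iff (eq c)).1 hp
  exact ⟨q1, p, hp', fun f => nd (map_dvd _ f), fun a => (l a).trans (mem_iff hp' r _)⟩

end Vale.Agent.P283R.Sp
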