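import Vale.Agent.P283R.Sp.On
import Vale.Agent.P283R.Sp.Dvs47
import Vale.Agent.P283R.Sp.Va99

/-!
# P283R, block SP: spherical varieties for products of general linear groups
-/

namespace Vale.Agent.P283R

/-- spherical varieties have rings of sections with few generators -/
theorem Sp.sph : Sp.SPH := Sp.sph_va Sp.va1 Sp.va2 Sp.dvs47

open Sl.Var in
theorem Sl.on_sp (M : ℕ → ℕ) : Sl.On fun d _ _ f ω B z => FanoType f ω ∧
    NefOver f (-logCan ω B) ∧ ∃ W, z.In W ∧ ∃ N ≤ M d, Sl.Spherical N (Sl.pre f W) :=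
  Sp.on_of Sp.sph M

end Vale.Agent.P283R
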