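import Vale.Agent.P283R.Sp.St

/-!
# P283R, block SP: the translations
-/

open Set MvPolynomial

noncomputable section

namespace Vale.Agent.P283R.Sp

open Sl

variable {N : ℕ} {c : Fin N → ℕ}

section

variable {g h g' h' : Matrix (Fin N) (Fin N) ℂ}

theorem bk_mul {R : Type} [CommRing R] {A B : Matrix (Fin N) (Fin N) R}
    (a : ∀ i j, c i ≠ c j → A i j = 0) (b : ∀ i j, c i ≠ c j → B i j = 0) (i j : Fin N)
    (e : c i ≠ c j) : (A * B) i j = 0 := by
  rw [Matrix.mul_apply]
  refine Finset.sum_eq_zero fun k _ => ?_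
  by_cases w : c i = c k
  · rw [b k j (w ▸ e), mul_zero]
  · rw [a i k w, zero_mul]

theorem bk_one : Block c 1 := fun _ _ e => Matrix.one_apply_ne fun w => e (w ▸ rfl)

theorem bk_mul' (a : Block c g) (b : Block c h) : Block c (g * h) := bk_mul a b

theorem bk_iff : Block c g ↔ Commute (Matrix.diagonal fun i => (c i : ℂ)) g := by
  refine ⟨fun a => Matrix.ext fun i j => ?_, fun a i j e => ?_⟩
  · rw [Matrix.diagonal_mul, Matrix.mul_diagonal]
    by_cases w : c i = c j
    · rw [w, mul_comm]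
    · rw [a i j w, mul_zero, zero_mul]
  · have := congrFun (congrFun a i) j
    rw [Matrix.diagonal_mul, Matrix.mul_diagonal, mul_comm, ← sub_eq_zero, ← mul_sub] at this
    exact (mul_eq_zero.1 this).resolve_right (sub_ne_zero.2 (Nat.cast_injective.ne e))

theorem bk_inv {g : GL (Fin N) ℂ} (a : Block c g) : Block c (g⁻¹ : GL (Fin N) ℂ) :=
  bk_iff.2 (bk_iff.1 a).units_inv_right

variable (c g h) in
/-- the translation as a homomorphism -/
def sh : BlockPoly c →ₐ[ℂ] BlockPoly c :=
  aeval fun e => (g.map C * blockVar c * h.map C : Matrix _ _ (BlockPoly c)) e.1.1 e.1.2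

theorem sh_eq (p : BlockPoly c) : sh c g h p = shift c g h p := rfl

theorem bk_var (i j : Fin N) (e : c i ≠ c j) : blockVar c i j = 0 := dif_neg e

theorem var_X (e : Vr c) : blockVar c e.1.1 e.1.2 = X e := dif_pos e.2

theorem map_var (a : Block c g) (b : Block c h) :
    (blockVar c).map (sh c g h) = g.map C * blockVar c * h.map C := by
  refine Matrix.ext fun i j => ?_
  by_cases e : c i = c j
  · rw [Matrix.map_apply, var_X ⟨(i, j), e⟩]
    exact aeval_X _ _
  · rw [Matrix.map_apply, bk_var i j e, map_zero]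
    exact (bk_mul (bk_mul (fun i j e => by rw [Matrix.map_apply, a i j e, map_zero]) bk_var)
      (fun i j e => by rw [Matrix.map_apply, b i j e, map_zero]) i j e).symm

theorem map_C (f : BlockPoly c →ₐ[ℂ] BlockPoly c) : (g.map C).map f = g.map C := by
  exact Matrix.ext fun i j => f.commutes _

theorem sh_comp (a : Block c g) (b : Block c h) :
    (sh c g h).comp (sh c g' h') = sh c (g' * g) (h * h') := by
  refine algHom_ext fun e => ?_
  have : (g'.map C * blockVar c * h'.map C).map (sh c g h) =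
      (g' * g).map C * blockVar c * (h * h').map C := by
    have k := fun A B : Matrix (Fin N) (Fin N) (BlockPoly c) =>
      Matrix.map_mul (L := A) (M := B) (f := (sh c g h).toRingHom)
    refine ((k _ _).trans (congrArg₂ _ ((k _ _).trans (congrArg₂ _ (map_C _) (map_var a b)))
      (map_C _))).trans ?_
    simp only [Matrix.map_mul, Matrix.mul_assoc]
  simp only [AlgHom.comp_apply, sh, aeval_X]
  exact congrFun (congrFun this e.1.1) e.1.2

theorem sh_sh (a : Block c g) (b : Block c h) (p : BlockPoly c) :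
    shift c g h (shift c g' h' p) = shift c (g' * g) (h * h') p := by
  rw [← sh_eq, ← sh_eq, ← sh_eq, ← sh_comp a b, AlgHom.comp_apply]

theorem sh_id : sh c 1 1 = AlgHom.id ℂ _ := by
  refine algHom_ext fun e => ?_
  simp only [sh, aeval_X, Matrix.map_one _ (map_zero C) (map_one C), Matrix.one_mul,
    Matrix.mul_one, var_X, AlgHom.id_apply]

theorem sh_one (p : BlockPoly c) : shift c 1 1 p = p := by
  rw [← sh_eq, sh_id, AlgHom.id_apply]

end

variable {g h g' h' : GL (Fin N) ℂ}

/-- the translation as an automorphism -/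
def sa (a : Block c g) (b : Block c h) : BlockPoly c ≃ₐ[ℂ] BlockPoly c :=
  .ofAlgHom (sh c g h) (sh c (g⁻¹ : GL (Fin N) ℂ) (h⁻¹ : GL (Fin N) ℂ))
    (by rw [sh_comp a b, Units.inv_mul, Units.mul_inv, sh_id])
    (by rw [sh_comp (bk_inv a) (bk_inv b), Units.inv_mul, Units.mul_inv, sh_id])

theorem sa_eq (a : Block c g) (b : Block c h) (p : BlockPoly c) : sa a b p = shift c g h p := rfl

/-- the translation of the rational functions -/
def mv (a : Block c g) (b : Block c h) : LL c ≃ₐ[ℂ] LL c :=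
  IsFractionRing.algEquivOfAlgEquiv (sa a b)

theorem mv_al (a : Block c g) (b : Block c h) (p : BlockPoly c) :
    mv a b (al c p) = al c (shift c g h p) :=
  IsFractionRing.algEquivOfAlgEquiv_algebraMap _ _

theorem al_inj : Function.Injective (al c) := IsFractionRing.injective _ _

theorem al_ne {p : BlockPoly c} (e : p ≠ 0) : al c p ≠ 0 := (map_ne_zero_iff _ al_inj).2 e

theorem frac (x : LL c) : ∃ p q, q ≠ 0 ∧ x * al c q = al c p :=
  let ⟨⟨p, q⟩, e⟩ := IsLocalization.surj (nonZeroDivisors (BlockPoly c)) x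
  ⟨p, q, nonZeroDivisors.ne_zero q.2, e⟩

theorem sh_ne (a : Block c g) (b : Block c h) {p : BlockPoly c} (e : p ≠ 0) :
    shift c g h p ≠ 0 := (map_ne_zero_iff _ (sa a b).injective).2 e

theorem shifted_iff (a : Block c g) (b : Block c h) {x x' : LL c} :
    Shifted g h x x' ↔ x' = mv a b x := by
  refine ⟨fun ⟨p, q, e, e'⟩ => mul_right_cancel₀ (al_ne e'.1) (e'.2.trans ?_), ?_⟩
  · have k := congrArg (mv a b) (show x * al c q = al c p from e.2)
    rw [map_mul, mv_al, mv_al] at k
    exact k.symm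
  · rintro rfl
    obtain ⟨p, q, q0, e⟩ := frac x
    have k := congrArg (mv a b) e
    rw [map_mul, mv_al, mv_al] at k
    exact ⟨p, q, ⟨q0, e⟩, sh_ne a b q0, k⟩

theorem ll_ext {f f' : LL c →ₐ[ℂ] LL c} (e : ∀ p, f (al c p) = f' (al c p)) (x : LL c) :
    f x = f' x := by
  obtain ⟨p, q, q0, k⟩ := frac x
  rw [eq_div_of_mul_eq (al_ne q0) k, map_div₀, map_div₀, e, e]

theorem bk_mulG (a : Block c g) (b : Block c h) : Block c (g * h : GL (Fin N) ℂ) := bk_mul a b

theorem bk_oneG : Block c (1 : GL (Fin N) ℂ) := bk_one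

theorem mv_mv (a : Block c g) (b : Block c h) (a' : Block c g') (b' : Block c h') (x : LL c) :
    mv a b (mv a' b' x) = mv (bk_mulG a' a) (bk_mulG b b') x :=
  ll_ext (f := (mv a b).toAlgHom.comp (mv a' b').toAlgHom) (f' := mv (bk_mulG a' a) (bk_mulG b b'))
    (fun p => by
      show mv a b (mv a' b' _) = mv _ _ _
      rw [mv_al, mv_al, mv_al, sh_sh a b]
      rfl) x

theorem mv_congr {a : Block c g} {b : Block c h} (a' : Block c g') (b' : Block c h') (e : g = g')
    (e' : h = h') : mv a b = mv a' b' := by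
  subst e e'
  rfl

theorem mv_one (x : LL c) : mv bk_oneG bk_oneG x = x :=
  ll_ext (f := (mv bk_oneG bk_oneG).toAlgHom) (f' := AlgHom.id ℂ _) (fun p => by
    show mv bk_oneG bk_oneG _ = al c p
    rw [mv_al]
    exact congrArg _ (sh_one p)) x

/-- the left translation -/
abbrev ml (a : Block c g) : LL c ≃ₐ[ℂ] LL c := mv a bk_oneG

/-- the right translation -/
abbrev mr (b : Block c h) : LL c ≃ₐ[ℂ] LL c := mv bk_oneG b

theorem shl_iff (a : Block c g) {x x' : LL c} : Shifted g 1 x x' ↔ x' = ml a x :=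
  shifted_iff a bk_oneG

theorem shr_iff (b : Block c h) {x x' : LL c} : Shifted 1 h x x' ↔ x' = mr b x :=
  shifted_iff bk_oneG b

theorem ml_al (a : Block c g) (p : BlockPoly c) : ml a (al c p) = al c (shift c g 1 p) :=
  mv_al a bk_oneG p

theorem mr_al (b : Block c h) (p : BlockPoly c) : mr b (al c p) = al c (shift c 1 h p) :=
  mv_al bk_oneG b p

theorem ml_mr (a : Block c g) (b : Block c h) (x : LL c) : ml a (mr b x) = mr b (ml a x) := by
  rw [mv_mv, mv_mv, mv_congr (bk_mulG a bk_oneG) (bk_mulG b bk_oneG) (by simp) (by simp)]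

theorem ml_ml (a : Block c g) (a' : Block c g') (x : LL c) :
    ml a (ml a' x) = ml (bk_mulG a' a) x := by
  rw [mv_mv, mv_congr (bk_mulG a' a) bk_oneG rfl (one_mul _)]

theorem ml_congr {a : Block c g} (a' : Block c g') (e : g = g') : ml a = ml a' := by
  subst e
  rfl

theorem ml_one (x : LL c) : ml bk_oneG x = x := mv_one x

theorem bk_pow (a : Block c g) (n : ℕ) : Block c (g ^ n : GL (Fin N) ℂ) := by
  induction n with
  | zero => exact pow_zero g ▸ bk_oneG
  | succ n ih => exact pow_succ g n ▸ bk_mulG ih a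

variable {K : Type} [Field K] [Algebra ℂ K] {H : Subgroup (GL (Fin N) ℂ)} {ι : K →ₐ[ℂ] LL c}

theorem Sph.iff (S : Sph H ι) {x : LL c} :
    (∃ b, ι b = x) ↔ ∀ h (e : h ∈ H), mr (S.blk h e) x = x :=
  (S.fix x).trans (forall₂_congr fun h e => (shr_iff (S.blk h e)).trans eq_comm)

theorem Sph.inv (S : Sph H ι) (e : h ∈ H) (φ : K) : mr (S.blk h e) (ι φ) = ι φ :=
  S.iff.1 ⟨φ, rfl⟩ h e

theorem Sph.ex (S : Sph H ι) (a : Block c g) (φ : K) : ∃ ψ, ι ψ = ml a (ι φ) :=
  S.iff.2 fun h e => by rw [← ml_mr, S.inv e]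

/-- the action on `K` -/
theorem Sph.mvK (S : Sph H ι) (a : Block c g) : ∃ σ : K ≃ₐ[ℂ] K, ∀ φ, ι (σ φ) = ml a (ι φ) := by
  let τ : K →ₐ[ℂ] K := (AlgEquiv.ofInjectiveField ι).symm.toAlgHom.comp
    (((ml a).toAlgHom.comp ι).codRestrict ι.range (S.ex a))
  have e : ∀ φ, ι (τ φ) = ml a (ι φ) := fun φ =>
    congrArg Subtype.val ((AlgEquiv.ofInjectiveField ι).apply_symm_apply _)
  refine ⟨.ofBijective τ ⟨τ.injective, fun φ => ?_⟩, e⟩
  obtain ⟨ψ, k⟩ := S.ex (bk_inv a) φ
  refine ⟨ψ, ι.injective ?_⟩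
  show ι (τ ψ) = ι φ
  rw [e, k, ml_ml, ml_congr bk_oneG (inv_mul_cancel g), ml_one]

end Vale.Agent.P283R.Sp
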