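import Vale.Agent.P283R.Sp.St

/-!
# P283R, block SP: the rows COC and STG
-/

open Set

noncomputable section

namespace Vale.Agent.P283R.Sp

open Vale.Agent.P287D Vale.Agent.P283M Sl MvPolynomial

namespace C59

variable {N : ℕ} {c : Fin N → ℕ} {g h g' h' : Matrix (Fin N) (Fin N) ℂ}

/-- the shift as a homomorphism -/
def sa (c : Fin N → ℕ) (g h : Matrix (Fin N) (Fin N) ℂ) : BlockPoly c →ₐ[ℂ] BlockPoly c :=
  aeval fun e => (g.map C * blockVar c * h.map C : Matrix _ _ (BlockPoly c)) e.1.1 e.1.2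

theorem sa_eq (p : BlockPoly c) : shift c g h p = sa c g h p := rfl

theorem map_bv (hg : Block c g) (hh : Block c h) :
    (blockVar c).map (sa c g h) = g.map C * blockVar c * h.map C := by
  ext1 i j
  by_cases e : c i = c j
  · simp only [Matrix.map_apply, blockVar, dif_pos e, sa, aeval_X]
  · simp only [Matrix.map_apply, blockVar, dif_neg e, map_zero, Matrix.mul_apply]
    refine (Finset.sum_eq_zero fun b _ => ?_).symm
    by_cases x : c b = c j
    · rw [Finset.sum_eq_zero fun a _ => ?_, zero_mul]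
      by_cases y : c i = c a
      · rw [dif_neg fun z => e (y.trans (z.trans x)), mul_zero]
      · rw [hg i a y, map_zero, zero_mul]
    · rw [hh b j x, map_zero, mul_zero]

theorem sh_sh (hg : Block c g) (hh : Block c h) (p : BlockPoly c) :
    shift c g h (shift c g' h' p) = shift c (g' * g) (h * h') p := by
  have : (sa c g h).comp (sa c g' h') = sa c (g' * g) (h * h') := by
    ext1 e
    have k : ∀ a : Matrix (Fin N) (Fin N) ℂ, (a.map C).map (sa c g h) = a.map C := fun a => by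
      ext1 i j
      exact (sa c g h).commutes _
    have m : (g'.map C * blockVar c * h'.map C : Matrix _ _ (BlockPoly c)).map (sa c g h) =
        (g' * g).map C * blockVar c * (h * h').map C := by
      rw [Matrix.map_mul, Matrix.map_mul, k, k, map_bv hg hh, Matrix.map_mul, Matrix.map_mul]
      simp only [Matrix.mul_assoc]
    rw [AlgHom.comp_apply, sa, sa, sa, aeval_X, aeval_X, ← m]
    rfl
  exact DFunLike.congr_fun this p

theorem sh_one (p : BlockPoly c) : shift c 1 1 p = p := by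
  have : sa c 1 1 = AlgHom.id ℂ _ := by
    ext1 e
    rw [sa, aeval_X, Matrix.map_one _ C_0 C_1, Matrix.one_mul, Matrix.mul_one]
    exact dif_pos e.2
  exact DFunLike.congr_fun this p

theorem bl_one : Block c (1 : Matrix (Fin N) (Fin N) ℂ) := fun _ _ e =>
  Matrix.one_apply_ne fun x => e (x ▸ rfl)

theorem bl_inv {g : GL (Fin N) ℂ} (hg : Block c g) : Block c (g⁻¹ : GL (Fin N) ℂ) := by
  let π : Matrix (Fin N) (Fin N) ℂ := fun i j =>
    if c i = c j then (g⁻¹ : GL (Fin N) ℂ) i j else 0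
  have e : (g : Matrix (Fin N) (Fin N) ℂ) * π = 1 := by
    ext i j
    by_cases x : c i = c j
    · rw [← g.mul_inv, Matrix.mul_apply, Matrix.mul_apply]
      refine Finset.sum_congr rfl fun a _ => ?_
      by_cases y : c i = c a
      · simp only [π, if_pos (y.symm.trans x)]
      · rw [hg i a y, zero_mul, zero_mul]
    · rw [bl_one i j x, Matrix.mul_apply]
      refine Finset.sum_eq_zero fun a _ => ?_
      by_cases y : c i = c a
      · simp only [π, if_neg fun z : c a = c j => x (y.trans z), mul_zero]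
      · rw [hg i a y, zero_mul]
  have e' : ((g⁻¹ : GL (Fin N) ℂ) : Matrix (Fin N) (Fin N) ℂ) = π := by
    rw [← Matrix.mul_one ((g⁻¹ : GL (Fin N) ℂ) : Matrix (Fin N) (Fin N) ℂ), ← e,
      ← Matrix.mul_assoc, g.inv_mul, Matrix.one_mul]
  intro i j x
  rw [e']
  exact if_neg x

theorem sh_inj {g h : GL (Fin N) ℂ} (hg : Block c g) (hh : Block c h) :
    Function.Injective (sa c g h) := Function.LeftInverse.injective
  (g := shift c (g⁻¹ : GL (Fin N) ℂ) (h⁻¹ : GL (Fin N) ℂ)) fun p => by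
    rw [← sa_eq, sh_sh (bl_inv hg) (bl_inv hh), g.mul_inv, h.inv_mul, sh_one]

theorem al_inj : Function.Injective (al c) := IsFractionRing.injective (BlockPoly c) (LL c)

theorem sh_ne {g : GL (Fin N) ℂ} (hg : Block c g) {p : BlockPoly c} (h : p ≠ 0) :
    shift c g 1 p ≠ 0 := (map_ne_zero_iff _ (sh_inj (h := 1) hg bl_one)).2 h

theorem al_ne {p : BlockPoly c} (h : p ≠ 0) : al c p ≠ 0 := (map_ne_zero_iff _ al_inj).2 h

theorem comm (hg : Block c g) (hh : Block c h) (p : BlockPoly c) :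
    shift c 1 h (shift c g 1 p) = shift c g 1 (shift c 1 h p) := by
  rw [sh_sh bl_one hh, sh_sh hg bl_one]
  simp only [mul_one, one_mul]

/-- the left translation of the rational functions -/
theorem ex_mv {g : GL (Fin N) ℂ} (hg : Block c g) :
    ∃ σ : LL c →ₐ[ℂ] LL c, (∀ p, σ (al c p) = al c (shift c g 1 p)) ∧
      ∀ x x', Shifted g 1 x x' ↔ x' = σ x := by
  have i : Function.Injective ((al c).comp (sa c g 1)) := al_inj.comp (sh_inj (h := 1) hg bl_one)
  have k : ∀ p, IsFractionRing.liftAlgHom (K := LL c) i (al c p) = al c (shift c g 1 p) :=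
    fun p => IsFractionRing.lift_algebraMap i p
  refine ⟨IsFractionRing.liftAlgHom i, k, fun x x' => ⟨?_, ?_⟩⟩
  · rintro ⟨p, q, ⟨-, a⟩, b0, b⟩
    have := congrArg (IsFractionRing.liftAlgHom (K := LL c) i) a
    rw [map_mul] at this
    exact mul_right_cancel₀ (al_ne b0) (b.trans ((k p).symm.trans (this.symm.trans
      (congrArg _ (k q)))))
  · rintro rfl
    obtain ⟨p, q, q0, rfl⟩ := IsFractionRing.div_surjective (A := BlockPoly c) x
    have q1 := nonZeroDivisors.ne_zero q0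
    refine ⟨p, q, ⟨q1, div_mul_cancel₀ _ (al_ne q1)⟩, sh_ne hg q1, ?_⟩
    rw [map_div₀]
    exact (congrArg₂ (· / · * _) (k p) (k q)).trans (div_mul_cancel₀ _ (al_ne (sh_ne hg q1)))

variable {K : Type} [Field K] [Algebra ℂ K] {H : Subgroup (GL (Fin N) ℂ)} {ι : K →ₐ[ℂ] LL c}

theorem ex_k (s : Sph H ι) {F : BlockPoly c} (F0 : F ≠ 0) (hF : Sem H F) {g : GL (Fin N) ℂ}
    (hg : Block c g) : ∃ κ, κ ≠ 0 ∧ ι κ * al c F = al c (shift c g 1 F) := by
  obtain ⟨κ, e⟩ := (s.fix (al c (shift c g 1 F) / al c F)).2 fun h hh => by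
    obtain ⟨a, ha⟩ := hF h hh
    refine ⟨shift c g 1 F, F, ⟨F0, div_mul_cancel₀ _ (al_ne F0)⟩,
      (map_ne_zero_iff _ (sh_inj (g := 1) bl_one (s.blk h hh))).2 F0, ?_⟩
    show _ * al c _ = al c _
    rw [comm hg (s.blk h hh), ha, sa_eq (a • F), map_smul (sa c g 1), ← sa_eq, map_smul (al c),
      map_smul (al c), mul_smul_comm, div_mul_cancel₀ _ (al_ne F0)]
  refine ⟨κ, ?_, by rw [e, div_mul_cancel₀ _ (al_ne F0)]⟩
  rintro rfl
  exact div_ne_zero (al_ne (sh_ne hg F0)) (al_ne F0) (e.symm.trans (map_zero _))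

theorem ex_l (s : Sph H ι) {g : GL (Fin N) ℂ} (hg : Block c g) {σ : LL c →ₐ[ℂ] LL c}
    (k : ∀ p, σ (al c p) = al c (shift c g 1 p)) (φ : K) : ∃ φ', ι φ' = σ (ι φ) :=
  (s.fix _).2 fun h hh => by
    obtain ⟨p, q, ⟨a0, a⟩, b0, b⟩ := (s.fix _).1 ⟨φ, rfl⟩ h hh
    have t : ∀ {p q}, ι φ * al c q = al c p →
        σ (ι φ) * al c (shift c g 1 q) = al c (shift c g 1 p) := fun e => by
      rw [← k, ← k, ← map_mul, e]
    refine ⟨shift c g 1 p, shift c g 1 q, ⟨sh_ne hg a0, t a⟩, ?_⟩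
    rw [comm hg (s.blk h hh), comm hg (s.blk h hh)]
    exact ⟨sh_ne hg b0, t b⟩

end C59

open C59

/-- **COC** -/
theorem coc59 (hd : DIV) : COC := by
  intro N c K _ _ H ι T V f h F F0 hF g hg
  obtain ⟨κ, κ0, e⟩ := ex_k h.sph F0 hF (hd N c g hg).1
  refine ⟨κ, κ0, e, fun E hE => ?_⟩
  have dv : ∀ n : ℕ, 0 < n → (n : ℤ) ∣ E.ord κ := fun n n0 => by
    obtain ⟨γ, g1, g2, g3⟩ := (hd N c g hg).2 n n0
    choose k k0 hk using fun j : ℕ => ex_k h.sph F0 hF (hd N c _ (g3 j)).1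
    have b1 := (hd N c γ g1).1
    have inj : ∀ {a b : K}, ι a * al c F = ι b * al c F → a = b := fun x =>
      ι.toRingHom.injective (mul_right_cancel₀ (al_ne F0) x)
    have h1 := hk 1
    rw [pow_one] at h1
    have st : ∀ j : ℕ, E.ord (k j) = j * E.ord (k 1) := fun j => by
      induction j with
      | zero =>
        have : k 0 = 1 := inj (by rw [hk, map_one, one_mul, pow_zero, Units.val_one, sh_one])
        simp [this]
      | succ j ih =>
        have := h.fxd E hE γ g1 (k j) (k (j + 1) / k 1)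
          ⟨shift c (γ ^ j : GL (Fin N) ℂ) 1 F, F, ⟨F0, hk j⟩, sh_ne b1 F0, by
            rw [sh_sh b1 bl_one, mul_one, ← Units.val_mul, ← pow_succ]
            show _ * al c _ = al c _
            rw [← hk, ← h1, map_div₀, ← mul_assoc, div_mul_cancel₀ _
              ((map_ne_zero ι).2 (k0 1))]⟩
        rw [P297Z.Pl.ord_div _ (k0 _) (k0 _)] at this
        push_cast
        linarith
    have : κ = k n := inj (by rw [e, hk, g2])
    exact ⟨_, this ▸ st n⟩
  exact Int.eq_zero_of_dvd_of_natAbs_lt_natAbs (dv (_ + 1) (Nat.succ_pos _)) (by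
    rw [Int.natAbs_natCast]; exact Nat.lt_succ_self _)

/-- **STG** -/
theorem stg59 (hd : DIV) (hl : DEL) (hc : COC) (hr : RGS) : STG := by
  intro N c K _ _ H ι T V f h s m hs g hg x hx x' e
  have b := (hd N c g hg).1
  obtain ⟨σ, k, hσ⟩ := ex_mv b
  obtain rfl := (hσ _ _).1 e
  obtain ⟨r1, r2⟩ := hr N c K H ι T V f h s m hs
  obtain ⟨n, p, hp⟩ := r1 x hx
  obtain ⟨φ, hφ, rfl⟩ := hx
  rcases eq_or_ne φ 0 with rfl | φ0
  · simp
  obtain ⟨φ', e'⟩ := ex_l h.sph b k φ
  have φ1 : φ' ≠ 0 := by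
    rintro rfl
    exact (map_ne_zero σ).2 ((map_ne_zero ι).2 φ0) (e'.symm.trans (map_zero _))
  choose κ κ0 k1 k2 using fun E => hc N c K H ι T V f h (f E) (h.sqf E).ne_zero (h.sem E) g hg
  have p0 : ∏ E ∈ s, κ E ^ m E ≠ 0 := Finset.prod_ne_zero_iff.2 fun E _ => zpow_ne_zero _ (κ0 E)
  have eq : ι (φ' * ∏ E ∈ s, κ E ^ m E) * tw f s m = σ (ι φ * tw f s m) := by
    rw [map_mul, map_mul, e', mul_assoc, tw, map_prod, map_prod, ← Finset.prod_mul_distrib]
    congr 1
    exact Finset.prod_congr rfl fun E _ => by rw [map_zpow₀, map_zpow₀, k, ← k1, mul_zpow]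
  refine ⟨φ' * ∏ E ∈ s, κ E ^ m E, fun ne E hE => ?_, eq⟩
  by_cases v : E ∈ V
  · refine r2 _ ne ⟨n, ((g : Matrix (Fin N) (Fin N) ℂ).det ^ n)⁻¹ • shift c g 1 p, ?_⟩ E v
    have t := congrArg σ hp
    have d0 : (g : Matrix (Fin N) (Fin N) ℂ).det ^ n ≠ 0 := pow_ne_zero _ g.det_ne_zero
    rw [map_mul, map_pow, k, k, (hl N c).2.2 _ _ b bl_one, Matrix.det_one, mul_one, map_smul,
      smul_pow, smul_mul_assoc] at t
    rw [map_smul, ← t, eq, smul_smul, inv_mul_cancel₀ d0, one_smul]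
    rfl
  · have a := h.fxd E ⟨hE, v⟩ g hg φ φ' ((hσ _ _).2 e')
    have z : E.ord (∏ E' ∈ s, κ E' ^ m E') = 0 :=
      Finset.prod_induction _ (fun y => y ≠ 0 ∧ E.ord y = 0) (fun y y' u u' =>
        ⟨mul_ne_zero u.1 u'.1, by rw [P297Z.Pl.ord_mul _ u.1 u'.1, u.2, u'.2, add_zero]⟩)
        ⟨one_ne_zero, by simp⟩ (fun E' _ => ⟨zpow_ne_zero _ (κ0 E'), by
          rw [P297Z.Pl.ord_zpow, k2 E' E ⟨hE, v⟩, mul_zero]⟩) |>.2
    rw [P297Z.Pl.ord_mul _ φ1 p0, z, add_zero, ← a]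
    exact hφ φ0 E hE

end Vale.Agent.P283R.Sp
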