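import Mathlib

/-!
# P283R, block SP: the degree of a squarefree eigenpolynomial of the Borel algebra
-/

open MvPolynomial

noncomputable section

namespace Vale.Agent.P283R.Sp.C56

section Exp

variable {σ : Type} (d : Derivation ℂ (MvPolynomial σ ℂ) (MvPolynomial σ ℂ))

/-- `x ↦ x + s d x` -/
def ex : MvPolynomial σ ℂ →ₐ[ℂ] Polynomial (MvPolynomial σ ℂ) :=
  aeval fun w => Polynomial.C (X w) + Polynomial.X * Polynomial.C (d (X w))

theorem ex_X (w : σ) :
    ex d (X w) = Polynomial.C (X w) + Polynomial.X * Polynomial.C (d (X w)) := by simp [ex]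

theorem ex_C (a : ℂ) : ex d (C a) = Polynomial.C (C a) := by
  simp [ex, Polynomial.algebraMap_apply]

/-- the derivation moves a variable to a fixed variable -/
def Nil : Prop := ∀ w, d (X w) = 0 ∨ ∃ v, d (X w) = X v ∧ d (X v) = 0

variable {d}

theorem ex_d (h : Nil d) (w : σ) :
    ex d (d (X w)) = Polynomial.C (d (X w)) ∧ ex (-d) (d (X w)) = Polynomial.C (d (X w)) := by
  rcases h w with z | ⟨v, e, z⟩
  · simp [z]
  · rw [e, ex_X, ex_X]
    simp [z]

theorem ex_der (h : Nil d) (p : MvPolynomial σ ℂ) :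
    Polynomial.derivative (ex d p) = ex d (d p) := by
  induction p using MvPolynomial.induction_on with
  | C a => simp [derivation_C]
  | add p q a b => simp [a, b]
  | mul_X p w a =>
    rw [map_mul, Polynomial.derivative_mul, a, Derivation.leibniz, smul_eq_mul, smul_eq_mul,
      map_add, map_mul, map_mul, (ex_d h w).1, ex_X]
    simp
    ring

theorem ex_zero (p : MvPolynomial σ ℂ) : (ex d p).coeff 0 = p := by
  induction p using MvPolynomial.induction_on with
  | C a => simp
  | add p q a b => simp [a, b]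
  | mul_X p w a =>
    rw [map_mul, Polynomial.mul_coeff_zero, a, ex_X]
    simp

theorem ex_coeff (h : Nil d) (k : ℕ) (p : MvPolynomial σ ℂ) :
    (k.factorial : MvPolynomial σ ℂ) * (ex d p).coeff k = d^[k] p := by
  induction k generalizing p with
  | zero => simp [ex_zero]
  | succ k ih =>
    rw [Function.iterate_succ_apply, ← ih, ← ex_der h, Polynomial.coeff_derivative,
      Nat.factorial_succ]
    push_cast
    ring

/-- the extension to `P[s]` -/
def tau (d : Derivation ℂ (MvPolynomial σ ℂ) (MvPolynomial σ ℂ)) :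
    Polynomial (MvPolynomial σ ℂ) →+* Polynomial (MvPolynomial σ ℂ) :=
  Polynomial.eval₂RingHom (ex d).toRingHom Polynomial.X

theorem tau_C (p : MvPolynomial σ ℂ) : tau d (Polynomial.C p) = ex d p := by simp [tau]

theorem tau_X : tau d Polynomial.X = Polynomial.X := by simp [tau]

theorem tau_ex {d' : Derivation ℂ (MvPolynomial σ ℂ) (MvPolynomial σ ℂ)}
    (h : ∀ w, ex d' (d (X w)) = Polynomial.C (d (X w))) (n : ∀ w, d' (X w) = - d (X w))
    (q : Polynomial (MvPolynomial σ ℂ)) : tau d' (tau d q) = q := by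
  have k : ∀ p, tau d' (ex d p) = Polynomial.C p := by
    intro p
    induction p using MvPolynomial.induction_on with
    | C a => rw [ex_C, tau_C, ex_C]
    | add p q a b => simp [a, b]
    | mul_X p w a =>
      rw [map_mul, map_mul, a, ex_X, map_add, map_mul, tau_C, tau_C, tau_X, h, ex_X, n, map_neg,
        map_mul]
      ring
  induction q using Polynomial.induction_on with
  | C a => rw [tau_C, k]
  | add p q a b => simp [a, b]
  | monomial n a ih =>
    rw [pow_succ, ← mul_assoc, map_mul, map_mul, ih, tau_X, tau_X]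

theorem sq_C {R : Type} [CommRing R] [IsDomain R] {F : R} (h : Squarefree F) :
    Squarefree (Polynomial.C F) := by
  intro q hq
  have z : q.natDegree = 0 := by
    have := Polynomial.natDegree_le_of_dvd ((dvd_mul_right q q).trans hq)
      (Polynomial.C_ne_zero.2 h.ne_zero)
    simpa using this
  obtain ⟨a, rfl⟩ := Polynomial.natDegree_eq_zero.1 z
  rw [← map_mul, Polynomial.C_dvd_iff_dvd_coeff] at hq
  have := hq 0
  rw [Polynomial.coeff_C_zero] at this
  exact (h a this).map _

theorem sq_ex (h : Nil d) {F : MvPolynomial σ ℂ} (s : Squarefree F) : Squarefree (ex d F) := by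
  intro q hq
  have a := map_dvd (tau (-d)) hq
  rw [← tau_C, tau_ex (fun w => (ex_d h w).2) (fun w => by simp), map_mul] at a
  have b := (sq_C s _ a).map (tau d)
  rwa [tau_ex (fun w => by
    have := (ex_d h w).1
    simp only [Derivation.neg_apply, map_neg, this]) (fun w => by simp)] at b

theorem sq_map {R L : Type} [CommRing R] [IsDomain R] [UniqueFactorizationMonoid R] [Field L]
    [Algebra R L] [IsFractionRing R L] {P : Polynomial R} (h : Squarefree P) :
    Squarefree (P.map (algebraMap R L)) := by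
  let : NormalizedGCDMonoid R := Nonempty.some inferInstance
  intro g hg
  have g0 : g ≠ 0 := by
    rintro rfl
    rw [mul_zero, zero_dvd_iff, Polynomial.map_eq_zero_iff (IsFractionRing.injective R L)] at hg
    exact h.ne_zero hg
  obtain ⟨b, hb, e⟩ := IsLocalization.integerNormalization_spec (nonZeroDivisors R) g
  set g' := IsLocalization.integerNormalization (nonZeroDivisors R) g with hg'
  have b0 : algebraMap R L b ≠ 0 := by
    rw [Ne, map_eq_zero_iff _ (IsFractionRing.injective R L)]
    exact nonZeroDivisors.ne_zero hb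
  have dv : g'.primPart.map (algebraMap R L) ∣ g := by
    have a1 : g'.primPart.map (algebraMap R L) ∣ g'.map (algebraMap R L) :=
      Polynomial.map_dvd _ g'.primPart_dvd
    refine a1.trans ⟨Polynomial.C (algebraMap R L b)⁻¹, ?_⟩
    rw [e, Algebra.smul_def, Polynomial.algebraMap_apply, mul_comm, ← mul_assoc, ← map_mul,
      inv_mul_cancel₀ b0, map_one, one_mul]
  have p2 : (g'.primPart * g'.primPart).IsPrimitive :=
    g'.isPrimitive_primPart.mul g'.isPrimitive_primPart
  have := p2.dvd_of_fraction_map_dvd_fraction_map (K := L) (q := P) (by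
    rw [Polynomial.map_mul]
    exact (mul_dvd_mul dv dv).trans hg)
  exact Polynomial.isUnit_or_eq_zero_of_isUnit_integerNormalization_primPart g0 (h _ this)

/-- the differential equation -/
theorem ode {L : Type} [Field L] [CharZero L] {P : Polynomial L} (s : Squarefree P)
    (c v w m : L) (φ : ℕ → L) (hφ : ∀ k, (k.factorial : L) * P.coeff k = φ k)
    (h : ∀ k : ℕ, φ (k + 1) = (c + k * v) * φ k + w * k * (m + 1 - k) * φ (k - 1)) : φ 3 = 0 := by
  have sep : P.Separable := PerfectField.separable_iff_squarefree.2 s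
  set Q : Polynomial L := 1 - Polynomial.C v * Polynomial.X +
    Polynomial.C w * (Polynomial.X * Polynomial.X) with hQ
  have e : Polynomial.derivative P - Polynomial.C v * (Polynomial.X * Polynomial.derivative P) +
      Polynomial.C w * (Polynomial.X * (Polynomial.X * Polynomial.derivative P)) =
      Polynomial.C c * P + Polynomial.C (w * m) * (Polynomial.X * P) := by
    ext k
    have fk : ∀ k : ℕ, (k.factorial : L) ≠ 0 := fun k => Nat.cast_ne_zero.2 k.factorial_ne_zero
    match k with
    | 0 =>
      have := h 0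
      rw [← hφ, ← hφ] at this
      simp [Polynomial.coeff_derivative] at this ⊢
      exact this
    | 1 =>
      have := h 1
      rw [← hφ, ← hφ, ← hφ] at this
      have x1 : ∀ q : Polynomial L, (Polynomial.X * q).coeff 1 = q.coeff 0 := fun q =>
        Polynomial.coeff_X_mul q 0
      simp only [Polynomial.coeff_add, Polynomial.coeff_sub, Polynomial.coeff_C_mul,
        Polynomial.coeff_derivative, x1, Polynomial.mul_coeff_zero, Polynomial.coeff_X_zero]
      simp [Nat.factorial] at this ⊢
      linear_combination this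
    | k + 2 =>
      have := h (k + 2)
      rw [← hφ, ← hφ, ← hφ] at this
      simp only [Polynomial.coeff_add, Polynomial.coeff_sub, Polynomial.coeff_C_mul,
        Polynomial.coeff_derivative, Polynomial.coeff_X_mul]
      have e1 : k + 2 - 1 = k + 1 := rfl
      rw [e1, Nat.factorial_succ (k + 2), Nat.factorial_succ (k + 1)] at this
      apply mul_left_cancel₀ (fk (k + 1))
      apply mul_left_cancel₀ (show ((k : L) + 2) ≠ 0 by exact_mod_cast (by omega : k + 2 ≠ 0))
      push_cast at this ⊢
      linear_combination this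
  have dv : P ∣ Q * Polynomial.derivative P :=
    ⟨Polynomial.C c + Polynomial.C (w * m) * Polynomial.X, by rw [hQ]; linear_combination e⟩
  have d2 : P ∣ Q := IsCoprime.dvd_of_dvd_mul_right sep dv
  have Q0 : Q ≠ 0 := by
    intro z
    have := congrArg (fun q => Polynomial.coeff q 0) z
    simp [hQ] at this
  have dg : Q.natDegree ≤ 2 := by
    rw [hQ]
    compute_degree
  have := Polynomial.natDegree_le_of_dvd d2 Q0
  rw [← hφ, Polynomial.coeff_eq_zero_of_natDegree_lt (by omega), mul_zero]

end Exp

section Blk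

variable {σ ρ : Type} [DecidableEq ρ]

/-- the variables are the entries of the block matrix `M`, and `D i j` adds the row `i` to the
row `j` -/
structure Blk (A : ρ → ρ → Prop) (r cl : σ → ρ) (M : Matrix ρ ρ (MvPolynomial σ ℂ))
    (D : ρ → ρ → Derivation ℂ (MvPolynomial σ ℂ) (MvPolynomial σ ℂ)) : Prop where
  eqv : Equivalence A
  rc : ∀ w, A (r w) (cl w)
  var : ∀ w, M (r w) (cl w) = X w
  ex : ∀ i a, A i a → ∃ w, r w = i ∧ cl w = a
  off : ∀ i a, ¬ A i a → M i a = 0
  act : ∀ i j w, A i j → D i j (X w) = if r w = j then M i (cl w) else 0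

variable {A : ρ → ρ → Prop} {r cl : σ → ρ} {M : Matrix ρ ρ (MvPolynomial σ ℂ)}
  {D : ρ → ρ → Derivation ℂ (MvPolynomial σ ℂ) (MvPolynomial σ ℂ)}

theorem Blk.ent (h : Blk A r cl M D) {i j : ρ} (a : A i j) (k b : ρ) :
    D i j (M k b) = if k = j then M i b else 0 := by
  by_cases c : A k b
  · obtain ⟨w, rfl, rfl⟩ := h.ex k b c
    rw [h.var, h.act _ _ _ a]
  · rw [h.off _ _ c, map_zero]
    split_ifs with e
    · subst e
      exact (h.off _ _ fun t => c (h.eqv.trans (h.eqv.symm a) t)).symm
    · rfl

theorem Blk.com (h : Blk A r cl M D) {p q i j : ρ} (a : A p q) (b : A i j)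
    (x : MvPolynomial σ ℂ) : D p q (D i j x) = D i j (D p q x) +
      (if q = i then D p j x else 0) - (if j = p then D i q x else 0) := by
  have e : ⁅D p q, D i j⁆ = (if q = i then D p j else 0) - (if j = p then D i q else 0) := by
    refine derivation_ext fun w => ?_
    have e1 : D p q (D i j (X w)) = (if q = i then D p j else 0) (X w) := by
      rw [h.act _ _ _ b]
      by_cases c : q = i
      · subst c
        rw [if_pos rfl, h.act _ _ _ (h.eqv.trans a b)]
        split_ifs
        · rw [h.ent a, if_pos rfl]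
        · exact map_zero _
      · rw [if_neg c]
        split_ifs
        · rw [h.ent a, if_neg (Ne.symm c)]
          rfl
        · exact map_zero _
    have e2 : D i j (D p q (X w)) = (if j = p then D i q else 0) (X w) := by
      rw [h.act _ _ _ a]
      by_cases c : j = p
      · subst c
        rw [if_pos rfl, h.act _ _ _ (h.eqv.trans b a)]
        split_ifs
        · rw [h.ent b, if_pos rfl]
        · exact map_zero _
      · rw [if_neg c]
        split_ifs
        · rw [h.ent b, if_neg (Ne.symm c)]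
          rfl
        · exact map_zero _
    rw [Derivation.commutator_apply, Derivation.sub_apply, e1, e2]
  have := congrArg (fun δ : Derivation ℂ (MvPolynomial σ ℂ) (MvPolynomial σ ℂ) => δ x) e
  simp only [Derivation.commutator_apply, Derivation.sub_apply] at this
  have e1 : (if q = i then D p j else 0) x = if q = i then D p j x else 0 := by
    split_ifs <;> rfl
  have e2 : (if j = p then D i q else 0) x = if j = p then D i q x else 0 := by
    split_ifs <;> rfl
  rw [e1, e2] at this
  linear_combination this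

theorem Blk.nil (h : Blk A r cl M D) {i j : ρ} (a : A i j) (n : i ≠ j) : Nil (D i j) := by
  intro w
  rw [h.act _ _ _ a]
  split_ifs with e
  · obtain ⟨v, e1, e2⟩ := h.ex i (cl w) (h.eqv.trans a (e ▸ h.rc w))
    refine Or.inr ⟨v, by rw [← h.var v, e1, e2], ?_⟩
    rw [h.act _ _ _ a, if_neg (e1 ▸ n)]
  · exact Or.inl rfl

variable {ν : ρ → ℕ} {F : MvPolynomial σ ℂ} {lam : ρ → ℂ} {i j : ρ}

theorem Blk.dg (h : Blk A r cl M D) (a : A j i) {p : ρ} (hp : D p p F = lam p • F) (k : ℕ) :
    D p p ((D j i)^[k] F) = (lam p + k * ((if p = j then 1 else 0) - if i = p then 1 else 0)) •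
      (D j i)^[k] F := by
  induction k with
  | zero => simpa using hp
  | succ k ih =>
    rw [Function.iterate_succ_apply', h.com (h.eqv.refl p) a, ih, Derivation.map_smul]
    have e1 : (if p = j then D p i ((D j i)^[k] F) else 0) =
        (if p = j then (1 : ℂ) else 0) • D j i ((D j i)^[k] F) := by
      split_ifs with c
      · rw [c, one_smul]
      · rw [zero_smul]
    have e2 : (if i = p then D j p ((D j i)^[k] F) else 0) =
        (if i = p then (1 : ℂ) else 0) • D j i ((D j i)^[k] F) := by
      split_ifs with c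
      · rw [c, one_smul]
      · rw [zero_smul]
    rw [e1, e2, ← add_smul, ← sub_smul]
    congr 1
    push_cast
    ring

theorem Blk.up (h : Blk A r cl M D) (a : A i j) (n : i ≠ j) (dg : ∀ p, D p p F = lam p • F)
    (z : D i j F = 0) (k : ℕ) : D i j ((D j i)^[k] F) =
      ((k : ℂ) * (lam i - lam j + 1 - k)) • (D j i)^[k - 1] F := by
  have b := h.eqv.symm a
  induction k with
  | zero => simpa using z
  | succ k ih =>
    rw [Function.iterate_succ_apply', h.com a b, ih, if_pos rfl, if_pos rfl, h.dg b (dg i),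
      h.dg b (dg j), if_neg n, if_pos rfl, if_pos rfl, Derivation.map_smul,
      Nat.add_sub_cancel]
    have e : ((k : ℂ) * (lam i - lam j + 1 - k)) • D j i ((D j i)^[k - 1] F) =
        ((k : ℂ) * (lam i - lam j + 1 - k)) • (D j i)^[k] F := by
      cases k with
      | zero => simp
      | succ k => rw [Nat.add_sub_cancel, Function.iterate_succ_apply']
    rw [e, ← add_smul, ← sub_smul]
    congr 1
    push_cast
    ring

theorem Blk.oth (h : Blk A r cl M D) (inj : ∀ p q, A p q → ν p = ν q → p = q) (a : A i j)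
    (lt : ν i < ν j) (adj : ∀ t, A i t → ν i < ν t → ν j ≤ ν t)
    (hw : ∀ p q, A p q → ν p < ν q → D p q F = 0) (k : ℕ) :
    ∀ p q, A p q → ν p < ν q → ¬ (p = i ∧ q = j) → D p q ((D j i)^[k] F) = 0 := by
  have b := h.eqv.symm a
  induction k with
  | zero => exact fun p q c l _ => hw p q c l
  | succ k ih =>
    intro p q c l n
    rw [Function.iterate_succ_apply', h.com c b, ih p q c l n, map_zero, zero_add]
    have e1 : (if q = j then D p i ((D j i)^[k] F) else 0) = 0 := by
      split_ifs with e
      · subst e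
        have t : A p i := h.eqv.trans c b
        have ne : p ≠ i := fun e => n ⟨e, rfl⟩
        refine ih p i t ?_ fun e => ne e.1
        by_contra u
        have := adj p (h.eqv.symm t) (lt_of_le_of_ne (not_lt.1 u) fun e => ne (inj _ _ t e.symm))
        omega
      · rfl
    have e2 : (if i = p then D j q ((D j i)^[k] F) else 0) = 0 := by
      split_ifs with e
      · subst e
        have t : A j q := h.eqv.trans b c
        have ne : q ≠ j := fun e => n ⟨rfl, e⟩
        refine ih j q t (lt_of_le_of_ne (adj q c l) fun e => ne (inj _ _ t e).symm) fun e => ?_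
        rw [e.1] at lt
        omega
      · rfl
    rw [e1, e2, sub_zero]

theorem Blk.term (h : Blk A r cl M D) (inj : ∀ p q, A p q → ν p = ν q → p = q) (a : A i j)
    (lt : ν i < ν j) (adj : ∀ t, A i t → ν i < ν t → ν j ≤ ν t)
    (hw : ∀ p q, A p q → ν p < ν q → D p q F = 0) (dg : ∀ p, D p p F = lam p • F) {p q : ρ}
    (c : A p q) (l : ν p ≤ ν q) : ∃ u v w : ℂ, ∀ k : ℕ, D p q ((D j i)^[k] F) =
      (u + k * v) • (D j i)^[k] F + (w * k * (lam i - lam j + 1 - k)) • (D j i)^[k - 1] F := by
  have n : i ≠ j := fun e => by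
    rw [e] at lt
    omega
  by_cases e : p = q
  · subst e
    exact ⟨lam p, (if p = j then 1 else 0) - if i = p then 1 else 0, 0, fun k => by
      rw [h.dg (h.eqv.symm a) (dg p)]; simp⟩
  · by_cases e' : p = i ∧ q = j
    · obtain ⟨rfl, rfl⟩ := e'
      exact ⟨0, 0, 1, fun k => by rw [h.up a n dg (hw _ _ a lt)]; simp⟩
    · exact ⟨0, 0, 0, fun k => by
        rw [h.oth inj a lt adj hw k p q c (lt_of_le_of_ne l fun t => e (inj _ _ c t)) e']
        simp⟩

variable [Fintype ρ] {L K : Type} [Field L] [Algebra ℂ L] [Algebra (MvPolynomial σ ℂ) L]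
  [IsFractionRing (MvPolynomial σ ℂ) L] [CommRing K] {E : ρ → ρ → Derivation ℂ L L} {ι : K →+* L}

/-- the differences of consecutive weights -/
theorem Blk.step (h : Blk A r cl M D) (inj : ∀ p q, A p q → ν p = ν q → p = q) (a : A i j)
    (lt : ν i < ν j) (adj : ∀ t, A i t → ν i < ν t → ν j ≤ ν t) (sq : Squarefree F)
    (hw : ∀ p q, A p q → ν p < ν q → D p q F = 0) (dg : ∀ p, D p p F = lam p • F)
    (hE : ∀ p q, A p q → ∀ x, E p q (algebraMap _ L x) = algebraMap _ L (D p q x))
    (st : ∀ y, ∃ y', E j i (ι y) = ι y')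
    (hF : ∃ y, algebraMap _ L (D j i F) = ι y * algebraMap _ L F)
    (sp : ∃ c : ρ × ρ → L, (∀ x, c x ≠ 0 → A x.1 x.2 ∧ ν x.1 ≤ ν x.2) ∧
      ∀ y, E j i (ι y) = ∑ x, c x * E x.1 x.2 (ι y)) :
    (D j i)^[3] F = 0 ∧ (lam i - lam j = 0 ∨ lam i - lam j = 1 ∨ lam i - lam j = 2) := by
  have b := h.eqv.symm a
  have n : i ≠ j := fun e => by
    rw [e] at lt
    omega
  have ij := IsFractionRing.injective (MvPolynomial σ ℂ) L
  have : CharZero L := charZero_of_injective_algebraMap ij
  obtain ⟨c, hc, sp⟩ := sp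
  obtain ⟨y1, h1⟩ := hF
  set al := algebraMap (MvPolynomial σ ℂ) L with hal
  have F0 : al F ≠ 0 := fun z => sq.ne_zero (ij (z.trans (map_zero _).symm))
  have mem : ∀ k, ∃ y, al ((D j i)^[k] F) = ι y * al F := by
    intro k
    induction k with
    | zero => exact ⟨1, by simp⟩
    | succ k ih =>
      obtain ⟨y, e⟩ := ih
      obtain ⟨y', e'⟩ := st y
      refine ⟨y * y1 + y', ?_⟩
      rw [Function.iterate_succ_apply', ← hE _ _ b, e, Derivation.leibniz, e', hE _ _ b, h1,
        smul_eq_mul, smul_eq_mul, map_add, map_mul]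
      ring
  let g : ℂ →+* L := al.comp C
  have tm : ∀ x : ρ × ρ, ∃ u v w : L, ∀ k : ℕ, c x * E x.1 x.2 (al ((D j i)^[k] F)) =
      (u + k * v) * al ((D j i)^[k] F) +
        w * k * (g (lam i - lam j) + 1 - k) * al ((D j i)^[k - 1] F) := by
    intro x
    by_cases z : c x = 0
    · exact ⟨0, 0, 0, fun k => by simp [z]⟩
    · obtain ⟨u, v, w, e⟩ := h.term inj a lt adj hw dg (hc x z).1 (hc x z).2
      refine ⟨c x * g u, c x * g v, c x * g w, fun k => ?_⟩
      have e1 : ∀ (t : ℂ) (y : MvPolynomial σ ℂ), al (t • y) = g t * al y := fun t y => by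
        rw [smul_eq_C_mul, map_mul]
        rfl
      rw [hE _ _ (hc x z).1, e, map_add, e1, e1]
      simp only [map_add, map_mul, map_sub, map_natCast, map_one]
      ring
  choose u v w e using tm
  have z3 : al ((D j i)^[3] F) = 0 := by
    refine ode (sq_map (L := L) (sq_ex (h.nil b n.symm) sq))
      ((E j i (al F) - ∑ x, c x * E x.1 x.2 (al F)) / al F + ∑ x, u x) (∑ x, v x) (∑ x, w x)
      (g (lam i - lam j)) (fun k => al ((D j i)^[k] F)) (fun k => ?_) fun k => ?_
    · rw [Polynomial.coeff_map, ← ex_coeff (h.nil b n.symm), map_mul, map_natCast]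
    · obtain ⟨y, ey⟩ := mem k
      have s1 : ∑ x, c x * E x.1 x.2 (al ((D j i)^[k] F)) =
          (∑ x, u x + k * ∑ x, v x) * al ((D j i)^[k] F) +
          (∑ x, w x) * k * (g (lam i - lam j) + 1 - k) * al ((D j i)^[k - 1] F) := by
        simp only [e, Finset.sum_add_distrib, Finset.sum_mul, Finset.mul_sum, add_mul]
      have s2 : ∑ x, c x * E x.1 x.2 (al ((D j i)^[k] F)) =
          ι y * ∑ x, c x * E x.1 x.2 (al F) + al F * E j i (ι y) := by
        rw [sp, ey, Finset.mul_sum, Finset.mul_sum, ← Finset.sum_add_distrib]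
        refine Finset.sum_congr rfl fun x _ => ?_
        rw [Derivation.leibniz, smul_eq_mul, smul_eq_mul]
        ring
      have s3 : al ((D j i)^[k + 1] F) = ι y * E j i (al F) + al F * E j i (ι y) := by
        rw [Function.iterate_succ_apply', ← hE _ _ b, ey, Derivation.leibniz, smul_eq_mul,
          smul_eq_mul]
      have s4 : (E j i (al F) - ∑ x, c x * E x.1 x.2 (al F)) / al F * al ((D j i)^[k] F) =
          ι y * (E j i (al F) - ∑ x, c x * E x.1 x.2 (al F)) := by
        rw [ey]
        field_simp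
      linear_combination s3 - s4 + s1 - s2
  have z : (D j i)^[3] F = 0 := ij (z3.trans (map_zero _).symm)
  refine ⟨z, ?_⟩
  have up := h.up a n dg (hw _ _ a lt)
  have k3 := up 3
  rw [z, map_zero, eq_comm, smul_eq_zero] at k3
  rcases k3 with k3 | z2
  · right
    right
    push_cast at k3
    linear_combination k3 / 3
  have k2 := up 2
  rw [show (D j i)^[2] F = 0 from z2, map_zero, eq_comm, smul_eq_zero] at k2
  rcases k2 with k2 | z1
  · right
    left
    push_cast at k2
    linear_combination k2 / 2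
  have k1 := up 1
  rw [show (D j i)^[1] F = 0 from z1, map_zero, eq_comm, smul_eq_zero] at k1
  rcases k1 with k1 | z0
  · left
    push_cast at k1
    linear_combination k1
  · exact absurd z0 sq.ne_zero

theorem dsum {R : Type} [CommRing R] [Algebra ℂ R] {I : Type} (s : Finset I)
    (d : I → Derivation ℂ R R) (p : R) : (∑ i ∈ s, d i) p = ∑ i ∈ s, d i p := by
  classical
  induction s using Finset.induction_on with
  | empty => simp
  | insert a s ha ih => rw [Finset.sum_insert ha, Finset.sum_insert ha, Derivation.add_apply, ih]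

variable [Fintype σ]

omit [Fintype ρ] in
theorem Blk.eq [DecidableEq σ] (h : Blk A r cl M D) (a : A i j) (x : MvPolynomial σ ℂ) :
    D i j x = ∑ w, if r w = j then M i (cl w) * pderiv w x else 0 := by
  have e : D i j = ∑ w, (if r w = j then M i (cl w) else 0) • pderiv w := by
    refine derivation_ext fun v => ?_
    rw [dsum, h.act _ _ _ a, Finset.sum_eq_single v (fun w _ n => by
      rw [Derivation.smul_apply, pderiv_X_of_ne n.symm, smul_zero]) (by simp),
      Derivation.smul_apply, pderiv_X_self, smul_eq_mul, mul_one]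
  rw [e, dsum]
  refine Finset.sum_congr rfl fun w _ => ?_
  split_ifs <;> simp

/-- the last weight of a block vanishes -/
theorem Blk.last (h : Blk A r cl M D) {n : ρ} (cop : IsRelPrime F M.det)
    (hw : ∀ p, A p n → p ≠ n → D p n F = 0) (dg : D n n F = lam n • F) : lam n = 0 := by
  classical
  let u : ρ → MvPolynomial σ ℂ := fun a =>
    ∑ w, if r w = n ∧ cl w = a then pderiv w F else 0
  have e0 : ∀ p, (M.mulVec u) p = ∑ w, if r w = n then M p (cl w) * pderiv w F else 0 := by
    intro p
    simp only [Matrix.mulVec, dotProduct, u, Finset.mul_sum]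
    rw [Finset.sum_comm]
    refine Finset.sum_congr rfl fun w _ => ?_
    rw [Finset.sum_eq_single (cl w) (fun b _ t => by rw [if_neg fun e => t e.2.symm, mul_zero])
      (by simp)]
    by_cases c : r w = n <;> simp [c]
  have e : M.mulVec u = Pi.single n (lam n • F) := by
    funext p
    rw [e0]
    by_cases c : A p n
    · rw [← h.eq c]
      by_cases t : p = n
      · subst t
        rw [dg, Pi.single_eq_same]
      · rw [hw p c t, Pi.single_eq_of_ne t]
    · have t : p ≠ n := fun e => c (e ▸ h.eqv.refl p)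
      rw [Pi.single_eq_of_ne t]
      refine Finset.sum_eq_zero fun w _ => ?_
      split_ifs with s
      · rw [h.off _ _ fun k => c (h.eqv.trans k (h.eqv.symm (s ▸ h.rc w))), zero_mul]
      · rfl
  have e2 := congrFun (congrArg M.adjugate.mulVec e) n
  rw [Matrix.mulVec_mulVec, Matrix.adjugate_mul, Matrix.smul_mulVec, Matrix.one_mulVec,
    Matrix.mulVec_single] at e2
  have dv : M.det ∣ (C (lam n) * M.adjugate n n) * F := ⟨u n, by
    have : M.det * u n = M.adjugate n n * (lam n • F) := by simpa [mul_comm] using e2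
    rw [this, smul_eq_C_mul]
    ring⟩
  let x : σ → ℂ := fun w => if r w = cl w ∧ r w ≠ n then 1 else 0
  have ev : (eval x).mapMatrix M = Matrix.diagonal fun p => if p = n then 0 else 1 := by
    ext p a
    rw [RingHom.mapMatrix_apply, Matrix.map_apply, Matrix.diagonal_apply]
    by_cases c : A p a
    · obtain ⟨w, rfl, rfl⟩ := h.ex p a c
      rw [h.var, eval_X]
      by_cases t : r w = cl w <;> by_cases s : r w = n <;> simp [x, t, s]
    · have t : p ≠ a := fun e => c (e ▸ h.eqv.refl p)
      rw [h.off _ _ c, map_zero, if_neg t]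
  have d2 := map_dvd (eval x) (cop.symm.dvd_of_dvd_mul_right dv)
  have a1 : eval x (M.adjugate n n) = 1 := by
    have := congrFun (congrFun ((eval x).map_adjugate M) n) n
    rw [ev, Matrix.adjugate_diagonal, Matrix.diagonal_apply_eq, RingHom.mapMatrix_apply,
      Matrix.map_apply] at this
    rw [this]
    exact Finset.prod_eq_one fun p hp => if_neg (Finset.ne_of_mem_erase hp)
  have z : (∏ p, if p = n then (0 : ℂ) else 1) = 0 :=
    Finset.prod_eq_zero (Finset.mem_univ n) (if_pos rfl)
  rw [RingHom.map_det, ev, Matrix.det_diagonal, map_mul, a1, eval_C, mul_one, z,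
    zero_dvd_iff] at d2
  exact d2

theorem Blk.euler (h : Blk A r cl M D) (dg : ∀ p, D p p F = lam p • F) {m : σ →₀ ℕ}
    (hm : m ∈ F.support) : ((∑ w, m w : ℕ) : ℂ) = ∑ p, lam p := by
  classical
  have e : ∑ w, X w * pderiv w F = (∑ p, lam p) • F := by
    rw [Finset.sum_smul, ← Finset.sum_congr rfl fun p _ => dg p,
      Finset.sum_congr rfl fun p _ => h.eq (h.eqv.refl p) F, Finset.sum_comm]
    refine Finset.sum_congr rfl fun w _ => ?_
    rw [Finset.sum_ite_eq, if_pos (Finset.mem_univ _), h.var]
  have e1 : ∀ w (G : MvPolynomial σ ℂ), coeff m (X w * pderiv w G) = m w * coeff m G := by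
    intro w G
    induction G using MvPolynomial.induction_on' with
    | monomial a c =>
      rw [X_mul_pderiv_monomial, coeff_smul, coeff_monomial]
      split_ifs with t
      · simp [t]
      · simp
    | add p q a b => rw [map_add, mul_add, coeff_add, coeff_add, a, b, mul_add]
  have := congrArg (coeff m) e
  rw [coeff_sum, coeff_smul, Finset.sum_congr rfl fun w _ => e1 w F, ← Finset.sum_mul,
    smul_eq_mul] at this
  push_cast
  exact mul_right_cancel₀ (mem_support_iff.1 hm) this

/-- **COL** -/
theorem Blk.col (h : Blk A r cl M D) (inj : ∀ p q, A p q → ν p = ν q → p = q) (sq : Squarefree F)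
    (cop : IsRelPrime F M.det) (hw : ∀ p q, A p q → ν p < ν q → D p q F = 0)
    (dg : ∀ p, ∃ c : ℂ, D p p F = c • F)
    (hE : ∀ p q, A p q → ∀ x, E p q (algebraMap _ L x) = algebraMap _ L (D p q x))
    (st : ∀ p q, A p q → ∀ y, ∃ y', E p q (ι y) = ι y')
    (hF : ∀ p q, A p q → ∃ y, algebraMap _ L (D p q F) = ι y * algebraMap _ L F)
    (sp : ∀ p q, A p q → ∃ c : ρ × ρ → L, (∀ x, c x ≠ 0 → A x.1 x.2 ∧ ν x.1 ≤ ν x.2) ∧
      ∀ y, E p q (ι y) = ∑ x, c x * E x.1 x.2 (ι y)) :
    ∃ n ≤ 2 * Fintype.card ρ ^ 2, F.IsHomogeneous n := by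
  classical
  choose lam dg using dg
  have key : ∀ (k : ℕ) (i : ρ), (Finset.univ.filter fun t => A i t ∧ ν i < ν t).card ≤ k →
      ∃ n : ℕ, n ≤ 2 * k ∧ lam i = n := by
    intro k
    induction k with
    | zero =>
      intro i hi
      rw [Nat.le_zero, Finset.card_eq_zero, Finset.filter_eq_empty_iff] at hi
      refine ⟨0, le_rfl, (h.last cop (fun p a n => hw p i a ?_) (dg i)).trans Nat.cast_zero.symm⟩
      have := hi (Finset.mem_univ p)
      have t : ν p ≠ ν i := fun e => n (inj _ _ a e)
      by_contra u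
      exact this ⟨h.eqv.symm a, by omega⟩
    | succ k ih =>
      intro i hi
      by_cases c : (Finset.univ.filter fun t => A i t ∧ ν i < ν t).card ≤ k
      · obtain ⟨n, a, b⟩ := ih i c
        exact ⟨n, by omega, b⟩
      obtain ⟨j, hj, mn⟩ := (Finset.univ.filter fun t => A i t ∧ ν i < ν t).exists_min_image ν
        (Finset.card_pos.1 (by omega))
      obtain ⟨a, lt⟩ := (Finset.mem_filter.1 hj).2
      have b := h.eqv.symm a
      obtain ⟨n, n1, n2⟩ := ih j (by
        refine Nat.le_of_lt_succ (lt_of_lt_of_le (Finset.card_lt_card ⟨fun t ht => ?_, fun s => ?_⟩) hi)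
        · have := (Finset.mem_filter.1 ht).2
          exact Finset.mem_filter.2 ⟨Finset.mem_univ _, h.eqv.trans a this.1, lt.trans this.2⟩
        · exact lt_irrefl _ (Finset.mem_filter.1 (s hj)).2.2)
      rcases (h.step inj a lt (fun t x y => mn t (Finset.mem_filter.2 ⟨Finset.mem_univ _, x, y⟩))
        sq hw dg hE (st _ _ b) (hF _ _ b) (sp _ _ b)).2 with e | e | e
      · exact ⟨n, by omega, by linear_combination e + n2⟩
      · exact ⟨n + 1, by omega, by push_cast; linear_combination e + n2⟩
      · exact ⟨n + 2, by omega, by push_cast; linear_combination e + n2⟩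
  choose n n1 n2 using fun i => key (Fintype.card ρ) i (Finset.card_le_univ _)
  refine ⟨∑ i, n i, ?_, fun m hm => ?_⟩
  · refine (Finset.sum_le_card_nsmul _ _ _ fun i _ => n1 i).trans (le_of_eq ?_)
    rw [Finset.card_univ, smul_eq_mul]
    ring
  · have := h.euler dg (mem_support_iff.2 hm)
    rw [Finset.sum_congr rfl fun i _ => n2 i, ← Nat.cast_sum, Nat.cast_inj] at this
    rw [← this, Finsupp.weight_apply, Finsupp.sum_fintype _ _ (by simp)]
    simp

theorem Blk.deg (h : Blk A r cl M D) (inj : ∀ p q, A p q → ν p = ν q → p = q) (sq : Squarefree F)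
    (cop : IsRelPrime F M.det) (hw : ∀ p q, A p q → ν p < ν q → D p q F = 0)
    (dg : ∀ p, ∃ c : ℂ, D p p F = c • F)
    (hE : ∀ p q, A p q → ∀ x, E p q (algebraMap _ L x) = algebraMap _ L (D p q x))
    (st : ∀ p q, A p q → ∀ y, ∃ y', E p q (ι y) = ι y')
    (hF : ∀ p q, A p q → ∃ y, algebraMap _ L (D p q F) = ι y * algebraMap _ L F)
    [Fintype {x : ρ × ρ // A x.1 x.2 ∧ ν x.1 ≤ ν x.2}]
    (sp : ∀ p q, A p q → ∃ c : {x : ρ × ρ // A x.1 x.2 ∧ ν x.1 ≤ ν x.2} → L,
      ∀ y, E p q (ι y) = ∑ x, c x * E x.1.1 x.1.2 (ι y)) :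
    F.totalDegree ≤ 2 * Fintype.card ρ ^ 2 := by
  classical
  obtain ⟨n, a, b⟩ := h.col inj sq cop hw dg hE st hF fun p q t => by
    obtain ⟨c, e⟩ := sp p q t
    refine ⟨fun x => if k : A x.1 x.2 ∧ ν x.1 ≤ ν x.2 then c ⟨x, k⟩ else 0, fun x z => ?_,
      fun y => ?_⟩
    · by_contra k
      exact z (dif_neg k)
    · rw [e, ← Finset.sum_filter_of_ne (p := fun x : ρ × ρ => A x.1 x.2 ∧ ν x.1 ≤ ν x.2)
        (fun x _ z => by
          by_contra k
          exact z (by simp only [dif_neg k, zero_mul])),
        Finset.sum_subtype (p := fun x : ρ × ρ => A x.1 x.2 ∧ ν x.1 ≤ ν x.2) _ (by simp)]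
      exact Finset.sum_congr rfl fun x _ => by simp only [dif_pos x.2]
  exact b.totalDegree_le.trans a

end Blk

/-- the block matrices -/
theorem blk {N : ℕ} (c : Fin N → ℕ)
    (D : Fin N → Fin N → Derivation ℂ (MvPolynomial {e : Fin N × Fin N // c e.1 = c e.2} ℂ)
      (MvPolynomial {e : Fin N × Fin N // c e.1 = c e.2} ℂ))
    (M : Matrix (Fin N) (Fin N) (MvPolynomial {e : Fin N × Fin N // c e.1 = c e.2} ℂ))
    (hM : ∀ i j, M i j = if h : c i = c j then X ⟨(i, j), h⟩ else 0)
    (hD : ∀ i j w, c i = c j → D i j (X w) = if w.1.1 = j then M i w.1.2 else 0) :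
    Blk (fun i j => c i = c j) (fun w => w.1.1) (fun w => w.1.2) M D where
  eqv := ⟨fun _ => rfl, Eq.symm, Eq.trans⟩
  rc w := w.2
  var w := by rw [hM, dif_pos w.2]
  ex i a h := ⟨⟨(i, a), h⟩, rfl, rfl⟩
  off i a h := by rw [hM, dif_neg h]
  act := hD

end Vale.Agent.P283R.Sp.C56
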