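import Mathlib

/-!
# P283R, block SP: highest weight vectors and complete reducibility in a polynomial ring
-/

open MvPolynomial

noncomputable section

namespace Vale.Agent.P283R.Sp.C38

section lin

variable {V : Type*} [AddCommGroup V] [Module ℂ V]

theorem ex_eig (U : Submodule ℂ V) [FiniteDimensional ℂ U] (hU : U ≠ ⊥) (T : V →ₗ[ℂ] V)
    (st : ∀ v ∈ U, T v ∈ U) : ∃ c : ℂ, ∃ v ∈ U, v ≠ 0 ∧ T v = c • v := by
  have : Nontrivial U := Submodule.nontrivial_iff_ne_bot.2 hU
  obtain ⟨c, hc⟩ := Module.End.exists_eigenvalue (T.restrict st)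
  obtain ⟨v, hv⟩ := hc.exists_hasEigenvector
  refine ⟨c, v, v.2, fun h => hv.2 (Subtype.ext h), ?_⟩
  have := congrArg Subtype.val hv.apply_eq_smul
  simpa using this

theorem fin_eig (U : Submodule ℂ V) [FiniteDimensional ℂ U] (T : V →ₗ[ℂ] V)
    (st : ∀ v ∈ U, T v ∈ U) : {c : ℂ | ∃ v ∈ U, v ≠ 0 ∧ T v = c • v}.Finite := by
  refine (Module.End.finite_hasEigenvalue (T.restrict st)).subset ?_
  rintro c ⟨v, hv, v0, e⟩
  refine Module.End.hasEigenvalue_of_hasEigenvector (x := ⟨v, hv⟩) ⟨?_, ?_⟩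
  · rw [Module.End.mem_eigenspace_iff]
    exact Subtype.ext (by simpa using e)
  · exact fun h => v0 (congrArg Subtype.val h)

theorem com_eig {ρ : Type*} (T : ρ → V →ₗ[ℂ] V) (cm : ∀ i j v, T i (T j v) = T j (T i v))
    (U : Submodule ℂ V) [FiniteDimensional ℂ U] (hU : U ≠ ⊥) (st : ∀ i, ∀ v ∈ U, T i v ∈ U)
    (s : Finset ρ) : ∃ U' : Submodule ℂ V, U' ≤ U ∧ U' ≠ ⊥ ∧ (∀ i, ∀ v ∈ U', T i v ∈ U') ∧
      ∀ i ∈ s, ∃ c : ℂ, ∀ v ∈ U', T i v = c • v := by
  classical
  induction s using Finset.induction_on with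
  | empty => exact ⟨U, le_rfl, hU, st, by simp⟩
  | insert a s _ ih =>
    obtain ⟨U', le, ne, st', h⟩ := ih
    have : FiniteDimensional ℂ U' := Submodule.finiteDimensional_of_le le
    obtain ⟨c, v, hv, v0, e⟩ := ex_eig U' ne (T a) (st' a)
    have mem : ∀ w, w ∈ LinearMap.ker (T a - c • LinearMap.id) ↔ T a w = c • w := fun w => by
      simp [LinearMap.mem_ker, sub_eq_zero]
    refine ⟨U' ⊓ LinearMap.ker (T a - c • LinearMap.id), inf_le_left.trans le, ?_, ?_, ?_⟩
    · exact (Submodule.ne_bot_iff _).2 ⟨v, ⟨hv, (mem v).2 e⟩, v0⟩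
    · rintro i w ⟨h1, h2⟩
      refine ⟨st' i w h1, (mem _).2 ?_⟩
      rw [cm, (mem w).1 h2, map_smul]
    · intro i hi
      rcases Finset.mem_insert.1 hi with rfl | hi
      · exact ⟨c, fun w hw => (mem w).1 hw.2⟩
      · obtain ⟨c', hc⟩ := h i hi
        exact ⟨c', fun w hw => hc w hw.1⟩

end lin

variable {σ ρ : Type*} [Fintype σ] [DecidableEq σ]

omit [Fintype σ] in
theorem td (v w : σ) (p : MvPolynomial σ ℂ) :
    (X v * pderiv w p).totalDegree ≤ p.totalDegree := by
  rw [totalDegree]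
  refine Finset.sup_le fun m hm => ?_
  rw [mem_support_iff, coeff_X_mul'] at hm
  split_ifs at hm with hv
  · rw [coeff_pderiv] at hm
    have h := le_totalDegree (mem_support_iff.2 (left_ne_zero_of_mul hm))
    have e : m = m - Finsupp.single v 1 + Finsupp.single v 1 :=
      (Finsupp.sub_add_single_one_cancel (Finsupp.mem_support_iff.1 hv)).symm
    rw [e]
    rw [Finsupp.sum_add_index' (fun _ => rfl) (fun _ _ _ => rfl)] at h ⊢
    simpa using h
  · exact absurd rfl hm

/-- the weight of a monomial in the apolar form -/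
def fc (m : σ →₀ ℕ) : ℕ := ∏ v, (m v).factorial

theorem fc_add (m : σ →₀ ℕ) (v : σ) : fc (m + Finsupp.single v 1) = (m v + 1) * fc m := by
  unfold fc
  rw [← Finset.mul_prod_erase _ _ (Finset.mem_univ v),
    ← Finset.mul_prod_erase Finset.univ (fun w => (m w).factorial) (Finset.mem_univ v),
    ← mul_assoc]
  congr 1
  · simp [Nat.factorial_succ]
  · refine Finset.prod_congr rfl fun w hw => ?_
    simp [Finsupp.single_eq_of_ne (Finset.ne_of_mem_erase hw)]

omit [DecidableEq σ] in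
theorem fc_pos (m : σ →₀ ℕ) : 0 < fc m := Finset.prod_pos fun _ _ => Nat.factorial_pos _

/-- the apolar form -/
def ap (q : MvPolynomial σ ℂ) : MvPolynomial σ ℂ →ₗ[ℂ] ℂ :=
  (basisMonomials σ ℂ).constr ℂ fun m => (fc m : ℂ) * star (coeff m q)

omit [DecidableEq σ] in
theorem ap_mon (q : MvPolynomial σ ℂ) (m : σ →₀ ℕ) (c : ℂ) :
    ap q (monomial m c) = c * ((fc m : ℂ) * star (coeff m q)) := by
  have e : monomial m c = c • basisMonomials σ ℂ m := by
    simp [coe_basisMonomials, smul_monomial]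
  rw [e, map_smul, ap, Module.Basis.constr_basis, smul_eq_mul]

theorem ap_add (q q' p : MvPolynomial σ ℂ) : ap (q + q') p = ap q p + ap q' p := by
  induction p using MvPolynomial.induction_on' with
  | monomial m c => simp only [ap_mon, coeff_add, star_add]; ring
  | add p p' h h' => simp only [map_add, h, h']; ring

theorem ap_smul (a : ℂ) (q p : MvPolynomial σ ℂ) : ap (a • q) p = star a * ap q p := by
  induction p using MvPolynomial.induction_on' with
  | monomial m c => simp only [ap_mon, coeff_smul, smul_eq_mul, star_mul']; ring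
  | add p p' h h' => simp only [map_add, h, h']; ring

theorem ap_zero (p : MvPolynomial σ ℂ) : ap 0 p = 0 := by
  simpa using ap_smul 0 0 p

theorem ap_sum {ι : Type*} (s : Finset ι) (q : ι → MvPolynomial σ ℂ) (p : MvPolynomial σ ℂ) :
    ap (∑ i ∈ s, q i) p = ∑ i ∈ s, ap (q i) p := by
  classical
  induction s using Finset.induction_on with
  | empty => simpa using ap_zero p
  | insert a s ha ih => rw [Finset.sum_insert ha, Finset.sum_insert ha, ap_add, ih]

theorem ap_X (v : σ) (q p : MvPolynomial σ ℂ) : ap q (X v * p) = ap (pderiv v q) p := by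
  induction p using MvPolynomial.induction_on' with
  | monomial m c =>
    rw [X, monomial_mul, ap_mon, ap_mon, coeff_pderiv, add_comm (Finsupp.single v 1), fc_add]
    simp only [star_mul', star_add, star_natCast, star_one]
    push_cast
    ring
  | add p p' h h' => simp only [mul_add, map_add, h, h']

theorem ap_pd (w : σ) (q p : MvPolynomial σ ℂ) : ap q (pderiv w p) = ap (X w * q) p := by
  induction p using MvPolynomial.induction_on' with
  | monomial m c =>
    rw [pderiv_monomial, ap_mon, ap_mon, coeff_X_mul']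
    split_ifs with hw
    · have h0 := Finsupp.mem_support_iff.1 hw
      have e := fc_add (m - Finsupp.single w 1) w
      rw [Finsupp.sub_add_single_one_cancel h0] at e
      have e2 : (m - Finsupp.single w 1 : σ →₀ ℕ) w + 1 = m w := by
        simp only [Finsupp.coe_tsub, Pi.sub_apply, Finsupp.single_eq_same]
        omega
      rw [e, e2]
      push_cast
      ring
    · have h0 : m w = 0 := by simpa using hw
      simp [h0]
  | add p p' h h' => simp only [map_add, h, h']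

theorem ap_self {p : MvPolynomial σ ℂ} (h : ap p p = 0) : p = 0 := by
  have e : ap p p = ((∑ m ∈ p.support, (fc m : ℝ) * Complex.normSq (coeff m p) : ℝ) : ℂ) := by
    conv_lhs => rw [congrArg (ap p) p.as_sum]
    rw [map_sum]
    push_cast
    refine Finset.sum_congr rfl fun m _ => ?_
    rw [ap_mon, ← Complex.mul_conj]
    simp only [Complex.star_def]
    ring
  rw [e, Complex.ofReal_eq_zero, Finset.sum_eq_zero_iff_of_nonneg
    fun m _ => mul_nonneg (Nat.cast_nonneg _) (Complex.normSq_nonneg _)] at h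
  by_contra p0
  obtain ⟨m, hm⟩ := support_nonempty.2 p0
  rcases mul_eq_zero.1 (h m hm) with h1 | h1
  · exact (fc_pos m).ne' (by exact_mod_cast h1)
  · exact mem_support_iff.1 hm (Complex.normSq_eq_zero.1 h1)

variable [DecidableEq ρ]

/-- the polarisation operators `D i j = ∑ x_{i a} ∂/∂x_{j a}` -/
structure Dat (r : σ → ρ) (A : ρ → ρ → Prop) (sw : ρ → σ → σ)
    (D : ρ → ρ → Derivation ℂ (MvPolynomial σ ℂ) (MvPolynomial σ ℂ)) : Prop where
  refl : ∀ i, A i i
  symm : ∀ i j, A i j → A j i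
  row : ∀ i w, A i (r w) → r (sw i w) = i
  inv : ∀ i w, A i (r w) → sw (r w) (sw i w) = w
  id : ∀ w, sw (r w) w = w
  act : ∀ i j w, A i j → D i j (X w) = if r w = j then X (sw i w) else 0

/-- a highest weight vector -/
def Hw (A : ρ → ρ → Prop) (D : ρ → ρ → Derivation ℂ (MvPolynomial σ ℂ) (MvPolynomial σ ℂ))
    (ν : ρ → ℕ) (p : MvPolynomial σ ℂ) : Prop :=
  (∀ i j, A i j → ν i < ν j → D i j p = 0) ∧ ∀ i, ∃ c : ℂ, D i i p = c • p

variable {r : σ → ρ} {A : ρ → ρ → Prop} {sw : ρ → σ → σ}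
  {D : ρ → ρ → Derivation ℂ (MvPolynomial σ ℂ) (MvPolynomial σ ℂ)}

theorem dsum {ι : Type*} (s : Finset ι)
    (d : ι → Derivation ℂ (MvPolynomial σ ℂ) (MvPolynomial σ ℂ)) (p : MvPolynomial σ ℂ) :
    (∑ i ∈ s, d i) p = ∑ i ∈ s, d i p := by
  classical
  induction s using Finset.induction_on with
  | empty => simp
  | insert a s ha ih => rw [Finset.sum_insert ha, Finset.sum_insert ha, Derivation.add_apply, ih]

theorem Dat.eq (h : Dat r A sw D) {i j : ρ} (a : A i j) (p : MvPolynomial σ ℂ) :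
    D i j p = ∑ w with r w = j, X (sw i w) * pderiv w p := by
  have e : D i j = ∑ w with r w = j, (X (sw i w) : MvPolynomial σ ℂ) • pderiv w := by
    refine derivation_ext fun u => ?_
    rw [h.act i j u a, dsum]
    simp only [Derivation.smul_apply, pderiv_X, smul_eq_mul, Pi.single_apply, mul_ite, mul_one,
      mul_zero]
    rw [Finset.sum_ite_eq]
    simp
  rw [e, dsum]
  simp

theorem Dat.deg (h : Dat r A sw D) {i j : ρ} (a : A i j) {n : ℕ} {p : MvPolynomial σ ℂ}
    (hp : p ∈ restrictTotalDegree σ ℂ n) : D i j p ∈ restrictTotalDegree σ ℂ n := by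
  rw [h.eq a]
  refine Submodule.sum_mem _ fun w _ => ?_
  rw [mem_restrictTotalDegree] at hp ⊢
  exact (td _ _ _).trans hp

theorem Dat.adj (h : Dat r A sw D) {i j : ρ} (a : A i j) (q p : MvPolynomial σ ℂ) :
    ap q (D i j p) = ap (D j i q) p := by
  rw [h.eq a, h.eq (h.symm _ _ a), map_sum, ap_sum]
  refine Finset.sum_bij' (fun w _ => sw i w) (fun u _ => sw j u) ?_ ?_ ?_ ?_ ?_
  · intro w hw
    have e := (Finset.mem_filter.1 hw).2
    exact Finset.mem_filter.2 ⟨Finset.mem_univ _, h.row i w (e ▸ a)⟩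
  · intro u hu
    have e := (Finset.mem_filter.1 hu).2
    exact Finset.mem_filter.2 ⟨Finset.mem_univ _, h.row j u (e ▸ h.symm _ _ a)⟩
  · intro w hw
    have e := (Finset.mem_filter.1 hw).2
    subst e
    exact h.inv i w a
  · intro u hu
    have e := (Finset.mem_filter.1 hu).2
    subst e
    exact h.inv j u (h.symm _ _ a)
  · intro w hw
    have e := (Finset.mem_filter.1 hw).2
    subst e
    rw [ap_X, ap_pd, h.inv i w a]

theorem Dat.com (h : Dat r A sw D) {i j : ρ} (a : A i j) (k : ρ) (p : MvPolynomial σ ℂ) :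
    D k k (D i j p) = D i j (D k k p) +
      ((if i = k then 1 else 0) - (if j = k then 1 else 0) : ℂ) • D i j p := by
  have e : ⁅D k k, D i j⁆ = ((if i = k then 1 else 0) - (if j = k then 1 else 0) : ℂ) • D i j := by
    refine derivation_ext fun w => ?_
    have kk : ∀ u, D k k (X u) = if r u = k then X u else 0 := fun u => by
      rw [h.act k k u (h.refl k)]
      split_ifs with e
      · rw [← e, h.id]
      · rfl
    have ac := h.act i j w a
    rw [Derivation.commutator_apply, Derivation.smul_apply, kk]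
    by_cases e : r w = j
    · rw [if_pos e] at ac
      have r1 : r (sw i w) = i := h.row i w (e ▸ a)
      rw [apply_ite (D i j), map_zero, ac, kk, r1, e]
      split_ifs <;> simp
    · rw [if_neg e] at ac
      rw [apply_ite (D i j), map_zero, ac]
      simp
  have := congrArg (fun d : Derivation ℂ _ _ => d p) e
  simp only [Derivation.commutator_apply, Derivation.smul_apply] at this
  rw [← this]
  ring

/-- a nonzero subspace which is stable under the Borel subalgebra has a highest weight vector -/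
theorem Dat.hw0 [Fintype ρ] (h : Dat r A sw D) (ν : ρ → ℕ) (U : Submodule ℂ (MvPolynomial σ ℂ))
    [FiniteDimensional ℂ U] (hU : U ≠ ⊥) (st : ∀ i, ∀ p ∈ U, D i i p ∈ U)
    (su : ∀ i j, A i j → ν i < ν j → ∀ p ∈ U, D i j p ∈ U) : ∃ p ∈ U, p ≠ 0 ∧ Hw A D ν p := by
  let H : MvPolynomial σ ℂ →ₗ[ℂ] MvPolynomial σ ℂ := ∑ k, (ν k : ℂ) • (D k k).toLinearMap
  have He : ∀ p, H p = ∑ k, (ν k : ℂ) • D k k p := fun p => by
    simp [H, LinearMap.sum_apply]
  have Hs : ∀ p ∈ U, H p ∈ U := fun p hp => by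
    rw [He]
    exact U.sum_mem fun k _ => U.smul_mem _ (st k p hp)
  have Hc : ∀ i j, A i j → ∀ p, H (D i j p) = D i j (H p) + ((ν i : ℂ) - ν j) • D i j p := by
    intro i j a p
    rw [He, He, map_sum]
    simp only [h.com a, smul_add, Finset.sum_add_distrib, Derivation.map_smul, smul_smul,
      ← Finset.sum_smul, mul_sub, Finset.sum_sub_distrib, mul_ite, mul_one, mul_zero,
      Finset.sum_ite_eq, Finset.mem_univ, if_true]
  obtain ⟨c₀, hc₀⟩ := ex_eig U hU H Hs
  obtain ⟨c, ⟨v, hv, v0, e⟩, mn⟩ := Set.exists_min_image _ Complex.re (fin_eig U H Hs) ⟨c₀, hc₀⟩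
  let U₀ : Submodule ℂ (MvPolynomial σ ℂ) :=
    U ⊓ ⨅ (i) (j) (_ : A i j) (_ : ν i < ν j), LinearMap.ker (D i j).toLinearMap
  have mem : ∀ p, p ∈ U₀ ↔ p ∈ U ∧ ∀ i j, A i j → ν i < ν j → D i j p = 0 := fun p => by
    simp [U₀, Submodule.mem_iInf]
  have : FiniteDimensional ℂ U₀ := Submodule.finiteDimensional_of_le inf_le_left
  have ne : U₀ ≠ ⊥ := by
    refine (Submodule.ne_bot_iff _).2 ⟨v, (mem v).2 ⟨hv, fun i j a l => ?_⟩, v0⟩
    by_contra n0
    have := mn (c + ((ν i : ℂ) - ν j)) ⟨D i j v, su i j a l v hv, n0, by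
      rw [Hc i j a, e, Derivation.map_smul, add_smul]⟩
    have l' : (ν i : ℝ) < ν j := by exact_mod_cast l
    simp only [Complex.add_re, Complex.sub_re, Complex.natCast_re] at this
    linarith
  obtain ⟨U', le, ne', -, ev⟩ := com_eig (fun k => (D k k).toLinearMap)
    (fun i j p => by simpa using h.com (h.refl j) i p) U₀ ne (fun k p hp => by
      obtain ⟨h1, h2⟩ := (mem p).1 hp
      refine (mem _).2 ⟨st k p h1, fun i j a l => ?_⟩
      have := h.com a k p
      rw [h2 i j a l] at this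
      simpa using this.symm) Finset.univ
  obtain ⟨p, hp, p0⟩ := (Submodule.ne_bot_iff _).1 ne'
  obtain ⟨h1, h2⟩ := (mem p).1 (le hp)
  exact ⟨p, h1, p0, h2, fun i => (ev i (Finset.mem_univ i)).imp fun c hc => hc p hp⟩

/-- **HW** -/
theorem Dat.hw [Fintype ρ] (h : Dat r A sw D) (ν : ρ → ℕ) (W : Submodule ℂ (MvPolynomial σ ℂ))
    (hW : W ≠ ⊥) (st : ∀ i, ∀ p ∈ W, D i i p ∈ W)
    (su : ∀ i j, A i j → ν i < ν j → ∀ p ∈ W, D i j p ∈ W) : ∃ p ∈ W, p ≠ 0 ∧ Hw A D ν p := by
  obtain ⟨v, hv, v0⟩ := (Submodule.ne_bot_iff _).1 hW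
  have : FiniteDimensional ℂ ↥(W ⊓ restrictTotalDegree σ ℂ v.totalDegree) :=
    Submodule.finiteDimensional_of_le inf_le_right
  obtain ⟨p, hp, p0, e⟩ := h.hw0 ν (W ⊓ restrictTotalDegree σ ℂ v.totalDegree)
    ((Submodule.ne_bot_iff _).2 ⟨v, ⟨hv, (mem_restrictTotalDegree _ _ _).2 le_rfl⟩, v0⟩)
    (fun i p hp => ⟨st i p hp.1, h.deg (h.refl i) hp.2⟩)
    (fun i j a l p hp => ⟨su i j a l p hp.1, h.deg a hp.2⟩)
  exact ⟨p, hp.1, p0, e⟩

omit [DecidableEq ρ] in
theorem orth (W' W : Submodule ℂ (MvPolynomial σ ℂ)) [FiniteDimensional ℂ W] (le : W' ≤ W)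
    (ne : W' ≠ W) : ∃ v ∈ W, v ≠ 0 ∧ ∀ q ∈ W', ap q v = 0 := by
  have : FiniteDimensional ℂ W' := Submodule.finiteDimensional_of_le le
  let b := Module.finBasis ℂ W'
  let φ : W →ₗ[ℂ] Fin (Module.finrank ℂ W') → ℂ :=
    LinearMap.pi fun i => (ap (b i : MvPolynomial σ ℂ)).comp W.subtype
  have k : LinearMap.ker φ ≠ ⊥ := fun e => by
    have := LinearMap.finrank_le_finrank_of_injective (LinearMap.ker_eq_bot.1 e)
    rw [Module.finrank_fin_fun] at this
    exact ne (Submodule.eq_of_le_of_finrank_le le this)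
  obtain ⟨v, hv, v0⟩ := (Submodule.ne_bot_iff _).1 k
  refine ⟨v, v.2, fun e => v0 (Subtype.ext e), fun q hq => ?_⟩
  have e := congrArg Subtype.val (b.sum_repr ⟨q, hq⟩)
  simp only [AddSubmonoidClass.coe_finsetSum, SetLike.val_smul] at e
  rw [← e, ap_sum]
  refine Finset.sum_eq_zero fun i _ => ?_
  have := congrFun (LinearMap.mem_ker.1 hv) i
  simp only [φ, LinearMap.pi_apply, LinearMap.comp_apply, Submodule.subtype_apply,
    Pi.zero_apply] at this
  rw [ap_smul, this, mul_zero]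

/-- **CR**: a stable subspace which contains all highest weight vectors is everything -/
theorem Dat.cr [Fintype ρ] (h : Dat r A sw D) (ν : ρ → ℕ)
    {W' W : Submodule ℂ (MvPolynomial σ ℂ)} (le : W' ≤ W)
    (st : ∀ i j, A i j → ∀ p ∈ W, D i j p ∈ W) (st' : ∀ i j, A i j → ∀ p ∈ W', D i j p ∈ W')
    (ev : ∀ p ∈ W, Hw A D ν p → p ∈ W') : W' = W := by
  refine le_antisymm le fun v hv => ?_
  set T := restrictTotalDegree σ ℂ v.totalDegree
  have : FiniteDimensional ℂ ↥(W ⊓ T) := Submodule.finiteDimensional_of_le inf_le_right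
  have e : W' ⊓ T = W ⊓ T := by
    by_contra ne
    obtain ⟨u, hu, u0, o⟩ := orth (W' ⊓ T) (W ⊓ T) (inf_le_inf_right T le) ne
    let U : Submodule ℂ (MvPolynomial σ ℂ) :=
      (W ⊓ T) ⊓ ⨅ (q) (_ : q ∈ W' ⊓ T), LinearMap.ker (ap q)
    have mem : ∀ p, p ∈ U ↔ p ∈ W ⊓ T ∧ ∀ q ∈ W' ⊓ T, ap q p = 0 := fun p => by
      simp only [U, Submodule.mem_inf (p := W ⊓ T), Submodule.mem_iInf, LinearMap.mem_ker]
    have sU : ∀ i j, A i j → ∀ p ∈ U, D i j p ∈ U := fun i j a p hp => by
      obtain ⟨h1, h2⟩ := (mem p).1 hp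
      refine (mem _).2 ⟨⟨st i j a p h1.1, h.deg a h1.2⟩, fun q hq => ?_⟩
      rw [h.adj a]
      exact h2 _ ⟨st' j i (h.symm _ _ a) q hq.1, h.deg (h.symm _ _ a) hq.2⟩
    obtain ⟨p, hp, p0, w⟩ := h.hw ν U ((Submodule.ne_bot_iff _).2 ⟨u, (mem u).2 ⟨hu, o⟩, u0⟩)
      (fun i => sU i i (h.refl i)) fun i j a _ => sU i j a
    obtain ⟨h1, h2⟩ := (mem p).1 hp
    exact p0 (ap_self (h2 p ⟨ev p h1.1 w, h1.2⟩))
  have : v ∈ W' ⊓ T := e ▸ ⟨hv, (mem_restrictTotalDegree _ _ _).2 le_rfl⟩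
  exact this.1

end Vale.Agent.P283R.Sp.C38
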