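import Vale.Agent.P283R.Sp.Spn6
import Vale.Agent.P283R.Sp.Cr38

/-!
# P283R, block SP: the vector fields of the triangular group span
-/

set_option linter.all false

open Function Set MvPolynomial

noncomputable section

namespace Vale.Agent.P283R.Sp.S6

open C38

variable {σ ρ : Type} [Fintype σ] [Fintype ρ] [DecidableEq σ] [DecidableEq ρ]
  {r c : σ → ρ} {A : ρ → ρ → Prop} {sw : ρ → σ → σ} {ν : ρ → ℕ}
  {D : ρ → ρ → Derivation ℂ (MvPolynomial σ ℂ) (MvPolynomial σ ℂ)}

/-- the columns -/
structure Col (r c : σ → ρ) (A : ρ → ρ → Prop) (sw : ρ → σ → σ) (ν : ρ → ℕ) : Prop where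
  col : ∀ i w, A i (r w) → c (sw i w) = c w
  blk : ∀ w, A (c w) (r w)
  ext : ∀ w w', r w = r w' → c w = c w' → w = w'
  inj : Injective ν

/-- the coordinates of the triangular matrices -/
abbrev Tri (r c : σ → ρ) (ν : ρ → ℕ) : Type := {w : σ // ν (c w) ≤ ν (r w)}

/-- the restriction to the triangular matrices -/
def res (r c : σ → ρ) (ν : ρ → ℕ) : MvPolynomial σ ℂ →ₐ[ℂ] MvPolynomial (Tri r c ν) ℂ :=
  aeval fun w => if h : ν (c w) ≤ ν (r w) then X ⟨w, h⟩ else 0

theorem res_X (w : Tri r c ν) : res r c ν (X w.1) = X w := by simp [res, w.2]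

theorem res_surj : Surjective (res r c ν) := fun p => by
  induction p using MvPolynomial.induction_on with
  | C a => exact ⟨C a, by simp [res]⟩
  | add p q hp hq =>
    obtain ⟨a, rfl⟩ := hp
    obtain ⟨b, rfl⟩ := hq
    exact ⟨a + b, map_add _ _ _⟩
  | mul_X p w hp =>
    obtain ⟨a, rfl⟩ := hp
    exact ⟨a * X w.1, by rw [map_mul, res_X]⟩

theorem res_eval (b : σ → ℂ) (hb : ∀ w, ν (r w) < ν (c w) → b w = 0) (p : MvPolynomial σ ℂ) :
    aeval (fun w : Tri r c ν => b w.1) (res r c ν p) = aeval b p := by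
  rw [← AlgHom.comp_apply]
  congr 1
  ext w
  by_cases h : ν (c w) ≤ ν (r w)
  · simp [res, h]
  · simp [res, h, hb w (not_le.1 h)]

variable {L K : Type} [Field L] [Field K] [Algebra ℂ L] [Algebra ℂ K]
  [Algebra (MvPolynomial σ ℂ) L] [IsScalarTower ℂ (MvPolynomial σ ℂ) L]
  [IsFractionRing (MvPolynomial σ ℂ) L]

/-- the denominators of the invariant functions do not vanish on the triangular matrices -/
theorem den {H : Type} (τ : H → MvPolynomial σ ℂ →+* MvPolynomial σ ℂ)
    (dense : ∀ q, (∀ h (b : σ → ℂ), (∀ w, ν (r w) < ν (c w) → b w = 0) → aeval b (τ h q) = 0) →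
      q = 0) {a : L} (inv : ∀ h p q, a * algebraMap _ L q = algebraMap _ L p →
      a * algebraMap _ L (τ h q) = algebraMap _ L (τ h p)) :
    ∃ p q, res r c ν q ≠ 0 ∧ a * algebraMap _ L q = algebraMap (MvPolynomial σ ℂ) L p := by
  obtain ⟨p, q, co, e⟩ := IsFractionRing.exists_reduced_fraction (MvPolynomial σ ℂ) a
  have e1 : a * algebraMap _ L q.1 = algebraMap _ L p := e ▸ IsLocalization.mk'_spec L p q
  refine ⟨p, q, fun z => nonZeroDivisors.coe_ne_zero q (dense q fun h b hb => ?_), e1⟩
  have : p * τ h q = q * τ h p := IsFractionRing.injective (MvPolynomial σ ℂ) L (by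
    rw [map_mul, map_mul, ← inv h p q e1, ← e1]; ring)
  obtain ⟨u, hu⟩ := co.symm.dvd_of_dvd_mul_left ⟨_, this⟩
  rw [← res_eval (r := r) (c := c) (ν := ν) b hb, hu, map_mul, z, zero_mul, map_zero]

open Classical in
/-- **SPAN for the triangular group** -/
theorem spanB (h : Dat r A sw D) (k : Col r c A sw ν) (E : ρ → ρ → Derivation ℂ L L)
    (hE : ∀ i j p, A i j → E i j (algebraMap _ L p) = algebraMap _ L (D i j p))
    (i : K →ₐ[ℂ] L) {d : ℕ} {y : Fin d → K} (hy : IsTranscendenceBasis ℂ y)
    (den : ∀ φ, ∃ p q, res r c ν q ≠ 0 ∧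
      i φ * algebraMap _ L q = algebraMap (MvPolynomial σ ℂ) L p) (δ : Derivation ℂ L L) :
    ∃ e : {x : ρ × ρ // A x.1 x.2 ∧ ν x.1 ≤ ν x.2} → L, ∀ φ,
      δ (i φ) = ∑ j, e j * E j.1.1 j.1.2 (i φ) := by
  let P' := MvPolynomial (Tri r c ν) ℂ
  let L' := FractionRing P'
  haveI : CharZero L' := (algebraMap ℂ L').charZero_iff (algebraMap ℂ L').injective |>.1
    inferInstance
  haveI : Algebra.IsAlgebraic P' L' := IsLocalization.isAlgebraic L' (nonZeroDivisors P')
  have ι0 := IsFractionRing.injective P' L'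
  let β : MvPolynomial σ ℂ →ₐ[ℂ] L' := (IsScalarTower.toAlgHom ℂ P' L').comp (res r c ν)
  have β0 : ∀ q, β q = 0 ↔ res r c ν q = 0 := fun q => map_eq_zero_iff _ ι0
  have tb := (IsTranscendenceBasis.mvPolynomial (Tri r c ν) ℂ).algebraMap_comp (A := L')
  have tx : ∀ w : Tri r c ν, (algebraMap P' L' ∘ X) w = β (X w.1) := fun w =>
    congrArg (algebraMap P' L') (res_X w).symm
  choose b' hb0 using fun j : {x : ρ × ρ // A x.1 x.2 ∧ ν x.1 ≤ ν x.2} =>
    P297.H927.exists_derivation_of_basis tb fun w => β (D j.1.1 j.1.2 (X w.1))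
  have hb' : ∀ j (w : Tri r c ν), b' j (β (X w.1)) = β (D j.1.1 j.1.2 (X w.1)) :=
    fun j w => tx w ▸ hb0 j w
  have z : ∀ w, ¬ ν (c w) ≤ ν (r w) → β (X w) = 0 := fun w a => (β0 _).2 (by simp [res, a])
  refine span (α := IsScalarTower.toAlgHom ℂ _ L) (β := β) (IsFractionRing.injective _ L)
    (fun a => ?_) _ b' (fun j p => ⟨D j.1.1 j.1.2 p, hE _ _ p j.2.1, ?_⟩) (fun G => ?_) i hy
    (fun φ => let ⟨p, q, a, b⟩ := den φ; ⟨p, q, (β0 q).not.2 a, b⟩) δ
  · obtain ⟨p, q, q0, rfl⟩ := IsFractionRing.div_surjective (A := P') a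
    obtain ⟨p, rfl⟩ := res_surj p
    obtain ⟨q, rfl⟩ := res_surj q
    have := (β0 q).not.2 (nonZeroDivisors.ne_zero q0)
    exact ⟨p, q, this, div_mul_cancel₀ _ this⟩
  · induction p using MvPolynomial.induction_on with
    | C a =>
      rw [← algebraMap_eq, AlgHom.commutes, Derivation.map_algebraMap, Derivation.map_algebraMap,
        map_zero]
    | add p q hp hq => simp only [map_add, hp, hq]
    | mul_X p w hp =>
      have : b' j (β (X w)) = β (D j.1.1 j.1.2 (X w)) := by
        by_cases a : ν (c w) ≤ ν (r w)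
        · exact hb' j ⟨w, a⟩
        rw [z w a, map_zero, h.act _ _ _ j.2.1]
        split_ifs with e
        · have u : A j.1.1 (r w) := e ▸ j.2.1
          refine (z _ ?_).symm
          rw [k.col _ _ u, h.row _ _ u]
          have := j.2.2
          rw [← e] at this
          omega
        · rw [map_zero]
      simp only [map_mul, Derivation.leibniz, smul_eq_mul, map_add, hp, this]
  · let W := Submodule.span L' (range fun j => fun w : Tri r c ν => b' j (β (X w.1)))
    have one : ∀ n, ∀ w : Tri r c ν, ν (c w) = n → Pi.single w (1 : L') ∈ W := by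
      intro n
      induction n using Nat.strong_induction_on with
      | _ n ih =>
      rintro w rfl
      let j : {x : ρ × ρ // A x.1 x.2 ∧ ν x.1 ≤ ν x.2} := ⟨(c w, r w), k.blk w, w.2⟩
      have m : (fun w : Tri r c ν => b' j (β (X w.1))) ∈ W := Submodule.subset_span ⟨j, rfl⟩
      rw [← Finset.univ_sum_single (fun w : Tri r c ν => b' j (β (X w.1))),
        ← Finset.add_sum_erase _ _ (Finset.mem_univ w)] at m
      have m' := (W.add_mem_iff_left (Submodule.sum_mem _ fun v hv => ?_)).1 m
      · have u : b' j (β (X w.1)) ≠ 0 := by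
          rw [hb', h.act _ _ _ j.2.1, if_pos rfl]
          have : ν (c (sw (c w) w)) ≤ ν (r (sw (c w) w)) := by
            rw [k.col _ _ (k.blk w), h.row _ _ (k.blk w)]
          exact (β0 _).not.2 ((res_X ⟨_, this⟩).trans_ne (X_ne_zero _))
        have := W.smul_mem (b' j (β (X w.1)))⁻¹ m'
        rwa [← Pi.single_smul', smul_eq_mul, inv_mul_cancel₀ u] at this
      · rw [hb', h.act _ _ _ j.2.1]
        split_ifs with e
        · have u : A (c w) (r v) := e ▸ k.blk w
          by_cases a : ν (c v) < ν (c w)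
          · have := W.smul_mem (β (X (sw (c w) v))) (ih _ a v rfl)
            rwa [← Pi.single_smul', smul_eq_mul, mul_one] at this
          · rw [z, Pi.single_zero]
            · exact zero_mem _
            rw [k.col _ _ u, h.row _ _ u]
            exact fun b => Finset.ne_of_mem_erase hv
              (Subtype.ext (k.ext _ _ e (k.inj (by omega))))
        · rw [map_zero, Pi.single_zero]
          exact zero_mem _
    have m : (fun w : Tri r c ν => G (β (X w.1))) ∈ W := by
      rw [← Finset.univ_sum_single (fun w : Tri r c ν => G (β (X w.1)))]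
      refine Submodule.sum_mem _ fun v _ => ?_
      have := W.smul_mem (G (β (X v.1))) (one _ v rfl)
      rwa [← Pi.single_smul', smul_eq_mul, mul_one] at this
    obtain ⟨e, he⟩ := (Submodule.mem_span_range_iff_exists_fun _).1 m
    refine ⟨e, fun a => sub_eq_zero.1 ?_⟩
    have key := P297.H927.eq_zero_of_isAlgebraic_adjoin (D := G - ∑ j, e j • b' j) (y := a)
      ?_ (tb.isAlgebraic_field.1 a)
    · simpa [sum_ap] using key
    · rintro _ ⟨w, rfl⟩
      have := congrFun he w
      simp only [Finset.sum_apply, Pi.smul_apply, smul_eq_mul] at this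
      rw [tx w]
      simp only [Derivation.coe_sub, Pi.sub_apply, sum_ap, Derivation.smul_apply, smul_eq_mul,
        this, sub_self]

/-- the derivations of the polynomial ring extend to the rational functions -/
theorem ext_der (G : Derivation ℂ (MvPolynomial σ ℂ) (MvPolynomial σ ℂ)) :
    ∃ E : Derivation ℂ L L, ∀ p, E (algebraMap _ L p) = algebraMap _ L (G p) := by
  haveI : Algebra.IsAlgebraic (MvPolynomial σ ℂ) L :=
    IsLocalization.isAlgebraic L (nonZeroDivisors (MvPolynomial σ ℂ))
  obtain ⟨E, hE⟩ := P297.H927.exists_derivation_of_basis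
    ((IsTranscendenceBasis.mvPolynomial σ ℂ).algebraMap_comp (A := L))
    fun w => algebraMap _ L (G (X w))
  refine ⟨E, fun p => ?_⟩
  induction p using MvPolynomial.induction_on with
  | C a =>
    rw [← algebraMap_eq, ← IsScalarTower.algebraMap_apply, Derivation.map_algebraMap,
      Derivation.map_algebraMap, map_zero]
  | add p q hp hq => simp only [map_add, hp, hq]
  | mul_X p w hp =>
    have := hE w
    simp only [comp_apply] at this
    simp only [map_mul, Derivation.leibniz, smul_eq_mul, map_add, hp, this]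

end Vale.Agent.P283R.Sp.S6
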