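import Vale.Agent.P283R.Sp.St
import Vale.Agent.P283R.Sp.Spb6
import Vale.Agent.P283R.Sp.Col56

/-!
# P283R, block SP: the row COL
-/

open Set MvPolynomial

noncomputable section

namespace Vale.Agent.P283R.Sp

open Sl

namespace C56

variable {N : ℕ} {c : Fin N → ℕ}

theorem bk (c : Fin N → ℕ) : Blk (fun i j => c i = c j) (fun w : Vr c => w.1.1) (fun w => w.1.2)
    (blockVar c) (dd c) :=
  blk c (dd c) (blockVar c) (fun _ _ => rfl) fun i j w e => by
    rw [dd, mkDerivation_X]
    split_ifs with t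
    · have : c i = c w.1.2 := by rw [e, ← t, w.2]
      simp only [sw, blockVar, dif_pos this]
    · rfl

theorem dat (c : Fin N → ℕ) : C38.Dat (fun w : Vr c => w.1.1) (fun i j => c i = c j) (sw c)
    (dd c) where
  refl _ := rfl
  symm _ _ := Eq.symm
  row i w h := by simp only [sw, dif_pos (h.trans w.2)]
  inv i w h := by simp only [sw, dif_pos (h.trans w.2), dif_pos w.2]
  id w := by simp only [sw, dif_pos w.2]
  act i j w _ := by rw [dd, mkDerivation_X]

theorem colm (c : Fin N → ℕ) : S6.Col (fun w : Vr c => w.1.1) (fun w => w.1.2)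
    (fun i j => c i = c j) (sw c) fun i => (Fin.rev i).1 where
  col i w h := by simp only [sw, dif_pos (h.trans w.2)]
  blk w := w.2.symm
  ext w w' a b := Subtype.ext (Prod.ext a b)
  inj _ _ e := Fin.rev_injective (Fin.ext e)

/-- the right translation -/
def rt (c : Fin N → ℕ) (h : Matrix (Fin N) (Fin N) ℂ) : BlockPoly c →ₐ[ℂ] BlockPoly c :=
  aeval fun e => (blockVar c * h.map C : Matrix _ _ (BlockPoly c)) e.1.1 e.1.2

theorem rt_eq (h : Matrix (Fin N) (Fin N) ℂ) (p : BlockPoly c) : shift c 1 h p = rt c h p := by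
  rw [shift, rt, Matrix.map_one _ (map_zero _) (map_one _), Matrix.one_mul]

theorem rt_var {h : Matrix (Fin N) (Fin N) ℂ} (b : Block c h) (i j : Fin N) :
    rt c h (blockVar c i j) = (blockVar c * h.map C : Matrix _ _ (BlockPoly c)) i j := by
  by_cases e : c i = c j
  · simp only [blockVar, dif_pos e, rt, aeval_X]
  · rw [(bk c).off _ _ e, map_zero, Matrix.mul_apply]
    refine (Finset.sum_eq_zero fun a _ => ?_).symm
    by_cases t : c i = c a
    · rw [Matrix.map_apply, b a j fun u => e (t.trans u), map_zero, mul_zero]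
    · rw [(bk c).off _ _ t, zero_mul]

theorem rt_X (h : Matrix (Fin N) (Fin N) ℂ) (w : Vr c) :
    rt c h (X w) = ∑ a, blockVar c w.1.1 a * C (h a w.1.2) := by
  rw [rt, aeval_X, Matrix.mul_apply]
  rfl

theorem rt_rt {h h' : Matrix (Fin N) (Fin N) ℂ} (b : Block c h') (e : h' * h = 1)
    (p : BlockPoly c) : rt c h' (rt c h p) = p := by
  have : (rt c h').comp (rt c h) = AlgHom.id ℂ _ := by
    refine algHom_ext fun w => ?_
    rw [AlgHom.comp_apply, rt_X, map_sum, AlgHom.id_apply]
    have e1 : ∀ a, rt c h' (blockVar c w.1.1 a * C (h a w.1.2)) =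
        (blockVar c * h'.map C : Matrix _ _ (BlockPoly c)) w.1.1 a * (h.map C) a w.1.2 := by
      intro a
      rw [map_mul, rt_var b, algHom_C]
      rfl
    rw [Finset.sum_congr rfl fun a _ => e1 a, ← Matrix.mul_apply, Matrix.mul_assoc,
      ← Matrix.map_mul, e, Matrix.map_one _ (map_zero _) (map_one _), Matrix.mul_one]
    exact (bk c).var w
  exact congrArg (fun f : BlockPoly c →ₐ[ℂ] BlockPoly c => f p) this

theorem rt_dd {h : Matrix (Fin N) (Fin N) ℂ} (b : Block c h) {i j : Fin N} (e : c i = c j)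
    (p : BlockPoly c) : rt c h (dd c i j p) = dd c i j (rt c h p) := by
  induction p using MvPolynomial.induction_on with
  | C a => rw [derivation_C, map_zero, algHom_C, Derivation.map_algebraMap]
  | add p q x y => simp only [map_add, x, y]
  | mul_X p w x =>
    have : rt c h (dd c i j (X w)) = dd c i j (rt c h (X w)) := by
      rw [(bk c).act _ _ _ e, rt_X, map_sum]
      simp only [Derivation.leibniz, derivation_C, mul_zero, zero_add, (bk c).ent e, smul_eq_mul]
      split_ifs
      · rw [rt_var b, Matrix.mul_apply]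
        exact Finset.sum_congr rfl fun a _ => mul_comm _ _
      · simp
    simp only [Derivation.leibniz, smul_eq_mul, map_add, map_mul, x, this]

theorem rt_ev {g : Matrix (Fin N) (Fin N) ℂ} (b : Block c g) (h : Matrix (Fin N) (Fin N) ℂ)
    (p : BlockPoly c) :
    aeval (fun w : Vr c => g w.1.1 w.1.2) (rt c h p) = valueAt c (g * h) p := by
  induction p using MvPolynomial.induction_on with
  | C a => simp [valueAt]
  | add p q x y => rw [map_add, map_add, x, y, valueAt, valueAt, valueAt, map_add]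
  | mul_X p w x =>
    rw [map_mul, map_mul, x, valueAt, valueAt, map_mul, eval_X, rt_X, map_sum, Matrix.mul_apply]
    congr 1
    refine Finset.sum_congr rfl fun a _ => ?_
    rw [map_mul, algHom_C]
    by_cases t : c w.1.1 = c a
    · simp [blockVar, t]
    · rw [(bk c).off _ _ t, b _ _ t, map_zero, zero_mul, zero_mul]

variable {K : Type} [Field K] [Algebra ℂ K] {H : Subgroup (GL (Fin N) ℂ)} {ι : K →ₐ[ℂ] LL c}

theorem al_inj : Function.Injective (al c) := IsFractionRing.injective (BlockPoly c) (LL c)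

theorem rt_ne (s : Sph H ι) {h : GL (Fin N) ℂ} (m : h ∈ H) {q : BlockPoly c} (q0 : q ≠ 0) :
    rt c h q ≠ 0 := fun z => q0 (by
  rw [← rt_rt (s.blk _ (H.inv_mem m)) h.inv_mul q, z, map_zero])

theorem inv (s : Sph H ι) (φ : K) {h : GL (Fin N) ℂ} (m : h ∈ H) {p q : BlockPoly c}
    (e : ι φ * al c q = al c p) : ι φ * al c (rt c h q) = al c (rt c h p) := by
  obtain ⟨p0, q0, ⟨-, a⟩, b0, b⟩ := (s.fix _).1 ⟨φ, rfl⟩ h m
  rw [rt_eq] at b0
  rw [rt_eq, rt_eq] at b
  change ι φ * al c q0 = al c p0 at a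
  change ι φ * al c _ = al c _ at b
  have e1 : p * q0 = p0 * q := al_inj (by rw [map_mul, map_mul, ← a, ← e]; ring)
  have e2 := congrArg (fun x => al c (rt c h x)) e1
  simp only [map_mul] at e2
  have n : al c (rt c h q0) ≠ 0 := fun z => b0 (al_inj (z.trans (map_zero _).symm))
  apply mul_right_cancel₀ n
  rw [e2, ← b]
  ring

theorem mem (s : Sph H ι) {a : LL c} {p q : BlockPoly c} (q0 : q ≠ 0) (e : a * al c q = al c p)
    (k : ∀ h ∈ H, a * al c (rt c (h : GL (Fin N) ℂ) q) = al c (rt c (h : GL (Fin N) ℂ) p)) :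
    ∃ b, ι b = a :=
  (s.fix a).2 fun h m => ⟨p, q, ⟨q0, e⟩, by
    rw [rt_eq, rt_eq]
    exact ⟨rt_ne s m q0, k h m⟩⟩

theorem quo {D : DD c} (x : Ex D) (i j : Fin N) {a : LL c} {p q : BlockPoly c}
    (e : a * al c q = al c p) :
    D i j a * al c (q * q) = al c (q * dd c i j p - p * dd c i j q) := by
  have := congrArg (D i j) e
  rw [Derivation.leibniz, x, x, smul_eq_mul, smul_eq_mul] at this
  rw [map_sub, map_mul, map_mul, map_mul, ← this, ← e]
  ring

/-- the field of invariants is stable -/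
theorem st (s : Sph H ι) {D : DD c} (x : Ex D) {i j : Fin N} (e : c i = c j) (φ : K) :
    ∃ φ', ι φ' = D i j (ι φ) := by
  obtain ⟨p, q, q0, a⟩ := IsFractionRing.div_surjective (A := BlockPoly c) (ι φ)
  have q1 := nonZeroDivisors.ne_zero q0
  have a' : ι φ * al c q = al c p := by
    rw [← a]
    exact div_mul_cancel₀ _ fun z => q1 (al_inj (z.trans (map_zero _).symm))
  refine mem s (mul_ne_zero q1 q1) (quo x i j a') fun h m => ?_
  rw [map_sub (rt c _), map_mul (rt c _), map_mul (rt c _), map_mul (rt c _), rt_dd (s.blk h m) e,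
    rt_dd (s.blk h m) e]
  exact quo x i j (inv s φ m a')

/-- the logarithmic derivatives of the semi-invariants are invariant -/
theorem lg (s : Sph H ι) {F : BlockPoly c} (F0 : F ≠ 0) (m : Sem H F) {i j : Fin N}
    (e : c i = c j) : ∃ φ, al c (dd c i j F) = ι φ * al c F := by
  have n : al c F ≠ 0 := fun z => F0 (al_inj (z.trans (map_zero _).symm))
  obtain ⟨b, hb⟩ := mem s F0 (div_mul_cancel₀ (al c (dd c i j F)) n) fun h k => by
    obtain ⟨a, ha⟩ := m h k
    rw [rt_eq] at ha
    rw [rt_dd (s.blk h k) e, ha, Derivation.map_smul, map_smul, map_smul, mul_smul_comm,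
      div_mul_cancel₀ _ n]
  exact ⟨b, by rw [hb, div_mul_cancel₀ _ n]⟩

theorem basis (ι : K →ₐ[ℂ] LL c) : ∃ (d : ℕ) (y : Fin d → K), IsTranscendenceBasis ℂ y := by
  obtain ⟨s, hs⟩ := exists_isTranscendenceBasis ℂ K
  have : Algebra.IsAlgebraic (BlockPoly c) (LL c) :=
    IsLocalization.isAlgebraic _ (nonZeroDivisors (BlockPoly c))
  have tb := (IsTranscendenceBasis.mvPolynomial (Vr c) ℂ).algebraMap_comp (A := LL c)
  have le := (hs.1.map' ι.toRingHom.injective).cardinalMk_le_trdeg
  rw [← tb.cardinalMk_eq_trdeg] at le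
  have : Finite s := Cardinal.lt_aleph0_iff_finite.1 (le.trans_lt (Cardinal.lt_aleph0_of_finite _))
  have := Fintype.ofFinite s
  exact ⟨_, _, hs.comp_equiv (Fintype.equivFin s).symm⟩

theorem exd (c : Fin N → ℕ) : ∃ D : DD c, Ex D := by
  choose D h using fun i j => S6.ext_der (L := LL c) (dd c i j)
  exact ⟨D, h⟩

/-- the vector fields of the triangular matrices span -/
theorem spn (s : Sph H ι) {D : DD c} (x : Ex D) (δ : Derivation ℂ (LL c) (LL c)) :
    ∃ e : {x : Fin N × Fin N // c x.1 = c x.2 ∧ (Fin.rev x.1).1 ≤ (Fin.rev x.2).1} → LL c, ∀ φ,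
      δ (ι φ) = ∑ j, e j * D j.1.1 j.1.2 (ι φ) := by
  obtain ⟨d, y, hy⟩ := basis ι
  obtain ⟨e, he⟩ := S6.spanB (dat c) (colm c) D (fun i j p _ => x i j p) ι hy (fun φ => by
    refine S6.den (H := H) (fun h => (rt c (h : GL (Fin N) ℂ)).toRingHom) (fun q k => ?_)
      fun h p q e => inv s φ h.2 e
    refine s.den q fun b bl tr h m => ?_
    rw [Units.val_mul, ← rt_ev bl]
    exact k ⟨h, m⟩ _ fun w l => tr _ _ (Fin.rev_lt_rev.1 l)) δ
  exact ⟨e, fun φ => (he φ).trans (Finset.sum_congr (Finset.ext fun _ => by simp) fun _ _ => rfl)⟩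

end C56

open C56 in
/-- **COL** -/
theorem col56 : COL := by
  classical
  intro N c K _ _ H ι s F sq cop hi sm
  obtain ⟨D, x⟩ := exd c
  have dg : ∀ p, ∃ a : ℂ, dd c p p F = a • F := fun p => hi p p rfl le_rfl
  have := (bk c).deg (ν := fun i => (Fin.rev i).1) (L := LL c) (E := D) (ι := ι.toRingHom)
    (fun p q _ e => Fin.rev_injective (Fin.ext e)) sq cop (fun p q e l => ?_) dg
    (fun p q _ y => x p q y) (fun p q e y => ?_) (fun p q e => lg s sq.ne_zero sm e)
    fun p q _ => spn s x (D p q)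
  · rwa [Fintype.card_fin] at this
  · have lt : q < p := Fin.rev_lt_rev.1 l
    obtain ⟨a, ha⟩ := hi p q e lt.le
    obtain ⟨b, hb⟩ := dg p
    have k := (bk c).com (p := p) (q := p) rfl e F
    rw [if_pos rfl, if_neg lt.ne, sub_zero, hb, ha, Derivation.map_smul, Derivation.map_smul, hb,
      ha, smul_comm, left_eq_add] at k
    rw [ha, k]
  · obtain ⟨φ, e⟩ := st s x e y
    exact ⟨φ, e.symm⟩

end Vale.Agent.P283R.Sp
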