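import Vale.Agent.P283R.Sp.St
import Vale.Agent.P283R.Sp.Spb6

/-!
# P283R, block SP: the invariants of the triangular matrices
-/

set_option linter.all false

open Function Set MvPolynomial

noncomputable section

namespace Vale.Agent.P283R.Sp

open Sl

namespace S6

variable {N : ℕ} {c : Fin N → ℕ} {K : Type} [Field K] [Algebra ℂ K] {H : Subgroup (GL (Fin N) ℂ)}
  {ι : K →ₐ[ℂ] LL c} {D : DD c}

/-- the order of the rows -/
def nu (i : Fin N) : ℕ := (Fin.rev i : ℕ)

theorem nu_le {i j : Fin N} : nu i ≤ nu j ↔ j ≤ i := Fin.rev_le_rev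

theorem nu_lt {i j : Fin N} : nu i < nu j ↔ j < i := Fin.rev_lt_rev

theorem nu_inj : Injective (nu (N := N)) := fun _ _ h => Fin.rev_injective (Fin.ext h)

theorem dat (c : Fin N → ℕ) :
    C38.Dat (fun w : Vr c => w.1.1) (fun i j => c i = c j) (sw c) (dd c) where
  refl _ := rfl
  symm _ _ := Eq.symm
  row i w h := by rw [sw, dif_pos (h.trans w.2)]
  inv i w h := by
    have : (sw c i w).1.2 = w.1.2 := by rw [sw, dif_pos (h.trans w.2)]
    rw [sw, dif_pos (this ▸ w.2)]
    exact Subtype.ext (Prod.ext rfl this)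
  id w := by rw [sw, dif_pos w.2]
  act i j w _ := by rw [dd, mkDerivation_X]

theorem col (c : Fin N → ℕ) :
    Col (fun w : Vr c => w.1.1) (fun w => w.1.2) (fun i j => c i = c j) (sw c) nu where
  col i w h := by rw [sw, dif_pos (h.trans w.2)]
  blk w := w.2.symm
  ext _ _ a b := Subtype.ext (Prod.ext a b)
  inj := nu_inj

theorem val_shift {b : Matrix (Fin N) (Fin N) ℂ} (hb : Block c b) (h : Matrix (Fin N) (Fin N) ℂ)
    (p : BlockPoly c) :
    aeval (fun w : Vr c => b w.1.1 w.1.2) (shift c 1 h p) = valueAt c (b * h) p := by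
  rw [shift, valueAt, ← AlgHom.comp_apply, ← coe_aeval_eq_eval]
  change _ = aeval (fun e : Vr c => (b * h) e.1.1 e.1.2) p
  refine AlgHom.congr_fun (algHom_ext fun w => ?_) p
  simp only [AlgHom.comp_apply, aeval_X, Matrix.map_one _ C_0 C_1, one_mul, Matrix.mul_apply,
    map_sum, map_mul, Matrix.map_apply, aeval_C, Algebra.algebraMap_self, RingHom.id_apply]
  refine Finset.sum_congr rfl fun k _ => ?_
  congr 1
  rw [blockVar]
  split_ifs with e
  · rw [aeval_X]
  · rw [map_zero, hb _ _ e]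

theorem den' (h : Sph H ι) (φ : K) : ∃ p q, res (fun w : Vr c => w.1.1) (fun w => w.1.2) nu q ≠ 0 ∧
    ι φ * al c q = al c p := by
  refine den (H := H) (fun g => (aeval fun e : Vr c => ((1 : Matrix (Fin N) (Fin N) ℂ).map C *
    blockVar c * (g.1 : Matrix (Fin N) (Fin N) ℂ).map C : Matrix _ _ (BlockPoly c)) e.1.1
      e.1.2).toRingHom) (fun q hq => h.den q fun b b1 b2 g hg => ?_) fun g p q e => ?_
  · exact (val_shift b1 _ q).symm.trans (hq ⟨g, hg⟩ _ fun w k => b2 _ _ (nu_lt.1 k))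
  · obtain ⟨p0, q0, ⟨-, a⟩, b0, b⟩ := (h.fix _).1 ⟨φ, rfl⟩ g g.2
    have i := IsFractionRing.injective (BlockPoly c) (LL c)
    have k : p * q0 = p0 * q := i (by rw [map_mul, map_mul, ← a, ← e]; ring)
    have k' := congrArg (fun u => algebraMap _ (LL c) (shift c 1 (g : GL (Fin N) ℂ) u)) k
    simp only [shift, map_mul] at k' b b0
    refine mul_right_cancel₀ ((map_ne_zero_iff _ i).2 b0) ?_
    exact (mul_right_comm _ _ _).trans ((congrArg (· * _) b).trans k'.symm)

theorem basis (ι : K →ₐ[ℂ] LL c) : ∃ (d : ℕ) (y : Fin d → K), IsTranscendenceBasis ℂ y := by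
  haveI : Algebra.IsAlgebraic (BlockPoly c) (LL c) :=
    IsLocalization.isAlgebraic (LL c) (nonZeroDivisors (BlockPoly c))
  obtain ⟨s, hs⟩ := exists_isTranscendenceBasis ℂ K
  have k := (hs.1.map' (f := ι) ι.injective).cardinalMk_le_trdeg
  rw [← ((IsTranscendenceBasis.mvPolynomial (Vr c) ℂ).algebraMap_comp
    (A := LL c)).cardinalMk_eq_trdeg] at k
  haveI : Finite s := Cardinal.mk_lt_aleph0_iff.1 (k.trans_lt (Cardinal.lt_aleph0_of_finite _))
  obtain ⟨d, ⟨e⟩⟩ := Finite.exists_equiv_fin s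
  exact ⟨d, _, hs.comp_equiv e.symm⟩

/-- **the triangular vector fields span** -/
theorem spn [k : Fintype {x : Fin N × Fin N // c x.1 = c x.2 ∧ nu x.1 ≤ nu x.2}] (h : Sph H ι)
    (hD : Ex D) (δ : Derivation ℂ (LL c) (LL c)) :
    ∃ e : {x : Fin N × Fin N // c x.1 = c x.2 ∧ nu x.1 ≤ nu x.2} → LL c, ∀ φ,
      δ (ι φ) = ∑ j, e j * D j.1.1 j.1.2 (ι φ) := by
  obtain ⟨d, y, hy⟩ := basis ι
  obtain ⟨e, he⟩ := spanB (dat c) (col c) D (fun i j p _ => hD i j p) ι hy (den' h) δ
  exact ⟨e, fun φ => (he φ).trans (Finset.sum_congr (Finset.ext fun _ => by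
    simp only [Finset.mem_univ]) fun _ _ => rfl)⟩

theorem ex (c : Fin N → ℕ) : ∃ D : DD c, Ex D := by
  choose D hD using fun i j => ext_der (L := LL c) (dd c i j)
  exact ⟨D, hD⟩

/-- an invariant of `H` which is killed by the triangular vector fields is constant -/
theorem cst (h : Sph H ι) (hD : Ex D) {φ : K}
    (z : ∀ i j, c i = c j → j ≤ i → D i j (ι φ) = 0) : ∃ a, ι φ = algebraMap ℂ _ a := by
  by_cases t : IsAlgebraic ℂ (ι φ)
  · exact ((minpoly.mem_range_of_degree_eq_one ℂ _ (IsAlgClosed.degree_eq_one_of_irreducible ℂ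
      (minpoly.irreducible t.isIntegral))).imp fun _ => Eq.symm)
  obtain ⟨δ, e⟩ := P297.H927.exists_derivation (F := ℂ) t
  obtain ⟨u, hu⟩ := spn h hD δ
  rw [hu, Finset.sum_eq_zero fun j _ => by rw [z _ _ j.2.1 (nu_le.1 j.2.2), mul_zero]] at e
  exact (zero_ne_one e).elim

end S6

/-- **CON** -/
theorem con : CON := fun _ c _ _ _ _ ι h φ p q q0 e z => by
  obtain ⟨D, hD⟩ := S6.ex c
  have i := IsFractionRing.injective (BlockPoly c) (LL c)
  have q1 : al c q ≠ 0 := (map_ne_zero_iff _ i).2 q0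
  obtain ⟨a, ha⟩ := S6.cst h hD (φ := φ) fun i j u v => by
    have k := congrArg (D i j) e
    have k' := congrArg (al c) (z i j u v)
    rw [Derivation.leibniz, hD, hD, smul_eq_mul, smul_eq_mul] at k
    rw [map_mul, map_mul, ← k, ← e] at k'
    refine (mul_eq_zero.1 ?_).resolve_left (mul_ne_zero q1 q1)
    linear_combination k'
  refine ⟨a, i ?_⟩
  change al c p = al c (a • q)
  rw [← e, ha, map_smul, Algebra.smul_def]

end Vale.Agent.P283R.Sp
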