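import Vale.Agent.P283R.Sp.St

/-!
# P283R, block SP: the factorization of the invariant functions
-/

open Set

noncomputable section

namespace Vale.Agent.P283R.Sp

open Vale.Agent.P287D Vale.Agent.P297Z Sl

namespace E22

variable {N : ℕ} {c : Fin N → ℕ} {p : BlockPoly c} {x y : LL c}

theorem al_inj : Function.Injective (al c) := IsFractionRing.injective (BlockPoly c) (LL c)

theorem al_ne {r : BlockPoly c} (h : r ≠ 0) : al c r ≠ 0 := fun e =>
  h (al_inj (e.trans (map_zero _).symm))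

/-- units at `p` -/
def U (p : BlockPoly c) (x : LL c) : Prop := ∃ r s, ¬ p ∣ r ∧ ¬ p ∣ s ∧ x * al c s = al c r

theorem U.of (hp : Prime p) {r : BlockPoly c} (h : ¬ p ∣ r) : U p (al c r) :=
  ⟨r, 1, h, hp.not_dvd_one, by simp⟩

theorem U.one (hp : Prime p) : U p 1 := by simpa using U.of hp hp.not_dvd_one

theorem U.mul (hp : Prime p) (a : U p x) (b : U p y) : U p (x * y) := by
  obtain ⟨r, s, a1, a2, a3⟩ := a
  obtain ⟨r', s', b1, b2, b3⟩ := b
  refine ⟨r * r', s * s', fun h => (hp.dvd_or_dvd h).elim a1 b1,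
    fun h => (hp.dvd_or_dvd h).elim a2 b2, ?_⟩
  rw [map_mul, map_mul, ← a3, ← b3]
  ring

theorem U.ne (a : U p x) : x ≠ 0 := by
  obtain ⟨r, s, a1, -, a3⟩ := a
  rintro rfl
  rw [zero_mul] at a3
  exact al_ne (fun e : r = 0 => a1 (e ▸ dvd_zero p)) a3.symm

theorem U.inv (a : U p x) : U p x⁻¹ := by
  have x0 := a.ne
  obtain ⟨r, s, a1, a2, a3⟩ := a
  exact ⟨s, r, a2, a1, by rw [← a3, inv_mul_cancel_left₀ x0]⟩

theorem U.pow (hp : Prime p) (a : U p x) : ∀ n : ℕ, U p (x ^ n)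
  | 0 => by simpa using U.one hp
  | n + 1 => by simpa [pow_succ] using (a.pow hp n).mul hp a

theorem U.zpow (hp : Prime p) (a : U p x) (n : ℤ) : U p (x ^ n) := by
  obtain ⟨k, rfl | rfl⟩ := n.eq_nat_or_neg
  · simpa using a.pow hp k
  · simpa using (a.pow hp k).inv

theorem U.prod (hp : Prime p) {ι : Type} (s : Finset ι) (f : ι → LL c) (h : ∀ i ∈ s, U p (f i)) :
    U p (∏ i ∈ s, f i) :=
  Finset.prod_induction f (U p) (fun _ _ => U.mul hp) (U.one hp) h

theorem U.two (hp : Prime p) (x0 : x ≠ 0) (a : ∃ r s, ¬ p ∣ s ∧ x * al c s = al c r)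
    (b : ∃ r s, ¬ p ∣ s ∧ x⁻¹ * al c s = al c r) : U p x := by
  obtain ⟨r, s, a1, a2⟩ := a
  obtain ⟨r', s', b1, b2⟩ := b
  refine ⟨r, s, fun h => ?_, a1, a2⟩
  have : s * s' = r * r' := al_inj (by
    rw [map_mul, map_mul, ← a2, ← b2]
    field_simp)
  exact (hp.dvd_or_dvd (this ▸ h.mul_right r')).elim a1 b1

theorem dvd_pow_of {a d : BlockPoly c} (a0 : a ≠ 0) (h : ∀ p, Prime p → p ∣ a → p ∣ d) :
    ∃ m, a ∣ d ^ m := by
  induction a using UniqueFactorizationMonoid.induction_on_prime with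
  | h₁ => exact absurd rfl a0
  | h₂ x hx => exact ⟨0, hx.dvd⟩
  | h₃ a p a1 hp ih =>
    obtain ⟨m, hm⟩ := ih a1 fun q hq k => h q hq (k.mul_left p)
    exact ⟨m + 1, by rw [pow_succ']; exact mul_dvd_mul (h p hp (dvd_mul_right _ _)) hm⟩

theorem un_of (x0 : x ≠ 0) (h : ∀ p, Prime p → ¬ p ∣ del c → U p x) : Un x := by
  obtain ⟨a, b, rp, e⟩ := IsFractionRing.exists_reduced_fraction (BlockPoly c) x
  have b0 : (b : BlockPoly c) ≠ 0 := nonZeroDivisors.ne_zero b.2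
  have e' : x * al c b = al c a := by
    rw [← e]
    exact IsLocalization.mk'_spec _ a b
  have a0 : a ≠ 0 := by
    rintro rfl
    exact mul_ne_zero x0 (al_ne b0) (e'.trans (map_zero _))
  have key : ∀ p, Prime p → ¬ p ∣ del c → ¬ p ∣ a ∧ ¬ p ∣ b := fun p hp hd => by
    obtain ⟨r, s, a1, a2, a3⟩ := h p hp hd
    have : a * s = r * b := al_inj (by
      rw [map_mul, map_mul, ← e', ← a3]
      ring)
    exact ⟨fun k => hp.not_isUnit (rp k ((hp.dvd_or_dvd (this ▸ k.mul_right s)).resolve_left a1)),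
      fun k => hp.not_isUnit (rp ((hp.dvd_or_dvd (this.symm ▸ k.mul_left r)).resolve_right a2) k)⟩
  obtain ⟨m, hm⟩ := dvd_pow_of (d := del c) a0 fun p hp k => by
    by_contra hd
    exact (key p hp hd).1 k
  obtain ⟨n, b', hn⟩ := dvd_pow_of (d := del c) b0 fun p hp k => by
    by_contra hd
    exact (key p hp hd).2 k
  refine ⟨n, m + n, a * b', ?_, ?_⟩
  · rw [pow_add]
    exact mul_dvd_mul hm (Dvd.intro_left _ hn.symm)
  · rw [← map_pow, hn, map_mul, map_mul, ← e']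
    ring

variable {K : Type} [Field K] [Algebra ℂ K] {ι : K →ₐ[ℂ] LL c} {E E' : Pl K}

theorem over_eq (a : Over ι p E) (b : Over ι p E') : E = E' :=
  Pl.ext' (SetLike.ext fun x => (a x).trans (b x).symm)

theorem not_hor (a : Over ι p E) : ¬ Hor ι p := fun b => by
  have := (Pl.ord_nonneg_iff E.toPlace (inv_ne_zero E.t_ne)).2 ((a _).2 (b E.t⁻¹))
  rw [Pl.ord_inv, E.ord_t] at this
  omega

theorem hor_u (hp : Prime p) (b : Hor ι p) {φ : K} (h : φ ≠ 0) : U p (ι φ) :=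
  U.two hp ((map_ne_zero ι).2 h) (b φ) (by simpa using b φ⁻¹)

theorem over_u (hp : Prime p) (a : Over ι p E) {φ : K} (h : φ ≠ 0) (o : E.ord φ = 0) :
    U p (ι φ) :=
  U.two hp ((map_ne_zero ι).2 h) ((a φ).1 ((Pl.ord_nonneg_iff E.toPlace h).1 o.ge)) (by
    simpa using (a φ⁻¹).1 ((Pl.ord_nonneg_iff E.toPlace (inv_ne_zero h)).1 (by
      rw [Pl.ord_inv, o]
      rfl)))

end E22

open E22 in
theorem eq2 (v1 : VA1) (e1 : E1) : EQ2 := by
  classical
  intro N c K _ _ H ι sph T f hT hf φ φ0 s _ hs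
  have f0 : ∀ E, al c (f E) ≠ 0 := fun E => al_ne (hf E).1.ne_zero
  have t0 : tw f s (fun E => E.ord φ) ≠ 0 :=
    Finset.prod_ne_zero_iff.2 fun E _ => zpow_ne_zero _ (f0 E)
  refine ⟨ι φ / tw f s fun E => E.ord φ,
    un_of (div_ne_zero ((map_ne_zero ι).2 φ0) t0) fun p hp hd => ?_, (div_mul_cancel₀ _ t0).symm⟩
  rcases v1 N c K H ι sph T hT p hp hd with h | ⟨E, hE, h⟩
  · rw [div_eq_mul_inv]
    exact (hor_u hp h φ0).mul hp (U.prod hp _ _ fun E _ =>
      (U.of hp fun k => not_hor (((hf E).2 p hp).1 k).2 h).zpow hp _).inv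
  · obtain ⟨t, r, s', a0, a1, a2, a3, a4⟩ := e1 N c K H ι sph p E hp hd h
    have p0 : al c p ≠ 0 := al_ne hp.ne_zero
    have u1 : U p (ι t / al c p) := ⟨r, s', a2, a3, by
      rw [div_mul_eq_mul_div, a4, map_mul, mul_div_cancel_left₀ _ p0]⟩
    have u2 : U p (ι (φ / t ^ E.ord φ)) :=
      over_u hp h (div_ne_zero φ0 (zpow_ne_zero _ a0)) (by
        rw [div_eq_mul_inv, Pl.ord_mul _ φ0 (inv_ne_zero (zpow_ne_zero _ a0)), Pl.ord_inv,
          Pl.ord_zpow, a1]
        ring)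
    have u3 : ∀ E', U p (al c (f E') / if E' = E then al c p else 1) := fun E' => by
      split_ifs with e
      · subst e
        obtain ⟨g, hg⟩ := ((hf E').2 p hp).2 ⟨hd, h⟩
        rw [hg, map_mul, mul_div_cancel_left₀ _ p0]
        exact U.of hp fun k => hp.not_isUnit ((hf E').1 p (hg ▸ mul_dvd_mul_left p k))
      · rw [div_one]
        exact U.of hp fun k => e (over_eq (((hf E').2 p hp).1 k).2 h)
    have e4 : ∏ E' ∈ s, (if E' = E then al c p else 1) ^ E'.ord φ = al c p ^ E.ord φ := by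
      rw [Finset.prod_eq_single E (fun b _ hb => by simp [hb]) fun k => by
        simp [hs E ⟨hE, p, hp, hd, h⟩ k]]
      simp
    have u4 := U.prod hp s _ fun E' _ => (u3 E').zpow hp (E'.ord φ)
    simp only [div_zpow, Finset.prod_div_distrib, e4] at u4
    have := (u2.mul hp (u1.zpow hp (E.ord φ))).mul hp u4.inv
    have i0 : ι t ^ E.ord φ ≠ 0 := zpow_ne_zero _ ((map_ne_zero ι).2 a0)
    have q0 : al c p ^ E.ord φ ≠ 0 := zpow_ne_zero _ p0
    rwa [map_div₀, map_zpow₀, div_zpow, inv_div, div_mul_div_cancel₀ i0,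
      div_mul_div_cancel₀ q0] at this

end Vale.Agent.P283R.Sp
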