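import Vale.Agent.P283R.Sp.Del38
import Vale.Agent.P283R.Sp.Eq22
import Vale.Agent.P283R.Sp.Cr38

/-!
# P283R, block SP: the quotient map is unramified
-/

set_option linter.all false

open Set

noncomputable section

namespace Vale.Agent.P283R.Sp

open Vale.Agent.P287D Vale.Agent.P297Z Sl MvPolynomial

namespace D38

variable {N : ℕ} {c : Fin N → ℕ}

/-- the partial derivatives -/
def pd (c : Fin N → ℕ) (j a : Fin N) : Derivation ℂ (BlockPoly c) (BlockPoly c) :=
  if h : c j = c a then pderiv ⟨(j, a), h⟩ else 0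

theorem pd_X (j a : Fin N) (w : Vr c) : pd c j a (X w) = if w.1 = (j, a) then 1 else 0 := by
  classical
  unfold pd
  split_ifs with h e e
  · rw [show w = ⟨(j, a), h⟩ from Subtype.ext e, pderiv_X_self]
  · exact pderiv_X_of_ne fun z => e (congrArg Subtype.val z)
  · exact absurd (e ▸ w.2 : c (j, a).1 = c (j, a).2) h
  · rfl

theorem dd_eq {i j : Fin N} (h : c i = c j) (p : BlockPoly c) :
    dd c i j p = ∑ a, blockVar c i a * pd c j a p := by
  have e : dd c i j = ∑ a, blockVar c i a • pd c j a := by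
    refine derivation_ext fun w => ?_
    rw [C38.dsum, ← bv_X w, dd_bv h, bv_X]
    simp only [Derivation.smul_apply, pd_X, smul_eq_mul, mul_ite, mul_one, mul_zero]
    split_ifs with z
    · rw [Finset.sum_eq_single w.1.2 (fun b _ hb => if_neg fun e => hb (congrArg Prod.snd e).symm)
        (by simp), if_pos (show w.1 = (j, w.1.2) from Prod.ext z rfl)]
    · exact (Finset.sum_eq_zero fun a _ => if_neg fun e => z (congrArg Prod.fst e)).symm
  rw [e, C38.dsum]
  rfl

theorem pd_zero {σ : Type} {p : MvPolynomial σ ℂ} (h : ∀ w, pderiv w p = 0) :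
    p = C (coeff 0 p) := by
  classical
  ext m
  rw [coeff_C]
  split_ifs with z
  · rw [z]
  · obtain ⟨w, hw⟩ : ∃ w, m w ≠ 0 := by
      by_contra k
      push Not at k
      exact z (Finsupp.ext fun w => (k w).symm)
    have := congrArg (coeff (m - Finsupp.single w 1)) (h w)
    rw [coeff_pderiv, Finsupp.sub_add_single_one_cancel hw, coeff_zero] at this
    exact (mul_eq_zero.1 this).resolve_right (Nat.cast_add_one_ne_zero _)

/-- a prime which does not divide the determinant is moved -/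
theorem ex_dd {p : BlockPoly c} (hp : Prime p) (hd : ¬ p ∣ del c) :
    ∃ i j, c i = c j ∧ ¬ p ∣ dd c i j p := by
  classical
  by_contra k
  push Not at k
  refine hp.not_isUnit ?_
  have e := pd_zero (p := p) fun w => ?_
  · refine e ▸ (IsUnit.mk0 _ fun a => hp.ne_zero ?_).map C
    rw [e, a, map_zero]
  let v : Fin N → BlockPoly c := fun a => pd c w.1.1 a p
  have a1 : ∀ i, p ∣ ((blockVar c).mulVec v) i := fun i => by
    by_cases z : c i = c w.1.1
    · have := k i _ z
      rwa [dd_eq z] at this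
    · rw [Matrix.mulVec, dotProduct]
      refine Finset.dvd_sum fun a _ => ?_
      by_cases z' : c i = c a
      · have : v a = 0 := by
          simp only [v, pd, dif_neg fun e : c w.1.1 = c a => z (z'.trans e.symm)]
          rfl
        rw [this, mul_zero]
        exact dvd_zero _
      · rw [bv_ne z', zero_mul]
        exact dvd_zero _
  have a2 : p ∣ ((blockVar c).adjugate.mulVec ((blockVar c).mulVec v)) w.1.2 := by
    rw [Matrix.mulVec, dotProduct]
    exact Finset.dvd_sum fun a _ => (a1 a).mul_left _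
  rw [Matrix.mulVec_mulVec, Matrix.adjugate_mul, Matrix.smul_mulVec, Matrix.one_mulVec,
    Pi.smul_apply, smul_eq_mul] at a2
  have a3 : v w.1.2 = pderiv w p := by simp only [v, pd, dif_pos w.2]
  obtain ⟨q, hq⟩ := (hp.dvd_or_dvd a2).resolve_left hd
  rw [a3] at hq
  by_contra z
  have q0 : q ≠ 0 := by
    rintro rfl
    exact z (hq.trans (mul_zero _))
  have := C38.td w w p
  rw [hq, totalDegree_mul_of_isDomain (X_ne_zero _) (mul_ne_zero hp.ne_zero q0),
    totalDegree_mul_of_isDomain hp.ne_zero q0, totalDegree_X] at this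
  omega

theorem ratio_der {D : DD c} (hD : Ex D) (i j : Fin N) {a : LL c} {p q : BlockPoly c}
    (h : IsRatio a p q) : IsRatio (D i j a) (q * dd c i j p - p * dd c i j q) (q * q) := by
  refine ⟨mul_ne_zero h.1 h.1, ?_⟩
  have e : a * al c q = al c p := h.2
  have e' := congrArg (D i j) e
  rw [Derivation.leibniz, hD, hD, smul_eq_mul, smul_eq_mul] at e'
  show D i j a * al c (q * q) = al c _
  rw [map_sub, map_mul, map_mul, map_mul, ← e', ← e]
  ring

variable {K : Type} [Field K] [Algebra ℂ K] {H : Subgroup (GL (Fin N) ℂ)} {ι : K →ₐ[ℂ] LL c}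

/-- the vector fields keep the field of invariants -/
theorem st (h : Sph H ι) {D : DD c} (hD : Ex D) {i j : Fin N} (e : c i = c j) (y : K) :
    ∃ y', ι y' = D i j (ι y) := by
  refine (h.fix _).2 fun g hg => ?_
  obtain ⟨p, q, a, b⟩ := (h.fix _).1 ⟨y, rfl⟩ g hg
  refine ⟨_, _, ratio_der hD i j a, ?_⟩
  have s : ∀ x y, shift c 1 (g : GL (Fin N) ℂ) (x - y) = shift c 1 (g : GL (Fin N) ℂ) x -
      shift c 1 (g : GL (Fin N) ℂ) y := fun _ _ => map_sub _ _ _
  rw [s, sh_mul, sh_mul, sh_mul, com38 N c _ (h.blk g hg) i j e, com38 N c _ (h.blk g hg) i j e]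
  exact ratio_der hD i j b

end D38

open D38 E22

theorem e138 (ext : EXT) : E1 := by
  intro N c K _ _ H ι sph p E hp hd h
  obtain ⟨D, hD⟩ := ext N c
  have mem : ∀ a, a ≠ 0 → 0 ≤ E.ord a → ∃ r s, ¬ p ∣ s ∧ ι a * al c s = al c r := fun a a0 o =>
    (h a).1 ((Pl.ord_nonneg_iff E.toPlace a0).1 o)
  have T0 : ι E.t ≠ 0 := (map_ne_zero ι).2 E.t_ne
  obtain ⟨r, s, s0, e⟩ := mem E.t E.t_ne (by rw [E.ord_t]; omega)
  have sn : s ≠ 0 := fun z => s0 (z ▸ dvd_zero p)
  have r0 : r ≠ 0 := by
    rintro rfl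
    exact mul_ne_zero T0 (al_ne sn) (e.trans (map_zero _))
  obtain ⟨n, r', r1, rfl⟩ := WfDvdMonoid.max_power_factor r0 hp.irreducible
  match n with
  | 0 =>
    have := (Pl.ord_nonneg_iff E.toPlace (inv_ne_zero E.t_ne)).2 ((h _).2 ⟨s, r', r1, by
      rw [pow_zero, one_mul] at e
      rw [map_inv₀, ← e, inv_mul_cancel_left₀ T0]⟩)
    rw [Pl.ord_inv, E.ord_t] at this
    omega
  | 1 => exact ⟨E.t, r', s, E.t_ne, E.ord_t, r1, s0, by rwa [pow_one] at e⟩
  | n + 2 =>
    exfalso
    obtain ⟨i, j, ij, k⟩ := ex_dd hp hd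
    obtain ⟨t', ht⟩ := st sph hD ij E.t
    let w := ((n + 2 : ℕ) : BlockPoly c) * s * r' * dd c i j p +
      p * (s * dd c i j r' - r' * dd c i j s)
    have w0 : ¬ p ∣ w := fun z => by
      have z' := (dvd_add_left (dvd_mul_right p _)).1 z
      refine (hp.dvd_or_dvd z').elim (fun z => (hp.dvd_or_dvd z).elim (fun z =>
        (hp.dvd_or_dvd z).elim (fun z => hp.not_isUnit (isUnit_of_dvd_unit z ?_)) s0) r1) k
      rw [← map_natCast (C : ℂ →+* BlockPoly c)]
      exact (IsUnit.mk0 _ (Nat.cast_ne_zero.2 (by omega))).map C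
    have e' : ι t' * al c (s * s) = al c (p ^ (n + 1) * w) := by
      have := (ratio_der hD i j (a := ι E.t) ⟨sn, e⟩).2
      rw [← ht] at this
      refine this.trans (congrArg _ ?_)
      rw [Derivation.leibniz, Derivation.leibniz_pow]
      simp only [w, smul_eq_mul, nsmul_eq_mul, show n + 2 - 1 = n + 1 from rfl]
      ring
    have wn : w ≠ 0 := fun z => w0 (z ▸ dvd_zero p)
    have t0 : t' ≠ 0 := by
      rintro rfl
      rw [map_zero, zero_mul] at e'
      exact al_ne (mul_ne_zero (pow_ne_zero _ hp.ne_zero) wn) e'.symm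
    have T1 : ι t' ≠ 0 := (map_ne_zero ι).2 t0
    rcases le_or_gt (E.ord t') 0 with o | o
    · obtain ⟨r3, s3, a, b⟩ := mem t'⁻¹ (inv_ne_zero t0) (by rw [Pl.ord_inv]; omega)
      have : s3 * (s * s) = p ^ (n + 1) * w * r3 := al_inj (by
        rw [map_mul (al c) _ r3, ← e', ← b, map_inv₀, map_mul (al c) s3]
        field_simp)
      have z : p ∣ s3 * (s * s) := this ▸ ((dvd_pow_self p n.succ_ne_zero).mul_right _).mul_right _
      exact (hp.dvd_or_dvd z).elim a fun z => (hp.dvd_or_dvd z).elim s0 s0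
    · obtain ⟨r2, s2, a, b⟩ := mem (t' * E.t⁻¹) (mul_ne_zero t0 (inv_ne_zero E.t_ne)) (by
        rw [Pl.ord_mul _ t0 (inv_ne_zero E.t_ne), Pl.ord_inv, E.ord_t]; omega)
      have : p ^ (n + 1) * w * s2 = p ^ (n + 2) * r' * (s * r2) := al_inj (by
        rw [map_mul (al c) _ s2, ← e', map_mul (al c) _ (s * r2), ← e, map_mul (al c) s r2, ← b,
          map_mul ι, map_inv₀, map_mul (al c) s s]
        field_simp)
      have z : w * s2 = p * (r' * (s * r2)) :=
        mul_left_cancel₀ (pow_ne_zero (n + 1) hp.ne_zero) (by rw [← mul_assoc, this]; ring)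
      exact (hp.dvd_or_dvd (z ▸ dvd_mul_right p _)).elim w0 a

end Vale.Agent.P283R.Sp
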