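import Vale.Agent.P283R.Sp.St

/-!
# P283R, block SP: the equations of the prime divisors of the open orbit
-/

open Set

noncomputable section

namespace Vale.Agent.P283R.Sp

open Vale.Agent.P287D Vale.Agent.P283M Sl

namespace E99

section ufd

variable {R : Type} [CommRing R] [IsDomain R] [UniqueFactorizationMonoid R]

theorem chr (r : R) : r ≠ 0 → ∀ Q : R → Prop, (∀ p q, Associated p q → Q p → Q q) →
    (∀ p, Prime p → Q p → p ∣ r) → ∃ F, Squarefree F ∧ ∀ p, Prime p → (p ∣ F ↔ Q p) := by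
  induction r using UniqueFactorizationMonoid.induction_on_prime with
  | h₁ => exact fun h => (h rfl).elim
  | h₂ x hx =>
    exact fun _ Q _ h => ⟨1, squarefree_one, fun p hp => ⟨fun k => (hp.not_dvd_one k).elim,
      fun k => (hp.not_isUnit (isUnit_of_dvd_unit (h p hp k) hx)).elim⟩⟩
  | h₃ a p a0 hp ih =>
    intro _ Q hQ h
    obtain ⟨F, sF, hF⟩ := ih a0 (fun q => Q q ∧ ¬ Associated q p)
      (fun x y e k => ⟨hQ x y e k.1, fun f => k.2 (e.trans f)⟩)
      fun q hq k => (hq.dvd_or_dvd (h q hq k.1)).resolve_left fun f =>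
        k.2 (hq.associated_of_dvd hp f)
    by_cases k : Q p
    · have nd : ¬ p ∣ F := fun f => ((hF p hp).1 f).2 (Associated.refl p)
      refine ⟨p * F, squarefree_mul_iff.2 ⟨hp.irreducible.isRelPrime_iff_not_dvd.2 nd,
        hp.squarefree, sF⟩, fun q hq => ⟨fun f => ?_, fun f => ?_⟩⟩
      · rcases hq.dvd_or_dvd f with f | f
        · exact hQ p q (hq.associated_of_dvd hp f).symm k
        · exact ((hF q hq).1 f).1
      · by_cases e : Associated q p
        · exact e.dvd.mul_right F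
        · exact ((hF q hq).2 ⟨f, e⟩).mul_left p
    · exact ⟨F, sF, fun q hq => (hF q hq).trans ⟨fun f => f.1, fun f => ⟨f, fun e =>
        k (hQ q p e f)⟩⟩⟩

theorem dvd_of (F : R) : Squarefree F → ∀ G, (∀ p, Prime p → p ∣ F → p ∣ G) → F ∣ G := by
  induction F using UniqueFactorizationMonoid.induction_on_prime with
  | h₁ => exact fun h => (not_squarefree_zero h).elim
  | h₂ x hx => exact fun _ G _ => hx.dvd
  | h₃ a p _ hp ih =>
    intro s G h
    obtain ⟨k1, _, k3⟩ := squarefree_mul_iff.1 s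
    exact k1.mul_dvd (h p hp (dvd_mul_right p a))
      (ih k3 G fun q hq f => h q hq (f.mul_left p))

omit [IsDomain R] in
theorem rel {F G : R} (h0 : F ≠ 0) (h : ∀ p, Prime p → p ∣ F → ¬ p ∣ G) : IsRelPrime F G :=
  (UniqueFactorizationMonoid.isRelPrime_iff_no_prime_factors h0).2 fun p f g hp => h p hp f g

end ufd

variable {N : ℕ} {c : Fin N → ℕ}

/-- the shift as a homomorphism -/
def sr (c : Fin N → ℕ) (g h : Matrix (Fin N) (Fin N) ℂ) : BlockPoly c →ₐ[ℂ] BlockPoly c :=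
  MvPolynomial.aeval fun e => (g.map MvPolynomial.C * blockVar c * h.map MvPolynomial.C :
    Matrix _ _ (BlockPoly c)) e.1.1 e.1.2

theorem sr_eq (g h : Matrix (Fin N) (Fin N) ℂ) (p : BlockPoly c) : shift c g h p = sr c g h p := rfl

theorem map_var {h : Matrix (Fin N) (Fin N) ℂ} (hh : Block c h) :
    (blockVar c).map (sr c 1 h) = blockVar c * h.map MvPolynomial.C := by
  ext1 i j
  rw [Matrix.map_apply]
  by_cases e : c i = c j
  · rw [blockVar, dif_pos e, sr, MvPolynomial.aeval_X, Matrix.map_one _ (map_zero _) (map_one _),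
      Matrix.one_mul]
  · rw [blockVar, dif_neg e, map_zero, Matrix.mul_apply]
    refine (Finset.sum_eq_zero fun k _ => ?_).symm
    by_cases f : c i = c k
    · rw [Matrix.map_apply, hh k j (f ▸ e), map_zero, mul_zero]
    · rw [blockVar, dif_neg f, zero_mul]

theorem sr_sr {h h' : Matrix (Fin N) (Fin N) ℂ} (hh : Block c h) (e : h * h' = 1) :
    (sr c 1 h).comp (sr c 1 h') = AlgHom.id ℂ _ := by
  refine MvPolynomial.algHom_ext fun w => ?_
  have k1 : (h'.map MvPolynomial.C : Matrix _ _ (BlockPoly c)).map (sr c 1 h) =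
      h'.map MvPolynomial.C := by
    ext1 i j
    exact (sr c 1 h).commutes _
  have k2 : (blockVar c * h'.map MvPolynomial.C).map (sr c 1 h) = blockVar c := by
    rw [Matrix.map_mul, map_var hh, k1, Matrix.mul_assoc, ← Matrix.map_mul, e,
      Matrix.map_one _ (map_zero _) (map_one _), Matrix.mul_one]
  have k3 : sr c 1 h' (.X w) = (blockVar c * h'.map MvPolynomial.C :
      Matrix _ _ (BlockPoly c)) w.1.1 w.1.2 := by
    rw [sr, MvPolynomial.aeval_X, Matrix.map_one _ (map_zero _) (map_one _), Matrix.one_mul]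
  rw [AlgHom.comp_apply, k3, AlgHom.id_apply]
  exact (congrFun (congrFun k2 w.1.1) w.1.2).trans (dif_pos w.2)

/-- the right translation -/
def rt {H : Subgroup (GL (Fin N) ℂ)} (b : ∀ h ∈ H, Block c (h : GL (Fin N) ℂ)) (h : H) :
    BlockPoly c ≃ₐ[ℂ] BlockPoly c :=
  AlgEquiv.ofAlgHom (sr c 1 (h.1 : GL (Fin N) ℂ)) (sr c 1 (h.1⁻¹ : GL (Fin N) ℂ))
    (sr_sr (b _ h.2) (Units.mul_inv h.1)) (sr_sr (b _ (H.inv_mem h.2)) (Units.inv_mul h.1))

theorem rt_eq {H : Subgroup (GL (Fin N) ℂ)} (b : ∀ h ∈ H, Block c (h : GL (Fin N) ℂ)) (h : H)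
    (p : BlockPoly c) : rt b h p = shift c 1 (h.1 : GL (Fin N) ℂ) p := rfl

theorem al_inj : Function.Injective (al c) := IsFractionRing.injective (BlockPoly c) (LL c)

variable {K : Type} [Field K] [Algebra ℂ K] {H : Subgroup (GL (Fin N) ℂ)} {ι : K →ₐ[ℂ] LL c}

theorem rat (S : Sph H ι) (h : H) {a : K} {r s : BlockPoly c} (e : ι a * al c s = al c r) :
    ι a * al c (rt S.blk h s) = al c (rt S.blk h r) := by
  obtain ⟨p, q, ⟨q0, k1⟩, q1, k2⟩ := (S.fix (ι a)).1 ⟨a, rfl⟩ h h.2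
  change ι a * al c q = al c p at k1
  rw [← rt_eq S.blk h] at q1
  rw [← rt_eq S.blk h, ← rt_eq S.blk h] at k2
  change ι a * al c (rt S.blk h q) = al c (rt S.blk h p) at k2
  have k3 : r * q = p * s := al_inj (by rw [map_mul, map_mul, ← e, ← k1]; ring)
  have k4 := congrArg (fun x => al c (rt S.blk h x)) k3
  simp only [map_mul] at k4
  refine mul_right_cancel₀ ((map_ne_zero_iff _ al_inj).2 q1) ?_
  rw [k4, ← k2]
  ring

theorem rt_inv (b : ∀ h ∈ H, Block c (h : GL (Fin N) ℂ)) (h : H) (p : BlockPoly c) :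
    rt b h (rt b h⁻¹ p) = p := (rt b h).apply_symm_apply p

theorem rt_inv' (b : ∀ h ∈ H, Block c (h : GL (Fin N) ℂ)) (h : H) (p : BlockPoly c) :
    rt b h⁻¹ (rt b h p) = p := (rt b h).symm_apply_apply p

theorem ovr (S : Sph H ι) (h : H) {p : BlockPoly c} {E : Pl K} (o : Over ι p E) :
    Over ι (rt S.blk h p) E := fun a => (o a).trans
  ⟨fun ⟨r, s, k, e⟩ => ⟨_, _, fun f => k ((map_dvd_iff (rt S.blk h)).1 f), rat S h e⟩,
    fun ⟨r, s, k, e⟩ => ⟨_, _, fun f => k (by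
      have := map_dvd (rt S.blk h) f
      rwa [rt_inv] at this), rat S h⁻¹ e⟩⟩

theorem ndel (hD : DEL) (S : Sph H ι) (h : H) {p : BlockPoly c} (k : ¬ p ∣ del c) :
    ¬ rt S.blk h p ∣ del c := fun f => k (by
  have k1 := map_dvd (rt S.blk h⁻¹) f
  have k2 := (hD N c).2.2 1 _ (fun i j e => Matrix.one_apply_ne fun f => e (f ▸ rfl))
    (S.blk _ h⁻¹.2)
  rw [← rt_eq S.blk h⁻¹] at k2
  rw [rt_inv', k2, Algebra.smul_def] at k1
  have u : IsUnit (algebraMap ℂ (BlockPoly c) ((1 : Matrix (Fin N) (Fin N) ℂ).det *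
      (((h⁻¹ : H) : GL (Fin N) ℂ) : Matrix (Fin N) (Fin N) ℂ).det)) := by
    rw [Matrix.det_one, one_mul]
    exact IsUnit.map _ (Matrix.isUnits_det_units _)
  exact u.dvd_mul_left.1 k1)

theorem over_dvd {p : BlockPoly c} {E : Pl K} {r s : BlockPoly c}
    (e : ι E.t * al c s = al c r) (o : Over ι p E) : p ∣ r := by
  by_contra k
  have k1 : E.t⁻¹ ∈ E.ring := (o _).2 ⟨s, r, k, by
    rw [← e, ← mul_assoc, ← map_mul, inv_mul_cancel₀ E.t_ne, map_one, one_mul]⟩
  have k2 := P297Z.Pl.ord_nonneg_of_mem E.toPlace k1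
  have k3 := E.ord_t_zpow (-1)
  rw [zpow_neg_one] at k3
  omega

end E99

open E99

/-- **EQ1** -/
theorem eq1 (hD : DEL) : EQ1 := by
  intro N c K _ _ H ι S E
  obtain ⟨r, s, s0, e⟩ := IsFractionRing.div_surjective (A := BlockPoly c) (ι E.t)
  have s1 : s ≠ 0 := nonZeroDivisors.ne_zero s0
  have s2 : al c s ≠ 0 := (map_ne_zero_iff _ al_inj).2 s1
  have e' : ι E.t * al c s = al c r := by
    rw [← e]
    exact div_mul_cancel₀ _ s2
  have r0 : r ≠ 0 := by
    rintro rfl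
    exact mul_ne_zero ((map_ne_zero ι).2 E.t_ne) s2 (e'.trans (map_zero _))
  obtain ⟨F, sF, hF⟩ := chr r r0 (fun p => ¬ p ∣ del c ∧ Over ι p E)
    (fun p q a k => ⟨fun f => k.1 (a.dvd.trans f), fun x => (k.2 x).trans (by
      simp only [a.dvd_iff_dvd_left])⟩) fun p _ k => over_dvd e' k.2
  refine ⟨F, ⟨sF, hF⟩, fun h hh => ?_⟩
  have k : ∀ h : H, F ∣ rt S.blk h F := fun h => dvd_of F sF _ fun p hp f => by
    have k1 := (hF p hp).1 f
    have k2 := (hF _ ((MulEquiv.prime_iff (rt S.blk h⁻¹)).2 hp)).2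
      ⟨ndel hD S h⁻¹ k1.1, ovr S h⁻¹ k1.2⟩
    have := map_dvd (rt S.blk h) k2
    rwa [rt_inv] at this
  have k1 := map_dvd (rt S.blk ⟨h, hh⟩) (k (⟨h, hh⟩ : H)⁻¹)
  rw [rt_inv] at k1
  obtain ⟨u, hu⟩ := associated_of_dvd_dvd (k ⟨h, hh⟩) k1
  obtain ⟨a, _, ha⟩ := MvPolynomial.isUnit_iff_eq_C_of_isReduced.1 u.isUnit
  refine ⟨a, ?_⟩
  rw [← rt_eq S.blk ⟨h, hh⟩, ← hu, ha, mul_comm, MvPolynomial.smul_eq_C_mul]

/-- **EQN** -/
theorem eqn (h1 : EQ1) (h2 : EQ2) (h3 : FXD) (h4 : VA2) : EQN := by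
  intro N c K _ _ H ι S T D
  choose f hf hs using h1 N c K H ι S
  refine ⟨f, S, D.fin, fun _ k => k.1, h4 N c K H ι S T D, fun E => (hf E).1, ?_, fun E => ?_,
    fun E E' ne => ?_, hs, h2 N c K H ι S T f D hf, h3 N c K H ι S T D⟩
  · rintro E ⟨_, p, hp, k⟩ u
    exact hp.not_isUnit (isUnit_of_dvd_unit (((hf E).2 p hp).2 k) u)
  · exact rel (hf E).1.ne_zero fun p hp k => (((hf E).2 p hp).1 k).1
  · refine rel (hf E).1.ne_zero fun p hp k k' => ne (Pl.ext' (ValuationSubring.ext _ _ fun a => ?_))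
    exact ((((hf E).2 p hp).1 k).2 a).trans ((((hf E').2 p hp).1 k').2 a).symm

end Vale.Agent.P283R.Sp
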