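import Mathlib

/-! A subspace that is stable under the translations `x -> x + t y(x)` is stable under the
derivation `y`. -/

open Polynomial

namespace P283R.Sp.O37

variable {k s : Type*} [Field k]

/-- a polynomial curve that lies in a subspace for infinitely many values has its coefficients in
the subspace -/
theorem curve {A M : Type*} [CommRing A] [Algebra k A] [AddCommGroup M] [Module k M]
    (T : A →ₗ[k] M) (W : Submodule k M) (P : A[X]) (S : Set k) (hS : S.Infinite)
    (h : ∀ t ∈ S, T (P.eval (algebraMap k A t)) ∈ W) (i : ℕ) : T (P.coeff i) ∈ W := by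
  rw [← Submodule.Quotient.mk_eq_zero, ← Module.forall_dual_apply_eq_zero_iff k]
  intro f
  let g : A →ₗ[k] k := f ∘ₗ W.mkQ ∘ₗ T
  let Q : k[X] := ∑ j ∈ P.support, monomial j (g (P.coeff j))
  have hQ : Q = 0 := by
    refine Polynomial.eq_zero_of_infinite_isRoot Q (hS.mono fun t ht => ?_)
    have h1 : g (P.eval (algebraMap k A t)) = 0 := by
      simp only [g, LinearMap.comp_apply, Submodule.mkQ_apply]
      rw [(Submodule.Quotient.mk_eq_zero W).2 (h t ht), map_zero]
    simp only [Set.mem_ofPred_eq, IsRoot.def, Q, eval_finsetSum, eval_monomial]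
    rw [eval_eq_sum, Polynomial.sum, map_sum] at h1
    rw [← h1]
    refine Finset.sum_congr rfl fun j _ => ?_
    rw [← map_pow, mul_comm (P.coeff j), ← Algebra.smul_def, map_smul, smul_eq_mul, mul_comm]
  have h2 : Q.coeff i = g (P.coeff i) := by
    simp only [Q, finsetSum_coeff, coeff_monomial, Finset.sum_ite_eq']
    split_ifs with h0
    · rfl
    · rw [notMem_support_iff.1 h0, map_zero]
  rw [hQ, coeff_zero] at h2
  exact h2.symm

/-- the substitution `x -> x + t y(x)` with `t` a variable -/
noncomputable def ph (y : Derivation k (MvPolynomial s k) (MvPolynomial s k)) :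
    MvPolynomial s k →ₐ[k] (MvPolynomial s k)[X] :=
  MvPolynomial.aeval fun v => C (MvPolynomial.X v) + X * C (y (MvPolynomial.X v))

/-- the substitution `x -> x + t y(x)` -/
noncomputable def tr (y : Derivation k (MvPolynomial s k) (MvPolynomial s k)) (t : k) :
    MvPolynomial s k →ₐ[k] MvPolynomial s k :=
  MvPolynomial.aeval fun v => MvPolynomial.X v + t • y (MvPolynomial.X v)

theorem ph_eval (y : Derivation k (MvPolynomial s k) (MvPolynomial s k)) (t : k)
    (a : MvPolynomial s k) : (ph y a).eval (algebraMap k _ t) = tr y t a := by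
  induction a using MvPolynomial.induction_on with
  | C a => simp [ph, tr, MvPolynomial.algebraMap_eq, Polynomial.algebraMap_apply]
  | add p q hp hq => rw [map_add, eval_add, hp, hq, map_add]
  | mul_X p v hp =>
    rw [map_mul, eval_mul, hp, map_mul]
    congr 1
    simp only [ph, tr, MvPolynomial.aeval_X, eval_add, eval_mul, eval_C, eval_X, Algebra.smul_def]

theorem ph_zero (y : Derivation k (MvPolynomial s k) (MvPolynomial s k)) (a : MvPolynomial s k) :
    (ph y a).coeff 0 = a := by
  rw [coeff_zero_eq_eval_zero]
  induction a using MvPolynomial.induction_on with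
  | C a => simp [ph, MvPolynomial.algebraMap_eq, Polynomial.algebraMap_apply]
  | add p q hp hq => rw [map_add, eval_add, hp, hq]
  | mul_X p v hp => rw [map_mul, eval_mul, hp]; simp [ph]

theorem ph_one (y : Derivation k (MvPolynomial s k) (MvPolynomial s k)) (a : MvPolynomial s k) :
    (ph y a).coeff 1 = y a := by
  induction a using MvPolynomial.induction_on with
  | C a =>
    have : y (MvPolynomial.C a) = 0 := y.map_algebraMap a
    rw [this]
    simp [ph, MvPolynomial.algebraMap_eq, Polynomial.algebraMap_apply]
  | add p q hp hq => rw [map_add, coeff_add, hp, hq, map_add]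
  | mul_X p v hp =>
    have e : ph y (MvPolynomial.X v) = C (MvPolynomial.X v) + X * C (y (MvPolynomial.X v)) := by
      simp [ph]
    rw [map_mul, e, mul_add, coeff_add, coeff_mul_C, hp, ← mul_assoc, coeff_mul_C,
      coeff_mul_X, ph_zero, Derivation.leibniz, smul_eq_mul, smul_eq_mul]
    ring

/-- stability under the translations gives stability under the derivation -/
theorem stable {M : Type*} [AddCommGroup M] [Module k M]
    (y : Derivation k (MvPolynomial s k) (MvPolynomial s k)) (T : MvPolynomial s k →ₗ[k] M)
    (W : Submodule k M) (a : MvPolynomial s k) (S : Set k) (hS : S.Infinite)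
    (h : ∀ t ∈ S, T (tr y t a) ∈ W) : T (y a) ∈ W := by
  rw [← ph_one]
  exact curve T W _ S hS (fun t ht => by rw [ph_eval]; exact h t ht) 1

end P283R.Sp.O37
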