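import Vale.Agent.P283R.Sp.St
import Vale.Agent.P283R.Sp.Cr71

/-!
# P283R, block SP: the rows EXT, UNE and CRL
-/

open MvPolynomial
open scoped TensorProduct

noncomputable section

namespace Vale.Agent.P283R.Sp

open Sl

namespace X19

theorem der_frac {k P : Type} [Field k] [CommRing P] [IsDomain P] [Algebra k P]
    (D₀ : Derivation k P P) : ∃ D : Derivation k (FractionRing P) (FractionRing P),
      ∀ x : P, D (algebraMap P (FractionRing P) x) = algebraMap P (FractionRing P) (D₀ x) := by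
  let F := FractionRing P
  have : Algebra.FormallyEtale P F := Algebra.FormallyEtale.of_isLocalization (nonZeroDivisors P)
  let L : Ω[P⁄k] →ₗ[P] F := ((Algebra.linearMap P F).compDer D₀).liftKaehlerDifferential
  let L' : F ⊗[P] Ω[P⁄k] →ₗ[F] F := L.liftBaseChange F
  let L'' : Ω[F⁄k] →ₗ[F] F :=
    L' ∘ₗ (KaehlerDifferential.tensorKaehlerEquivOfFormallyEtale k P F).symm.toLinearMap
  refine ⟨L''.compDer (KaehlerDifferential.D k F), fun x => ?_⟩
  show L' ((KaehlerDifferential.tensorKaehlerEquivOfFormallyEtale k P F).symm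
    (KaehlerDifferential.D k F (algebraMap P F x))) = _
  rw [KaehlerDifferential.tensorKaehlerEquivOfFormallyEtale_symm_D_algebraMap]
  simp [L', L, F]

theorem pw {R : Type} [CommRing R] [Algebra ℂ R] (D : Derivation ℂ R R) {x : R} {a : ℂ}
    (h : D x = a • x) (n : ℕ) : D (x ^ n) = (n * a) • x ^ n := by
  induction n with
  | zero => simp
  | succ k ih =>
    rw [pow_succ, Derivation.leibniz, ih, h]
    simp only [smul_eq_mul, Algebra.smul_def, Nat.cast_succ, map_mul, map_add, map_one]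
    ring

variable {N : ℕ} (c : Fin N → ℕ)

theorem al_inj : Function.Injective (al c) := IsFractionRing.injective (BlockPoly c) (LL c)

theorem del_eig (h : DEL) {i j : Fin N} (e : c i = c j) :
    ∃ a : ℂ, dd c i j (del c) = a • del c := by
  refine ⟨if i = j then 1 else 0, ?_⟩
  rw [(h N c).2.1 i j e]
  split_ifs <;> simp

/-- the pairs of variables of `dd` -/
def pr (a : Vr c) : Finset (Vr c × Vr c) :=
  Finset.univ.filter fun p => p.1.1.1 = a.1.1 ∧ p.2.1.1 = a.1.2 ∧ p.1.1.2 = p.2.1.2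

theorem op_X (a w : Vr c) : C71.op (pr c a) (X w) = dd c a.1.1 a.1.2 (X w) := by
  rw [C71.op_apply, dd, mkDerivation_X]
  split_ifs with e
  · have k : c a.1.1 = c w.1.2 := by rw [a.2, ← e, w.2]
    have s : sw c a.1.1 w = ⟨(a.1.1, w.1.2), k⟩ := dif_pos k
    rw [Finset.sum_eq_single (sw c a.1.1 w, w)]
    · simp
    · intro p hp ne
      have hp := (Finset.mem_filter.1 hp).2
      have : p.2 ≠ w := fun z => ne (by
        refine Prod.ext ?_ z
        rw [s]
        exact Subtype.ext (Prod.ext hp.1 (by rw [hp.2.2, z])))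
      rw [pderiv_X_of_ne this.symm, mul_zero]
    · intro hp
      exact (hp (Finset.mem_filter.2 ⟨Finset.mem_univ _, by rw [s], e, by rw [s]⟩)).elim
  · refine Finset.sum_eq_zero fun p hp => ?_
    have hp := (Finset.mem_filter.1 hp).2
    have : p.2 ≠ w := fun z => e (by rw [← z, hp.2.1])
    rw [pderiv_X_of_ne this.symm, mul_zero]

theorem op_eq (a : Vr c) (F : BlockPoly c) : C71.op (pr c a) F = dd c a.1.1 a.1.2 F := by
  induction F using MvPolynomial.induction_on with
  | C r => simp [C71.op_apply, derivation_C]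
  | add p q hp hq => rw [map_add, map_add, hp, hq]
  | mul_X p w hp =>
    rw [C71.op_mul, hp, op_X, Derivation.leibniz, smul_eq_mul, smul_eq_mul]
    ring

end X19

open X19

/-- **EXT** -/
theorem ext19 : EXT := fun _ c => by
  choose D hD using fun i j => der_frac (dd c i j)
  exact ⟨D, hD⟩

/-- **UNE** -/
theorem une19 (hdel : DEL) (hfac : FAC) : UNE := fun N c D hD u ⟨n, m, p, hp, e⟩ => by
  have d0 := (hdel N c).1
  have p0 : p ≠ 0 := ne_zero_of_dvd_ne_zero (pow_ne_zero m d0) hp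
  have a0 : al c (del c) ^ n ≠ 0 :=
    pow_ne_zero n ((map_ne_zero_iff _ (al_inj c)).2 d0)
  refine ⟨fun z => p0 (al_inj c (by rw [← e, z, mul_zero, map_zero])), fun i j k => ?_⟩
  obtain ⟨a, ha⟩ := del_eig c hdel k
  obtain ⟨b, hb⟩ := hfac N c i j k _ p _ (pow_ne_zero m d0) (pw _ ha m) hp
  have h1 : D i j (al c (del c)) = a • al c (del c) := by rw [hD, ha, map_smul]
  have h2 := congrArg (D i j) e
  rw [hD, hb, map_smul, ← e, Derivation.leibniz, pw _ h1 n] at h2
  refine ⟨b - n * a, mul_left_cancel₀ a0 ?_⟩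
  simp only [smul_eq_mul, Algebra.smul_def, map_sub] at h2 ⊢
  linear_combination h2

/-- **CRL** -/
theorem crl19 (hdel : DEL) : CRL := fun N c D hD W W' hW hW' hR hH => by
  refine C71.crL (pr c) (fun a => ⟨⟨(a.1.2, a.1.1), a.2.symm⟩, ?_⟩) {a | a.1.2 ≤ a.1.1}
    (fun w => N - w.1.1) (fun a ha => ?_) (al c) (fun a => (D a.1.1 a.1.2).toLinearMap)
    (fun a x y => ?_) (fun a F => ?_) (al c (del c))
    ((map_ne_zero_iff _ (al_inj c)).2 (hdel N c).1) (fun a => ?_) W W'
    (fun a x hx => hW _ _ a.2 x hx) (fun a x hx => hW' _ _ a.2 x hx) hR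
    (fun x hx x0 h => hH x hx x0 fun i j e l => h ⟨(i, j), e⟩ l)
  · ext p
    simp only [pr, Finset.mem_image, Finset.mem_filter, Finset.mem_univ, true_and]
    constructor
    · rintro ⟨h1, h2, h3⟩
      exact ⟨p.swap, ⟨h2, h1, h3.symm⟩, rfl⟩
    · rintro ⟨q, ⟨h1, h2, h3⟩, rfl⟩
      exact ⟨h2, h1, h3.symm⟩
  · rcases eq_or_lt_of_le (show a.1.2 ≤ a.1.1 from ha) with e | l
    · refine Or.inl fun p hp => ?_
      have hp := (Finset.mem_filter.1 hp).2
      exact Subtype.ext (Prod.ext (by rw [hp.1, hp.2.1, e]) hp.2.2)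
    · refine Or.inr fun p hp => ?_
      have hp := (Finset.mem_filter.1 hp).2
      have h1 := a.1.1.2
      have h2 : (a.1.2 : ℕ) < a.1.1 := l
      show N - (p.1.1.1 : ℕ) < N - (p.2.1.1 : ℕ)
      rw [hp.1, hp.2.1]
      omega
  · show D _ _ (x * y) = D _ _ x * y + x * D _ _ y
    rw [Derivation.leibniz, smul_eq_mul, smul_eq_mul]
    ring
  · show D _ _ _ = _
    rw [hD, op_eq]
  · obtain ⟨b, hb⟩ := del_eig c hdel a.2
    exact ⟨b, by show D _ _ _ = _; rw [hD, hb, map_smul]⟩

end Vale.Agent.P283R.Sp
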