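import Vale.Agent.P283R.Sp.St
import Vale.Agent.P283R.Sg.Eig88

/-!
# P283R, block SP: factors of eigenvectors, roots, the dimension count
-/

open Set

noncomputable section

namespace Vale.Agent.P283R.Sp

open Sl Sg.E88

namespace F27

variable {N : ℕ}

theorem lf (c : Fin N → ℕ) (i j : Fin N) (p : BlockPoly c) : Lf (dd c i j) p := by
  induction p using MvPolynomial.induction_on with
  | C a =>
    obtain ⟨V, h1, h2, h3⟩ := lf_one (dd c i j)
    exact ⟨V, h1, by simpa [MvPolynomial.C_eq_smul_one] using V.smul_mem a h2, h3⟩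
  | add p q hp hq =>
    obtain ⟨V, h1, h2, h3⟩ := hp
    obtain ⟨W, k1, k2, k3⟩ := hq
    refine ⟨V ⊔ W, inferInstance, Submodule.add_mem_sup h2 k2, fun v hv => ?_⟩
    obtain ⟨x, hx, y, hy, rfl⟩ := Submodule.mem_sup.1 hv
    rw [map_add]
    exact Submodule.add_mem_sup (h3 x hx) (k3 y hy)
  | mul_X p w hp =>
    refine lf_mul _ hp ⟨Submodule.span ℂ (range MvPolynomial.X),
      FiniteDimensional.span_of_finite ℂ (finite_range _), Submodule.subset_span ⟨w, rfl⟩,
      fun v hv => ?_⟩
    induction hv using Submodule.span_induction with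
    | mem x hx =>
      obtain ⟨w, rfl⟩ := hx
      rw [dd, MvPolynomial.mkDerivation_X]
      split_ifs
      · exact Submodule.subset_span ⟨_, rfl⟩
      · exact zero_mem _
    | zero => simp
    | add x y _ _ hx hy => rw [map_add]; exact add_mem hx hy
    | smul a x _ hx => rw [Derivation.map_smul]; exact Submodule.smul_mem _ a hx

theorem pw (i j : Fin N) (a : ℂ) (k : ℕ) : (1 + Matrix.single j i a) ^ k =
    1 + Matrix.single j i (if i = j then (1 + a) ^ k - 1 else k * a) := by
  induction k with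
  | zero => simp
  | succ k ih =>
    rw [pow_succ, ih, add_mul, mul_add, mul_add, one_mul, one_mul, mul_one]
    split_ifs with h
    · subst h
      rw [Matrix.single_mul_single_same, add_assoc, ← Matrix.single_add, ← Matrix.single_add]
      congr 2
      ring
    · rw [Matrix.single_mul_single_of_ne _ _ _ _ h, add_zero, add_assoc, ← Matrix.single_add]
      congr 2
      push_cast
      ring

end F27

theorem fac27 : FAC := fun _ c i j _ _ q _ p0 hp ⟨r, hr⟩ => by
  subst hr
  exact eig _ (F27.lf c i j q) (F27.lf c i j r) p0 hp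

theorem div27 : DIV := fun N c g ⟨i, j, s, hc, hg⟩ => by
  refine ⟨fun a b hab => ?_, fun n hn => ?_⟩
  · rw [hg, Matrix.add_apply, Matrix.one_apply_ne (fun e => hab (congrArg c e)),
      Matrix.single_apply_of_ne, add_zero]
    rintro ⟨rfl, rfl⟩
    exact hab hc.symm
  obtain ⟨r, hr⟩ := IsAlgClosed.exists_pow_nat_eq (1 + s) hn
  have n0 : (n : ℂ) ≠ 0 := Nat.cast_ne_zero.2 hn.ne'
  have e : (1 + Matrix.single j i (if i = j then r - 1 else s / n)) ^ n =
      (g : Matrix (Fin N) (Fin N) ℂ) := by
    rw [F27.pw, hg]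
    congr 2
    split_ifs
    · rw [add_sub_cancel, hr, add_sub_cancel_left]
    · rw [mul_div_cancel₀ _ n0]
  have u := (isUnit_pow_iff hn.ne').1 (e ▸ g.isUnit)
  exact ⟨u.unit, ⟨i, j, _, hc, rfl⟩, Units.ext e, fun k => ⟨i, j, _, hc, F27.pw i j _ k⟩⟩

theorem dim27 : DIM := fun N c n => by
  classical
  refine (Submodule.finrank_mono (MvPolynomial.restrictTotalDegree_le_restrictDegree _ ℂ n)).trans ?_
  let s : Set (Vr c →₀ ℕ) := {m | ∀ i, m i ≤ n}
  let f : s → Fin N × Fin N → Fin (n + 1) := fun m e =>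
    if h : c e.1 = c e.2 then ⟨m.1 ⟨e, h⟩, Nat.lt_succ_of_le (m.2 _)⟩ else 0
  have inj : Function.Injective f := fun m m' h => Subtype.ext (Finsupp.ext fun w => by
    simpa [f, w.2] using congrFun h w.1)
  have := Finite.of_injective f inj
  change Module.finrank ℂ (MvPolynomial.restrictSupport ℂ s) ≤ _
  rw [Module.finrank_eq_nat_card_basis (MvPolynomial.basisRestrictSupport ℂ s)]
  simpa [sq] using Nat.card_le_card_of_injective f inj

end Vale.Agent.P283R.Sp
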