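import Vale.Agent.P283R.Sp.St
import Vale.Agent.P287D.Iso.Bas

/-!
# P283R, block SP: the boundary is fixed
-/

open Set

noncomputable section

namespace Vale.Agent.P283R.Sp

open Vale.Agent.P287D Vale.Agent.P283M Sl MvPolynomial

namespace F15

variable {N : ℕ} {c : Fin N → ℕ} {g h : Matrix (Fin N) (Fin N) ℂ}

/-- the translation -/
def sa (c : Fin N → ℕ) (g h : Matrix (Fin N) (Fin N) ℂ) : BlockPoly c →ₐ[ℂ] BlockPoly c :=
  aeval fun e => (g.map C * blockVar c * h.map C : Matrix _ _ (BlockPoly c)) e.1.1 e.1.2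

theorem blk_mul {R : Type} [CommRing R] {M M' : Matrix (Fin N) (Fin N) R}
    (a : ∀ i j, c i ≠ c j → M i j = 0) (b : ∀ i j, c i ≠ c j → M' i j = 0) :
    ∀ i j, c i ≠ c j → (M * M') i j = 0 := fun i j e => by
  rw [Matrix.mul_apply]
  refine Finset.sum_eq_zero fun k _ => ?_
  by_cases x : c i = c k
  · rw [b k j (x ▸ e), mul_zero]
  · rw [a i k x, zero_mul]

theorem blk_one : Block c 1 := fun _ _ e => Matrix.one_apply_ne fun x => e (x ▸ rfl)

theorem blk_iff : Block c g ↔ Commute (Matrix.diagonal fun i => (c i : ℂ)) g := by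
  refine ⟨fun a => Matrix.ext fun i j => ?_, fun a i j e => ?_⟩
  · rw [Matrix.diagonal_mul, Matrix.mul_diagonal]
    by_cases x : c i = c j
    · rw [x, mul_comm]
    · rw [a i j x, mul_zero, zero_mul]
  · have := congrFun (congrFun a.eq i) j
    rw [Matrix.diagonal_mul, Matrix.mul_diagonal, mul_comm, ← sub_eq_zero, ← mul_sub] at this
    exact (mul_eq_zero.1 this).resolve_right fun x => e (by exact_mod_cast sub_eq_zero.1 x)

theorem blk_inv {g : GL (Fin N) ℂ} (a : Block c g) : Block c (g⁻¹ : GL (Fin N) ℂ) :=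
  blk_iff.2 (blk_iff.1 a).units_inv_right

theorem sa_bv (a : Block c g) (b : Block c h) :
    (blockVar c).map (sa c g h) = g.map C * blockVar c * h.map C := Matrix.ext fun i j => by
  by_cases e : c i = c j
  · rw [Matrix.map_apply, blockVar, dif_pos e, sa, aeval_X]
  · rw [Matrix.map_apply, blockVar, dif_neg e, map_zero]
    refine (blk_mul (blk_mul (fun i j e => ?_) fun i j e => dif_neg e) (fun i j e => ?_) i j e).symm
    · rw [Matrix.map_apply, a i j e, map_zero]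
    · rw [Matrix.map_apply, b i j e, map_zero]

theorem sa_c (m : Matrix (Fin N) (Fin N) ℂ) : (m.map C).map (sa c g h) = m.map C :=
  Matrix.ext fun i j => (sa c g h).commutes (m i j)

theorem sa_sa (a : Block c g) (b : Block c h) (g' h' : Matrix (Fin N) (Fin N) ℂ)
    (p : BlockPoly c) : sa c g h (sa c g' h' p) = sa c (g' * g) (h * h') p := by
  refine DFunLike.congr_fun (f := (sa c g h).comp (sa c g' h')) (algHom_ext fun e => ?_) p
  rw [AlgHom.comp_apply, sa.eq_1 c g', sa.eq_1 c (g' * g), aeval_X, aeval_X]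
  refine (Matrix.map_apply (f := sa c g h)).symm.trans (congrFun (congrFun ?_ _) _)
  rw [Matrix.map_mul, Matrix.map_mul, sa_c, sa_c, sa_bv a b, Matrix.map_mul, Matrix.map_mul]
  simp only [Matrix.mul_assoc]
  rfl

theorem sa_one (p : BlockPoly c) : sa c 1 1 p = p := by
  refine DFunLike.congr_fun (g := AlgHom.id ℂ _) (algHom_ext fun e => ?_) p
  rw [sa, aeval_X, Matrix.map_one _ C_0 C_1, Matrix.one_mul, Matrix.mul_one, blockVar, dif_pos e.2]
  rfl

/-- the translation is an automorphism -/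
def se {g h : GL (Fin N) ℂ} (a : Block c g) (b : Block c h) : BlockPoly c ≃ₐ[ℂ] BlockPoly c :=
  AlgEquiv.ofAlgHom (sa c g h) (sa c (g⁻¹ : GL (Fin N) ℂ) (h⁻¹ : GL (Fin N) ℂ))
    (AlgHom.ext fun p => by
      rw [AlgHom.comp_apply, sa_sa a b, Units.inv_mul, Units.mul_inv, sa_one]; rfl)
    (AlgHom.ext fun p => by
      rw [AlgHom.comp_apply, sa_sa (blk_inv a) (blk_inv b), Units.inv_mul, Units.mul_inv, sa_one]
      rfl)

/-- the translation of rational functions -/
def mv {g h : GL (Fin N) ℂ} (a : Block c g) (b : Block c h) : LL c ≃ₐ[ℂ] LL c :=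
  IsFractionRing.algEquivOfAlgEquiv (se a b)

variable {g h : GL (Fin N) ℂ}

theorem mv_al (a : Block c g) (b : Block c h) (p : BlockPoly c) :
    mv a b (al c p) = al c (sa c g h p) :=
  IsFractionRing.algEquivOfAlgEquiv_algebraMap (se a b) p

theorem al_ne {q : BlockPoly c} (q0 : q ≠ 0) : al c q ≠ 0 :=
  (map_ne_zero_iff _ (IsFractionRing.injective (BlockPoly c) (LL c))).2 q0

theorem sh_iff (a : Block c g) (b : Block c h) {x x' : LL c} : Shifted g h x x' ↔ x' = mv a b x := by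
  refine ⟨fun ⟨p, q, ⟨_, e⟩, q1, e'⟩ => ?_, ?_⟩
  · refine mul_right_cancel₀ (al_ne q1) (e'.trans ?_)
    exact ((mv_al a b p).symm.trans (congrArg _ e.symm)).trans
      ((map_mul _ _ _).trans (congrArg _ (mv_al a b q)))
  · rintro rfl
    obtain ⟨p, q, q0, rfl⟩ := IsFractionRing.div_surjective (A := BlockPoly c) x
    have q1 := nonZeroDivisors.ne_zero q0
    have e := div_mul_cancel₀ (al c p) (al_ne q1)
    refine ⟨p, q, ⟨q1, e⟩, (map_ne_zero_iff _ (se a b).injective).2 q1, ?_⟩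
    exact ((congrArg _ (mv_al a b q).symm).trans (map_mul _ _ _).symm).trans
      ((congrArg _ e).trans (mv_al a b p))

theorem mv_mv {g' h' : GL (Fin N) ℂ} (a : Block c g) (b : Block c h) (a' : Block c g')
    (b' : Block c h') (a'' : Block c (g' * g : GL (Fin N) ℂ)) (b'' : Block c (h * h' : GL (Fin N) ℂ))
    (x : LL c) : mv a b (mv a' b' x) = mv a'' b'' x := by
  obtain ⟨p, q, -, rfl⟩ := IsFractionRing.div_surjective (A := BlockPoly c) x
  have k : ∀ p, mv a b (mv a' b' (al c p)) = mv a'' b'' (al c p) := fun p => by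
    rw [mv_al, mv_al, mv_al, sa_sa a b, Units.val_mul, Units.val_mul]
  rw [map_div₀, map_div₀, map_div₀]
  exact congrArg₂ (· / ·) (k p) (k q)

theorem b1 : Block c (1 : GL (Fin N) ℂ) := blk_one

theorem mv_one (a : Block c (1 : GL (Fin N) ℂ)) (x : LL c) : mv a a x = x := by
  obtain ⟨p, q, -, rfl⟩ := IsFractionRing.div_surjective (A := BlockPoly c) x
  have k : ∀ p, mv a a (al c p) = al c p := fun p => by rw [mv_al, Units.val_one, sa_one]
  rw [map_div₀]
  exact congrArg₂ (· / ·) (k p) (k q)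

theorem se_del (a : Block c g) :
    se a b1 (del c) = C (g : Matrix (Fin N) (Fin N) ℂ).det * del c := by
  show sa c g (1 : GL (Fin N) ℂ) _ = _
  rw [del, AlgHom.map_det, AlgHom.mapMatrix_apply, sa_bv a b1, Units.val_one,
    Matrix.map_one _ C_0 C_1, Matrix.mul_one, Matrix.det_mul, RingHom.map_det]
  rfl

variable {K : Type} [Field K] [Algebra ℂ K] {H : Subgroup (GL (Fin N) ℂ)} {ι : K →ₐ[ℂ] LL c}

theorem ex (s : Sph H ι) (a : Block c g) (x : K) : ∃ y, ι y = mv a b1 (ι x) :=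
  (s.fix _).2 fun h m => (sh_iff b1 (s.blk h m)).2 (by
    have e := (sh_iff b1 (s.blk h m)).1 ((s.fix _).1 ⟨x, rfl⟩ h m)
    rw [mv_mv b1 (s.blk h m) a b1 (by rwa [mul_one]) (by rw [mul_one]; exact s.blk h m)]
    conv_lhs => rw [e]
    rw [mv_mv a b1 b1 (s.blk h m) (by rwa [one_mul]) (by rw [one_mul]; exact s.blk h m)]
    simp only [mul_one, one_mul])

/-- the automorphism of the field of invariants -/
theorem aut (s : Sph H ι) (a : Block c g) : ∃ τ : K ≃ₐ[ℂ] K, ∀ x, ι (τ x) = mv a b1 (ι x) := by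
  choose f hf using ex s a
  have i := ι.toRingHom.injective
  let τ : K →ₐ[ℂ] K :=
    { toFun := f
      map_one' := i ((hf _).trans (by simp))
      map_mul' := fun x y => i ((hf _).trans (by simp [hf]))
      map_zero' := i ((hf _).trans (by simp))
      map_add' := fun x y => i ((hf _).trans (by simp [hf]))
      commutes' := fun x => i ((hf _).trans (by simp)) }
  refine ⟨AlgEquiv.ofBijective τ ⟨τ.toRingHom.injective, fun y => ?_⟩, hf⟩
  obtain ⟨x, hx⟩ := ex s (blk_inv a) y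
  refine ⟨x, i ((hf x).trans ?_)⟩
  rw [hx, mv_mv a b1 (blk_inv a) b1 (by rw [inv_mul_cancel]; exact b1) (by rw [mul_one]; exact b1)]
  simp only [inv_mul_cancel, mul_one]
  exact mv_one _ _

/-- the open orbit is stable -/
theorem ovr (a : Block c g) {τ : K ≃ₐ[ℂ] K} (hτ : ∀ x, ι (τ x) = mv a b1 (ι x)) {E E' : Pl K}
    (r : ∀ x, x ∈ E.ring ↔ τ x ∈ E'.ring) (v : ∃ p, Prime p ∧ ¬ p ∣ del c ∧ Over ι p E') :
    ∃ p, Prime p ∧ ¬ p ∣ del c ∧ Over ι p E := by
  obtain ⟨p, p1, p2, p3⟩ := v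
  obtain ⟨q, rfl⟩ := (se a b1).surjective p
  have dv : ∀ s, se a b1 q ∣ se a b1 s ↔ q ∣ s := fun s => map_dvd_iff (se a b1)
  refine ⟨q, (MulEquiv.prime_iff (se a b1)).1 p1, fun x => p2 ?_, fun x => ?_⟩
  · have := (dv _).2 x
    rw [se_del] at this
    exact (IsUnit.dvd_mul_left ((Matrix.isUnits_det_units g).map C)).1 this
  · rw [r, p3, hτ]
    refine ⟨fun ⟨u, s, h1, h2⟩ => ?_, fun ⟨u, s, h1, h2⟩ =>
      ⟨se a b1 u, se a b1 s, fun y => h1 ((dv s).1 y), ?_⟩⟩
    · obtain ⟨u, rfl⟩ := (se a b1).surjective u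
      obtain ⟨s, rfl⟩ := (se a b1).surjective s
      refine ⟨u, s, fun y => h1 ((dv s).2 y), (mv a b1).injective ?_⟩
      rw [map_mul, mv_al, mv_al]
      exact h2
    · have := congrArg (mv a b1) h2
      rwa [map_mul, mv_al, mv_al] at this

end F15

open F15 in
/-- **FXD** -/
theorem fxd15 (dv : DIV) (va : VA2) : FXD := by
  intro N c K _ _ H ι s T t E hE g hg x x' hx
  have : Finite ↥(T \ Vt ι T) := va N c K H ι s T t
  obtain ⟨a, r⟩ := dv N c g hg
  obtain ⟨u, hu, rfl, -⟩ := r (Nat.card (Equiv.Perm ↥(T \ Vt ι T))) Nat.card_pos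
  have b := (dv N c u hu).1
  obtain ⟨τ, hτ⟩ := aut s b
  have k : ∀ E : ↥(T \ Vt ι T), ∃ E' : ↥(T \ Vt ι T), ∀ x, x ∈ E.1.ring ↔ τ x ∈ E'.1.ring :=
    fun E => by
      obtain ⟨E', h1, h2⟩ := t.act u b E E.2.1
      have h3 := fun x => h2 x (τ x) ((sh_iff b b1).2 (hτ x))
      exact ⟨⟨E', h1, fun v => E.2.2 ⟨E.2.1, ovr b hτ h3 v.2⟩⟩, h3⟩
  choose π hπ using k
  have i : Function.Injective π := fun E₁ E₂ e =>
    Subtype.ext (Pl.ext' (ValuationSubring.ext _ _ fun x => by rw [hπ E₁, hπ E₂, e]))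
  let σ : Equiv.Perm ↥(T \ Vt ι T) := Equiv.ofBijective π i.bijective_of_finite
  have o : ∀ (E : ↥(T \ Vt ι T)) x, (π E).1.ord (τ x) = E.1.ord x := fun E x => by
    have h := Semi.of_alg τ
    have e : (π E).1 = h.pl E := Pl.ext' (ValuationSubring.ext _ _ fun y => by
      obtain ⟨y, rfl⟩ := τ.surjective y
      exact (hπ E y).symm.trans h.mem_pl.symm)
    rw [e]
    exact h.ord_pl E x
  have p : ∀ n : ℕ, ∃ bn : Block c (u ^ n : GL (Fin N) ℂ), ∀ (E : ↥(T \ Vt ι T)) x,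
      ι ((τ ^ n) x) = mv bn b1 (ι x) ∧ ((σ ^ n) E).1.ord ((τ ^ n) x) = E.1.ord x := fun n => by
    induction n with
    | zero =>
      simp only [pow_zero]
      exact ⟨b1, fun E x => ⟨(mv_one _ _).symm, rfl⟩⟩
    | succ n ih =>
      obtain ⟨bn, ih⟩ := ih
      have bm : Block c (u ^ n * u : GL (Fin N) ℂ) := blk_mul bn b
      rw [pow_succ u, pow_succ' τ, pow_succ' σ]
      refine ⟨bm, fun E x => ⟨?_, (o _ _).trans (ih E x).2⟩⟩
      rw [AlgEquiv.mul_apply, hτ, (ih E x).1, mv_mv b b1 bn b1 bm (by rw [mul_one]; exact b1)]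
      simp only [mul_one]
  obtain ⟨bn, q⟩ := p (Nat.card (Equiv.Perm ↥(T \ Vt ι T)))
  obtain ⟨q1, q2⟩ := q ⟨E, hE⟩ x
  rw [pow_card_eq_one'] at q2
  obtain rfl : x' = _ := ι.toRingHom.injective (((sh_iff bn b1).1 hx).trans q1.symm)
  exact q2.symm

end Vale.Agent.P283R.Sp
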