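import Vale.Agent.P283R.Sp.St
import Vale.Agent.P283R.Sg.Top20
import Vale.Agent.P283R.Sg.Out11

/-!
# P283R, block SP: from the tier to the schemes
-/

open Set CategoryTheory AlgebraicGeometry

noncomputable section

namespace Vale.Agent.P283R.Sp

open Vale.Agent.P287D Sl Sl.Var Sg.T20

/-- **DVS**: the prime divisors of a spherical variety -/
def DVS : Prop := ∀ (X : Var) (d N : ℕ) (U : X.X.Opens) (x : Pt X.X), 1 ≤ d →
  dimension X.str = d → x.In U → Spherical N U → ∃ (c : Fin N → ℕ) (H : Subgroup (GL (Fin N) ℂ))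
    (ι : X.K →ₐ[ℂ] LL c), Sph H ι ∧ Dvs ι (pls (X := X.o) U)

theorem cm_pq {X : Var} {k : ℕ} (r : Fin k → X.PrimeDiv) (m : Fin k → ℤ) (E : X.PrimeDiv) :
    cm (fun i => Gl.pq (X := X.o) (r i)) m (Gl.pq (X := X.o) E) =
      comb (fun i => Finsupp.single (r i) 1) m E := by
  classical
  refine Finset.sum_congr rfl fun i _ => congrArg _ ?_
  rw [Finsupp.single_apply]
  exact if_congr (pq_inj (X := X.o)).eq_iff rfl rfl

/-- **SPH** from the divisors -/
theorem sph_of (dv : DVS) (h : OUT) : SPH := by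
  intro X Z d N f ω B z V hd a b ct zV sp
  obtain ⟨_, ⟨U, hU, rfl⟩, zU, le⟩ :=
    Z.X.isBasis_affineOpens.exists_subset_of_mem_open (show z ∈ (V : Set Z.X) from zV) V.isOpen
  have le' : ∀ x : Pt X.X, x.In (pre f U) → x.In (pre f V) := fun x h => le h
  obtain ⟨x₀, hx₀⟩ := ct.2.2.1.surj z
  replace hx₀ : Pt.In x₀ (pre f U) := show f x₀ ∈ U from hx₀ ▸ zU
  obtain ⟨c, H, ι, s, ds⟩ := dv X d N _ x₀ hd a (le' _ hx₀) sp
  obtain ⟨n, rfl⟩ : ∃ n, d = n + 1 := ⟨d - 1, by omega⟩
  have hK := P283M.Br.ffd X.o _ a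
  obtain ⟨j, -, fr⟩ := P283M.Br.frm X.o _ hK ω b
  have f0 := P283R.Br.form_fin hK fr
  obtain ⟨k, n', r', -, rT, hn, g, spn⟩ := h N c _ H ι s _ (pls (X := X.o) (pre f U)) ds
    (image_mono fun E h => le' E.1 h) (((Sg.out X _ x₀ hx₀).image (Gl.pq (X := X.o))).subset (by
      rintro _ ⟨⟨E, -, rfl⟩, c⟩
      exact ⟨E, fun w => c ⟨E, w, rfl⟩, rfl⟩))
  choose r _ er using rT
  obtain rfl : r' = fun i => Gl.pq (X := X.o) (r i) := funext fun i => (er i).symm
  have es : (fun m => (Sc (pls (X := X.o) (pre f U))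
      (cm (fun i => Gl.pq (X := X.o) (r i)) m) : Set X.K)) =
        fun m => sections (pre f U) (comb (fun i => Finsupp.single (r i) 1) m) :=
    funext fun m => Set.ext fun φ => imp_congr_right fun _ => forall_mem_image.trans
      (forall_congr' fun E => imp_congr_right fun _ => iff_of_eq (congrArg (0 ≤ ·)
        (congrArg₂ (· + ·) (Gl.pq_ord E φ).symm (cm_pq (X := X) r m E))))
  have sq : ∀ (B : X.QDiv) (q : ℕ), (∀ E, ∃ m : ℤ, q * B.coeff E = m) →
      InSpan (pre f U) (fun i => Finsupp.single (r i) 1) fun E => q * logCan ω B E :=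
    fun B q hq => by
      choose c hc using hq
      obtain ⟨m, φ, φ0, e⟩ := spn (Function.extend (Gl.pq (X := X.o))
        (fun E => q * formOrd ω (RingEquiv.refl X.K) E + c E) 0)
        (fn (X := X.o) (f0.union B.support.finite_toSet) fun E e => by
          replace e := ((pq_inj (X := X.o)).extend_apply _ _ E).symm.trans_ne e
          by_contra w
          have w1 : formOrd ω (RingEquiv.refl X.K) E = 0 := not_not.1 fun a => w (.inl a)
          have w2 := hc E
          rw [show B.coeff E = 0 from Finsupp.notMem_support_iff.1 fun a => w (.inr a),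
            mul_zero] at w2
          exact e (by simp only [w1, mul_zero, zero_add]; exact_mod_cast w2.symm))
      refine ⟨m, φ, φ0, fun E w => ?_⟩
      have k := (((pq_inj (X := X.o)).extend_apply _ _ E).symm.trans (e _ ⟨E, le' _ w, rfl⟩)).trans
        (congrArg₂ (· + ·) (Gl.pq_ord (X := X.o) E φ).symm (cm_pq (X := X) r m E))
      simp only [logCan, mul_add, hc]
      exact_mod_cast k
  refine ⟨k, n', U, _, hn, hU, zU, es ▸ g, sq B, .inr ?_⟩
  simpa using sq 0 1 fun E => ⟨0, by simp [QDiv.coeff]⟩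

end Vale.Agent.P283R.Sp
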