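import Vale.Agent.P283R.Sp.St

/-!
# P283R, block SP, row GM: the generators
-/

open Set
open Vale.Agent.P297Z

noncomputable section

namespace Vale.Agent.P283R.Sp

open Vale.Agent.P287D Vale.Agent.P283M Sl

namespace G8

variable {N k : ℕ} {c : Fin N → ℕ} {K : Type} [Field K] [Algebra ℂ K]

theorem dd_deg (i j : Fin N) (p : BlockPoly c) : (dd c i j p).totalDegree ≤ p.totalDegree := by
  conv_lhs => rw [p.as_sum, map_sum]
  refine MvPolynomial.totalDegree_finsetSum_le fun m hm => ?_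
  rw [dd, MvPolynomial.mkDerivation_monomial]
  refine (MvPolynomial.totalDegree_smul_le _ _).trans
    (MvPolynomial.totalDegree_finsetSum_le fun w hw => ?_)
  refine le_trans ?_ (MvPolynomial.le_totalDegree hm)
  have e : m = (m - Finsupp.single w 1) + Finsupp.single w 1 :=
    (tsub_add_cancel_of_le (Finsupp.single_le_iff.2
      (Nat.pos_of_ne_zero (Finsupp.mem_support_iff.1 hw)))).symm
  have e2 : (m.sum fun _ e => e) = ((m - Finsupp.single w 1).sum fun _ => id) + 1 := by
    conv_lhs => rw [e, Finsupp.sum_add_index' (fun _ => rfl) fun _ _ _ => rfl,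
      Finsupp.sum_single_index rfl]
    rfl
  rw [e2]
  refine (MvPolynomial.totalDegree_mul _ _).trans
    (add_le_add (MvPolynomial.totalDegree_monomial_le _ _) ?_)
  split_ifs
  · exact (MvPolynomial.totalDegree_X _).le
  · simp

theorem cm_add (r : Fin k → Pl K) (m m' : Fin k → ℤ) (E : Pl K) :
    cm r (m + m') E = cm r m E + cm r m' E := by
  simp only [cm, Pi.add_apply, add_mul, Finset.sum_add_distrib]

theorem cm_zero (r : Fin k → Pl K) (E : Pl K) : cm r 0 E = 0 := by simp [cm]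

theorem cm_not {r : Fin k → Pl K} {E : Pl K} (h : ¬ ∃ i, r i = E) (m : Fin k → ℤ) :
    cm r m E = 0 :=
  Finset.sum_eq_zero fun i _ => by rw [if_neg fun e => h ⟨i, e⟩, mul_zero]

theorem cm_r {r : Fin k → Pl K} (h : Function.Injective r) (m : Fin k → ℤ) (i : Fin k) :
    cm r m (r i) = m i := by
  rw [cm, Finset.sum_eq_single i (fun j _ e => by rw [if_neg (h.ne e), mul_zero])
    fun a => (a (Finset.mem_univ _)).elim, if_pos rfl, mul_one]

theorem sc_mul {T : Set (Pl K)} {r : Fin k → Pl K} {m m' : Fin k → ℤ} {a b : K}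
    (h : a ∈ Sc T (cm r m)) (h' : b ∈ Sc T (cm r m')) : a * b ∈ Sc T (cm r (m + m')) :=
  fun z E e => by
    have a0 := left_ne_zero_of_mul z
    have b0 := right_ne_zero_of_mul z
    rw [Pl.ord_mul _ a0 b0, cm_add]
    linarith [h a0 E e, h' b0 E e]

/-- a multiplicative family contains the monomials -/
theorem mon_ind {R M J : Type} [CommRing R] [AddCommMonoid M] [Fintype J] {s : J → R} {a : J → M}
    (Q : M → R → Prop) (one : Q 0 1) (mul : ∀ m m' x x', Q m x → Q m' x' → Q (m + m') (x * x'))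
    (h : ∀ j, Q (a j) (s j)) (e : J → ℕ) : Q (∑ j, e j • a j) (∏ j, s j ^ e j) := by
  classical
  induction (Finset.univ : Finset J) using Finset.induction_on with
  | empty => simpa using one
  | insert j t hj ih =>
    rw [Finset.sum_insert hj, Finset.prod_insert hj]
    refine mul _ _ _ _ ?_ ih
    induction e j with
    | zero => simpa using one
    | succ n ih' => rw [succ_nsmul, pow_succ]; exact mul _ _ _ _ ih' (h j)

theorem tw_add {f : Pl K → BlockPoly c} (f0 : ∀ E, f E ≠ 0) (s : Finset (Pl K))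
    (m m' : Pl K → ℤ) : tw f s (fun E => m E + m' E) = tw f s m * tw f s m' := by
  rw [tw, tw, tw, ← Finset.prod_mul_distrib]
  exact Finset.prod_congr rfl fun E _ => zpow_add₀
    ((map_ne_zero_iff _ (IsFractionRing.injective _ _)).2 (f0 E)) _ _

theorem tw_ne {f : Pl K → BlockPoly c} (f0 : ∀ E, f E ≠ 0) (s : Finset (Pl K))
    (m : Pl K → ℤ) : tw f s m ≠ 0 := Finset.prod_ne_zero_iff.2 fun E _ => zpow_ne_zero _
  ((map_ne_zero_iff _ (IsFractionRing.injective _ _)).2 (f0 E))

theorem tw_zero (f : Pl K → BlockPoly c) {s : Finset (Pl K)} {m : Pl K → ℤ}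
    (h : ∀ E ∈ s, m E = 0) : tw f s m = 1 :=
  Finset.prod_eq_one fun E e => by rw [h E e, zpow_zero]

end G8

open G8 in
/-- **GM** -/
theorem gm (ext : EXT) (une : UNE) (crl : CRL) (dim : DIM) (rgs : RGS) (stb : STB) (hwv : HWV)
    (cnt : CNT) (unt : UNT) (lei : LEI) : GM := by
  intro N c K _ _ H ι T V f h k r ⟨ri, re⟩
  classical
  obtain ⟨D, hD⟩ := ext N c
  obtain ⟨c1, c2, c3⟩ := cnt N c K H ι T V f h
  obtain ⟨u, u1, u2⟩ := unt N c K H ι T V f h
  have f0 : ∀ E, f E ≠ 0 := fun E => (h.sqf E).ne_zero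
  let s := c1.toFinset
  have hs : ∀ E, E ∈ s ↔ E ∈ V ∧ Hi (f E) := fun E => c1.mem_toFinset
  have rT : ∀ i, r i ∈ T := fun i => ((re _).1 ⟨i, rfl⟩).1
  have rs : ∀ i, r i ∈ V → r i ∈ s := fun i v => (hs _).2 ⟨v, ((re _).1 ⟨i, rfl⟩).2 v⟩
  have sr : ∀ E ∈ s, ∃ i, r i = E := fun E e =>
    (re E).2 ⟨h.sub ((hs E).1 e).1, fun _ => ((hs E).1 e).2⟩
  have nh : ∀ E ∈ V, ¬ Hi (f E) → ¬ ∃ i, r i = E := fun E v n e => n (((re E).1 e).2 v)
  have sp : ∀ m, Spp V s (cm r m) := fun m => ⟨fun E e => ((hs E).1 e).1, fun E v n =>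
    cm_not (nh E v fun a => n ((hs E).2 ⟨v, a⟩)) m⟩
  let θ : (Fin k → ℤ) → K →ₗ[ℂ] LL c := fun m =>
    LinearMap.mulRight ℂ (tw f s (cm r m)) ∘ₗ ι.toLinearMap
  have θe : ∀ m φ, θ m φ = ι φ * tw f s (cm r m) := fun _ _ => rfl
  have θi : ∀ m, Function.Injective (θ m) := fun m a b e =>
    ι.injective (mul_right_cancel₀ (tw_ne f0 s _) e)
  have θm : ∀ m m' a b, θ (m + m') (a * b) = θ m a * θ m' b := fun m m' a b => by
    rw [θe, θe, θe, map_mul, funext (cm_add r m m'), tw_add f0]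
    ring
  have θ1 : θ 0 1 = 1 := by rw [θe, map_one, one_mul, tw_zero f fun E _ => cm_zero r E]
  have one : ∀ i, (1 : K) ∈ Sc T (cm r (Pi.single i 1)) := fun i _ E _ => by
    rw [Pl.ord_one, zero_add]
    refine Finset.sum_nonneg fun j _ => mul_nonneg ?_ (by split_ifs <;> simp)
    rw [Pi.single_apply]
    split_ifs <;> simp
  let U : Fin k → Submodule ℂ (LL c) := fun i => SS ι T f s (cm r (Pi.single i 1)) ⊓
    (MvPolynomial.restrictTotalDegree (Vr c) ℂ (2 * N ^ 2)).map (al c).toLinearMap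
  have fd : ∀ i, Module.Finite ℂ (U i) := fun i => Submodule.finiteDimensional_inf_right _ _
  have rk : ∀ i, Module.finrank ℂ (U i) ≤ (2 * N ^ 2 + 1) ^ N ^ 2 := fun i =>
    ((Submodule.finrank_mono inf_le_right).trans (Submodule.finrank_map_le _ _)).trans (dim N c _)
  have us : ∀ i a b, c a = c b → ∀ x ∈ U i, D a b x ∈ U i := fun i a b e x hx => by
    refine ⟨stb N c K H ι T V f h D hD s _ (sp _) a b e x hx.1, ?_⟩
    obtain ⟨p, hp, rfl⟩ := hx.2
    exact ⟨_, (MvPolynomial.mem_restrictTotalDegree _ _ _).2 ((dd_deg a b p).trans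
      ((MvPolynomial.mem_restrictTotalDegree _ _ _).1 hp)), (hD a b p).symm⟩
  let β := fun i => Module.finBasis ℂ (U i)
  have βs : ∀ i, Submodule.span ℂ (range fun l => (β i l : LL c)) = U i := fun i => by
    conv_rhs => rw [← Submodule.map_subtype_top (U i), ← (β i).span_eq, Submodule.map_span,
      ← range_comp]
    rfl
  choose g g1 g2 using fun i l => Submodule.mem_map.1 (β i l).2.1
  let J := Fin k ⊕ ((Σ i : {i // r i ∈ V}, Fin (Module.finrank ℂ (U i))) ⊕ Fin (2 * N))
  let σ : J → K := Sum.elim (fun _ => 1) (Sum.elim (fun x => g x.1 x.2) u)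
  let a : J → Fin k → ℤ := Sum.elim (fun i => Pi.single i 1)
    (Sum.elim (fun x => Pi.single x.1.1 1) fun j i => -(r i).ord (u j))
  have σs : ∀ j, σ j ∈ Sc T (cm r (a j)) := by
    rintro (i | x | j)
    · exact one i
    · exact g1 x.1 x.2
    · intro _ E e
      by_cases z : ∃ i, r i = E
      · obtain ⟨i, rfl⟩ := z
        rw [cm_r ri]
        exact (add_neg_cancel _).ge
      · rw [cm_not z, add_zero]
        by_cases v : E ∈ V
        · exact ((u1 j).2 E v fun n => z ((re E).2 ⟨e, fun _ => n⟩)).ge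
        · exact (z ((re E).2 ⟨e, fun n => (v n).elim⟩)).elim
  let S : J → LL c := fun j => θ (a j) (σ j)
  have ub : ∀ i : {i // r i ∈ V}, ∀ x ∈ U i, ∀ j, a j = Pi.single i.1 1 →
      x ∈ Submodule.span ℂ (S '' {i | a i = a j}) := fun i x hx j e => by
    rw [← βs] at hx
    refine Submodule.span_mono ?_ hx
    rintro _ ⟨l, rfl⟩
    exact ⟨.inr (.inl ⟨i, l⟩), e.symm, g2 i l⟩
  have Ss : ∀ x y, c x = c y → ∀ j, D x y (S j) ∈ Submodule.span ℂ (S '' {i | a i = a j}) := by
    rintro x y e (i | z | j)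
    · by_cases v : r i ∈ V
      · refine ub ⟨i, v⟩ _ (us i x y e _ ⟨⟨1, one i, rfl⟩, f (r i),
          (MvPolynomial.mem_restrictTotalDegree _ _ _).2 (c3 _ ((hs _).1 (rs i v)).2), ?_⟩) _ rfl
        show al c (f (r i)) = ι 1 * tw f s (cm r (Pi.single i 1))
        rw [map_one, one_mul, tw, Finset.prod_eq_single (r i) (fun E b n => ?_)
          fun n => (n (rs i v)).elim, cm_r ri, Pi.single_eq_same, zpow_one]
        obtain ⟨i', rfl⟩ := sr E b
        rw [cm_r ri, Pi.single_eq_of_ne fun w => n (congrArg r w), zpow_zero]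
      · have : S (.inl i) = 1 := by
          show ι 1 * tw f s (cm r (Pi.single i 1)) = 1
          rw [map_one, one_mul, tw_zero f fun E b => ?_]
          obtain ⟨i', rfl⟩ := sr E b
          rw [cm_r ri, Pi.single_eq_of_ne fun w : i' = i => v (w ▸ ((hs _).1 b).1)]
        rw [this, Derivation.map_one_eq_zero]
        exact zero_mem _
    · refine ub z.1 _ (us _ x y e _ ?_) _ rfl
      rw [show S (.inr (.inl z)) = β z.1 z.2 from g2 z.1 z.2]
      exact (β z.1 z.2).2
    · obtain ⟨w, w1, w2⟩ := h.fac (u j) (u1 j).1 s (sp 0).1 fun E v n =>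
        (u1 j).2 E v fun b => n ((hs E).2 ⟨v, b⟩)
      have : S (.inr (.inr j)) = w := by
        show ι (u j) * tw f s (cm r fun i => -(r i).ord (u j)) = w
        rw [w2, mul_assoc, ← tw_add f0, tw_zero f fun E b => ?_, mul_one]
        obtain ⟨i', rfl⟩ := sr E b
        rw [cm_r ri, add_neg_cancel]
      obtain ⟨b, hb⟩ := (une N c D hD w w1).2 x y e
      rw [this, hb]
      exact Submodule.smul_mem _ _ (Submodule.subset_span ⟨_, rfl, this⟩)
  have mm : ∀ m, (Submodule.span ℂ (mons σ a m)).map (θ m) = Submodule.span ℂ (mons S a m) :=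
    fun m => by
      have k1 : ∀ e : J → ℕ, θ (∑ j, e j • a j) (∏ j, σ j ^ e j) = ∏ j, S j ^ e j := fun e => by
        have := mon_ind (s := fun j => (σ j, S j)) (a := a) (fun m x => θ m x.1 = x.2) θ1
          (fun m m' x x' b b' => by rw [Prod.fst_mul, Prod.snd_mul, θm, b, b']) (fun _ => rfl) e
        simpa only [Prod.fst_prod, Prod.snd_prod, Prod.pow_fst, Prod.pow_snd] using this
      rw [Submodule.map_span]
      congr 1
      ext x
      constructor
      · rintro ⟨_, ⟨e, rfl, rfl⟩, rfl⟩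
        exact ⟨e, rfl, k1 e⟩
      · rintro ⟨e, rfl, rfl⟩
        exact ⟨_, ⟨e, rfl, rfl⟩, k1 e⟩
  refine ⟨J, inferInstance, σ, a, ?_, fun m => le_antisymm ?_ (Submodule.span_le.2 ?_)⟩
  · have k1 : Fintype.card {i // r i ∈ V} ≤ 2 * N ^ 2 := by
      refine le_trans ?_ c2
      rw [Set.ncard_eq_toFinset_card _ c1, ← Fintype.card_coe]
      exact Fintype.card_le_of_injective (fun i => (⟨r i, rs i i.2⟩ : s)) fun i i' e =>
        Subtype.ext (ri (congrArg Subtype.val e))
    have k2 := Finset.sum_le_card_nsmul Finset.univ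
      (fun i : {i // r i ∈ V} => Module.finrank ℂ (U i)) _ fun i _ => rk i
    rw [Finset.card_univ, smul_eq_mul] at k2
    have k3 := Nat.mul_le_mul_right ((2 * N ^ 2 + 1) ^ N ^ 2) k1
    simp only [J, Fintype.card_sum, Fintype.card_sigma, Fintype.card_fin, ll]
    omega
  · rw [← Submodule.map_le_map_iff_of_injective (θi m)]
    refine crl N c D hD _ _ (stb N c K H ι T V f h D hD s _ (sp m)) (fun x y e => ?_)
      (rgs N c K H ι T V f h s _ (sp m)).1 ?_
    · rw [mm]
      exact lei _ _ J S a _ (Ss x y e) m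
    rintro _ ⟨φ, hφ, rfl⟩ x0 hx
    have φ0 : φ ≠ 0 := fun z => x0 (by rw [z, map_zero])
    obtain ⟨b, e, rfl⟩ := u2 φ ⟨φ0, fun E v n => by
      have := hwv N c K H ι T V f h D hD s _ (sp m) φ hφ φ0 hx E v n
      rwa [cm_not (nh E v n), add_zero] at this⟩
    have b0 : b ≠ 0 := by rintro rfl; exact φ0 (zero_smul _ _)
    have k1 : ∀ i, 0 ≤ ∑ j, e j * (r i).ord (u j) + m i := fun i => by
      have := hφ φ0 _ (rT i)
      rw [cm_r ri, Pl.ord_smul _ b0, Pl.ord_prod _ _ fun j _ => pow_ne_zero _ (u1 j).1] at this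
      simpa only [Pl.ord_pow] using this
    refine Submodule.mem_map_of_mem (Submodule.smul_mem _ _ (Submodule.subset_span
      ⟨Sum.elim (fun i => (∑ j, e j * (r i).ord (u j) + m i).toNat) (Sum.elim 0 e), ?_, ?_⟩))
    · funext i
      simp only [J, a, Fintype.sum_sum_type, Sum.elim_inl, Sum.elim_inr,
        Finset.sum_apply, Pi.smul_apply, Pi.zero_apply, zero_smul, Finset.sum_const_zero, zero_add]
      simp only [nsmul_eq_mul, mul_neg, Finset.sum_neg_distrib]
      rw [Finset.sum_eq_single i (fun j _ n => by rw [Pi.single_eq_of_ne n.symm, mul_zero])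
        fun n => (n (Finset.mem_univ _)).elim, Pi.single_eq_same, mul_one,
        Int.toNat_of_nonneg (k1 i)]
      ring
    · simp [J, σ, Fintype.prod_sum_type]
  · rintro _ ⟨e, rfl, rfl⟩
    exact mon_ind (fun m x => x ∈ Sc T (cm r m))
      (fun _ E _ => by rw [Pl.ord_one, cm_zero, add_zero]) (fun _ _ _ _ => sc_mul) σs e

end Vale.Agent.P283R.Sp
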