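import Vale.Agent.P283R.Sl.Gn

/-!
# P283R, block SP: generators of a graded ring from complete reducibility
-/

set_option linter.all false

open Set

noncomputable section

namespace Vale.Agent.P283R.Sp.G38

variable {K : Type} [Field K] [Algebra ℂ K] {k : ℕ}

/-- products of elements `(deg j, x)` with `x ∈ V j` -/
def Mo {L : Type} [Monoid L] {ι : Type} (deg : ι → Fin k → ℤ) (V : ι → Set L) :
    Submonoid (Multiplicative (Fin k → ℤ) × L) :=
  Submonoid.closure {p | ∃ j, ∃ x ∈ V j, p = (Multiplicative.ofAdd (deg j), x)}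

theorem mo_gen {L : Type} [Monoid L] {ι : Type} (deg : ι → Fin k → ℤ) (V : ι → Set L) (j : ι)
    {x : L} (hx : x ∈ V j) : (Multiplicative.ofAdd (deg j), x) ∈ Mo deg V :=
  Submonoid.subset_closure ⟨j, x, hx, rfl⟩

/-- monomials -/
theorem mo_prod {L : Type} [CommMonoid L] {ι : Type} [Fintype ι] (deg : ι → Fin k → ℤ)
    (V : ι → Set L) (x : ι → L) (hx : ∀ j, x j ∈ V j) (n : ι → ℕ) :
    (Multiplicative.ofAdd (∑ j, n j • deg j), ∏ j, x j ^ n j) ∈ Mo deg V := by
  have e : (Multiplicative.ofAdd (∑ j, n j • deg j), ∏ j, x j ^ n j) =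
      ∏ j, (Multiplicative.ofAdd (deg j), x j) ^ n j := by
    ext
    · simp [Prod.fst_prod, ofAdd_sum, ofAdd_nsmul]
    · simp [Prod.snd_prod]
  rw [e]
  exact prod_mem fun j _ => pow_mem (mo_gen deg V j (hx j)) _

open MvPolynomial in
/-- a graded ring which is spanned by products of elements of finite dimensional spaces -/
theorem gg_span (A : (Fin k → ℤ) → Submodule ℂ K) (A1 : 1 ∈ A 0)
    (Am : ∀ m m', ∀ x ∈ A m, ∀ y ∈ A m', x * y ∈ A (m + m'))
    {ι : Type} [Fintype ι] (deg : ι → Fin k → ℤ) (V : ι → Submodule ℂ K)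
    (hf : ∀ j, FiniteDimensional ℂ (V j)) (hV : ∀ j, V j ≤ A (deg j))
    (h : ∀ m, A m ≤ Submodule.span ℂ
      {x | (Multiplicative.ofAdd m, x) ∈ Mo deg fun j => (V j : Set K)})
    (N : ℕ) (hN : ∑ j, Module.finrank ℂ (V j) ≤ N) : Sl.GradedGen N fun m => (A m : Set K) := by
  classical
  let σ := (j : ι) × Fin (Module.finrank ℂ (V j))
  obtain ⟨e⟩ : Nonempty (σ ↪ Fin N) := by
    apply Function.Embedding.nonempty_of_card_le
    simpa [σ] using hN
  let b := fun j => Module.finBasis ℂ (V j)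
  let s : Fin N → K := Function.extend e (fun p : σ => (b p.1 p.2 : K)) 0
  let a : Fin N → Fin k → ℤ := Function.extend e (fun p : σ => deg p.1) 0
  have sa : ∀ j, s j ∈ A (a j) := fun j => by
    by_cases hj : ∃ p, e p = j
    · obtain ⟨p, rfl⟩ := hj
      simp only [s, a, e.injective.extend_apply]
      exact hV _ (b p.1 p.2).2
    · simp only [s, Function.extend_apply' _ _ _ hj]
      exact zero_mem _
  let π : Sl.Poly N →ₐ[ℂ] Sl.Laurent K k := aeval fun j => .single (a j) (s j)
  have hπ : ∀ j, π (X j) = .single (a j) (s j) := aeval_X _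
  refine ⟨s, a, π, hπ, fun F => ⟨?_, fun hF => ?_⟩⟩
  · rintro ⟨p, rfl⟩
    induction p using induction_on with
    | C r =>
      intro m
      rw [C_eq_smul_one, map_smul, map_one, AddMonoidAlgebra.one_def, AddMonoidAlgebra.smul_single,
        AddMonoidAlgebra.coeff_single, Finsupp.single_apply]
      split_ifs with z
      · subst z
        exact Submodule.smul_mem _ _ A1
      · exact zero_mem _
    | add p q hp hq => intro m; rw [map_add]; exact add_mem (hp m) (hq m)
    | mul_X p j hp =>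
      intro m
      rw [map_mul, hπ, AddMonoidAlgebra.coeff_mul_single_apply]
      have := Am _ _ _ (hp (m + -a j)) _ (sa j)
      rwa [neg_add_cancel_right] at this
  · have m0 : ∀ j, ∀ x ∈ V j, AddMonoidAlgebra.single (deg j) x ∈ π.range := fun j x hx => by
      have e1 : x = ∑ i, (b j).repr ⟨x, hx⟩ i • (b j i : K) := by
        have := congrArg Subtype.val ((b j).sum_repr ⟨x, hx⟩)
        simp only [AddSubmonoidClass.coe_finset_sum, SetLike.val_smul] at this
        exact this.symm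
      have key : ∀ t : Finset (Fin (Module.finrank ℂ (V j))), AddMonoidAlgebra.single (deg j)
          (∑ i ∈ t, (b j).repr ⟨x, hx⟩ i • (b j i : K)) ∈ π.range := fun t => by
        induction t using Finset.induction_on with
        | empty => rw [Finset.sum_empty, AddMonoidAlgebra.single_zero]; exact zero_mem _
        | insert i t hi ih =>
          rw [Finset.sum_insert hi, AddMonoidAlgebra.single_add, ← AddMonoidAlgebra.smul_single]
          refine add_mem (Subalgebra.smul_mem _ (π.mem_range.2 ⟨X (e ⟨j, i⟩), ?_⟩) _) ih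
          rw [hπ]
          simp only [s, a, e.injective.extend_apply]
      rw [e1]
      exact key _
    have m1 : ∀ p ∈ Mo deg fun j => (V j : Set K),
        AddMonoidAlgebra.single p.1.toAdd p.2 ∈ π.range := fun p x => by
      induction x using Submonoid.closure_induction with
      | mem p hp =>
        obtain ⟨j, x, hx, rfl⟩ := hp
        exact m0 j x hx
      | one => exact one_mem _
      | mul p q _ _ hp hq =>
        have := mul_mem hp hq
        rwa [AddMonoidAlgebra.single_mul_single] at this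
    have m2 : ∀ m, ∀ φ ∈ Submodule.span ℂ
        {x | (Multiplicative.ofAdd m, x) ∈ Mo deg fun j => (V j : Set K)},
        AddMonoidAlgebra.single m φ ∈ π.range := fun m φ x => by
      induction x using Submodule.span_induction with
      | mem x hx => exact m1 _ hx
      | zero => rw [AddMonoidAlgebra.single_zero]; exact zero_mem _
      | add x y _ _ hx hy => rw [AddMonoidAlgebra.single_add]; exact add_mem hx hy
      | smul r x _ hx => rw [← AddMonoidAlgebra.smul_single]; exact Subalgebra.smul_mem _ hx r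
    show F ∈ π.range
    rw [← AddMonoidAlgebra.sum_coeff_single F]
    exact sum_mem fun m _ => m2 m _ (h m (hF m))

variable {L : Type} [Field L] [Algebra ℂ L]

/-- the span of the products of degree `m` -/
def Sm {ι : Type} (deg : ι → Fin k → ℤ) (V : ι → Submodule ℂ L) (m : Fin k → ℤ) :
    Submodule ℂ L :=
  Submodule.span ℂ {x | (Multiplicative.ofAdd m, x) ∈ Mo deg fun j => (V j : Set L)}

theorem sm_mul {ι : Type} (deg : ι → Fin k → ℤ) (V : ι → Submodule ℂ L) {m m' : Fin k → ℤ}
    {x y : L} (hx : x ∈ Sm deg V m) (hy : y ∈ Sm deg V m') : x * y ∈ Sm deg V (m + m') := by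
  induction hx using Submodule.span_induction with
  | mem x hx =>
    induction hy using Submodule.span_induction with
    | mem y hy =>
      have := (Mo deg fun j => (V j : Set L)).mul_mem hx hy
      exact Submodule.subset_span this
    | zero => rw [mul_zero]; exact zero_mem _
    | add y z _ _ hy hz => rw [mul_add]; exact add_mem hy hz
    | smul r y _ hy => rw [mul_smul_comm]; exact Submodule.smul_mem _ _ hy
  | zero => rw [zero_mul]; exact zero_mem _
  | add x z _ _ hx hz => rw [add_mul]; exact add_mem hx hz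
  | smul r x _ hx => rw [smul_mul_assoc]; exact Submodule.smul_mem _ _ hx

/-- the spans of products are stable under a derivation which keeps the `V j` -/
theorem sm_der {ι : Type} (deg : ι → Fin k → ℤ) (V : ι → Submodule ℂ L) (D : L →ₗ[ℂ] L)
    (hD : ∀ x y, D (x * y) = D x * y + x * D y) (hV : ∀ j, ∀ x ∈ V j, D x ∈ V j)
    (m : Fin k → ℤ) : ∀ x ∈ Sm deg V m, D x ∈ Sm deg V m := by
  have key : ∀ p ∈ Mo deg fun j => (V j : Set L), D p.2 ∈ Sm deg V p.1.toAdd := fun p x => by
    induction x using Submonoid.closure_induction with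
    | mem p hp =>
      obtain ⟨j, x, hx, rfl⟩ := hp
      exact Submodule.subset_span (mo_gen deg _ j (hV j x hx))
    | one =>
      have h1 := hD 1 1
      simp only [mul_one, one_mul] at h1
      have h2 : D 1 = 0 := left_eq_add.1 h1
      rw [Prod.snd_one, h2]
      exact zero_mem _
    | mul p q hp' hq' hp hq =>
      rw [Prod.snd_mul, hD]
      have a : p.2 ∈ Sm deg V p.1.toAdd := Submodule.subset_span hp'
      have b : q.2 ∈ Sm deg V q.1.toAdd := Submodule.subset_span hq'
      rw [Prod.fst_mul, toAdd_mul]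
      exact add_mem (sm_mul deg V hp b) (sm_mul deg V a hq)
  intro x hx
  induction hx using Submodule.span_induction with
  | mem x hx => exact key (Multiplicative.ofAdd m, x) hx
  | zero => rw [map_zero]; exact zero_mem _
  | add x y _ _ hx hy => rw [map_add]; exact add_mem hx hy
  | smul r x _ hx => rw [map_smul]; exact Submodule.smul_mem _ _ hx

/-- monomials lie in the spans -/
theorem sm_prod {ι : Type} [Fintype ι] (deg : ι → Fin k → ℤ) (V : ι → Submodule ℂ L) (x : ι → L)
    (hx : ∀ j, x j ∈ V j) (n : ι → ℕ) (c : ℂ) :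
    c • ∏ j, x j ^ n j ∈ Sm deg V (∑ j, n j • deg j) :=
  Submodule.smul_mem _ _ (Submodule.subset_span (mo_prod deg _ x hx n))

/-- transport along `φ ↦ i φ * F m` -/
theorem gg_up (i : K →ₐ[ℂ] L) (F : (Fin k → ℤ) → L) (F0 : ∀ m, F m ≠ 0)
    (Fa : ∀ m m', F (m + m') = F m * F m') (A : (Fin k → ℤ) → Submodule ℂ K) (A1 : 1 ∈ A 0)
    (Am : ∀ m m', ∀ x ∈ A m, ∀ y ∈ A m', x * y ∈ A (m + m'))
    {ι : Type} [Fintype ι] (deg : ι → Fin k → ℤ) (V : ι → Submodule ℂ L)
    (hf : ∀ j, FiniteDimensional ℂ (V j))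
    (hV : ∀ j, ∀ x ∈ V j, ∃ φ ∈ A (deg j), x = i φ * F (deg j))
    (h : ∀ m, ∀ φ ∈ A m, i φ * F m ∈ Sm deg V m)
    (N : ℕ) (hN : ∑ j, Module.finrank ℂ (V j) ≤ N) : Sl.GradedGen N fun m => (A m : Set K) := by
  let T : (Fin k → ℤ) → K →ₗ[ℂ] L := fun m => LinearMap.mulRight ℂ (F m) ∘ₗ i.toLinearMap
  have Ta : ∀ m φ, T m φ = i φ * F m := fun _ _ => rfl
  have Ti : ∀ m, Function.Injective (T m) := fun m a b e =>
    i.toRingHom.injective (mul_right_cancel₀ (F0 m) e)
  have F1 : F 0 = 1 := by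
    have := Fa 0 0
    rw [add_zero] at this
    exact (mul_eq_left₀ (F0 0)).1 this.symm
  let V' : ι → Submodule ℂ K := fun j => (V j).comap (T (deg j))
  have res : ∀ j, ∃ g : V' j →ₗ[ℂ] V j, Function.Injective g := fun j =>
    ⟨(T (deg j)).restrict fun _ h => h, fun a b e =>
      Subtype.ext (Ti _ (congrArg Subtype.val e))⟩
  refine gg_span A A1 Am deg V' (fun j => ?_) (fun j φ hφ => ?_) (fun m φ hφ => ?_) N
    (le_trans (Finset.sum_le_sum fun j _ => ?_) hN)
  · obtain ⟨g, hg⟩ := res j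
    exact FiniteDimensional.of_injective g hg
  · obtain ⟨ψ, hψ, e⟩ := hV j _ hφ
    rwa [Ti _ (e.trans (Ta _ _).symm)]
  · have m1 : ∀ p ∈ Mo deg fun j => (V j : Set L), ∃ ψ,
        (p.1, ψ) ∈ (Mo deg fun j => (V' j : Set K)) ∧ T p.1.toAdd ψ = p.2 := fun p x => by
      induction x using Submonoid.closure_induction with
      | mem p hp =>
        obtain ⟨j, x, hx, rfl⟩ := hp
        obtain ⟨ψ, -, e⟩ := hV j x hx
        refine ⟨ψ, mo_gen deg _ j ?_, e.symm⟩
        show T (deg j) ψ ∈ V j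
        rwa [Ta, ← e]
      | one => exact ⟨1, one_mem _, by rw [Ta, map_one, one_mul]; exact F1⟩
      | mul p q _ _ hp hq =>
        obtain ⟨a, ha, ea⟩ := hp
        obtain ⟨b, hb, eb⟩ := hq
        refine ⟨a * b, mul_mem ha hb, ?_⟩
        rw [Prod.snd_mul, ← ea, ← eb, Ta, Ta, Ta, Prod.fst_mul, toAdd_mul, Fa, map_mul]
        ring
    have m2 : Sm deg V m ≤ (Sm deg V' m).map (T m) := Submodule.span_le.2 fun x hx => by
      obtain ⟨ψ, a, b⟩ := m1 _ hx
      exact ⟨ψ, Submodule.subset_span a, b⟩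
    obtain ⟨ψ, a, b⟩ := m2 (h m φ hφ)
    rwa [← Ti m (b.trans (Ta _ _).symm)]
  · obtain ⟨g, hg⟩ := res j
    exact LinearMap.finrank_le_finrank_of_injective hg

/-- **GEN**: complete reducibility and the form of the highest weight vectors give generators -/
theorem gen (i : K →ₐ[ℂ] L) (F : (Fin k → ℤ) → L) (F0 : ∀ m, F m ≠ 0)
    (Fa : ∀ m m', F (m + m') = F m * F m') (A : (Fin k → ℤ) → Submodule ℂ K) (A1 : 1 ∈ A 0)
    (Am : ∀ m m', ∀ x ∈ A m, ∀ y ∈ A m', x * y ∈ A (m + m'))
    {J : Type} (D : J → L →ₗ[ℂ] L) (hD : ∀ a x y, D a (x * y) = D a x * y + x * D a y)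
    (Hw : L → Prop)
    (cr : ∀ m (W : Submodule ℂ L), (∀ a, ∀ x ∈ W, D a x ∈ W) →
      (∀ φ ∈ A m, φ ≠ 0 → Hw (i φ * F m) → i φ * F m ∈ W) → ∀ φ ∈ A m, i φ * F m ∈ W)
    {ι : Type} [Fintype ι] (deg : ι → Fin k → ℤ) (V : ι → Submodule ℂ L)
    (hf : ∀ j, FiniteDimensional ℂ (V j)) (hs : ∀ j a, ∀ x ∈ V j, D a x ∈ V j)
    (hV : ∀ j, ∀ x ∈ V j, ∃ φ ∈ A (deg j), x = i φ * F (deg j))
    (x : ι → L) (hx : ∀ j, x j ∈ V j)
    (hw : ∀ m, ∀ φ ∈ A m, φ ≠ 0 → Hw (i φ * F m) → ∃ (c : ℂ) (n : ι → ℕ),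
      m = ∑ j, n j • deg j ∧ i φ * F m = c • ∏ j, x j ^ n j)
    (N : ℕ) (hN : ∑ j, Module.finrank ℂ (V j) ≤ N) : Sl.GradedGen N fun m => (A m : Set K) := by
  refine gg_up i F F0 Fa A A1 Am deg V hf hV (fun m => cr m _
    (fun a => sm_der deg V (D a) (hD a) (fun j => hs j a) m) fun φ hφ φ0 h => ?_) N hN
  obtain ⟨c, n, e, e'⟩ := hw m φ hφ φ0 h
  rw [e', e]
  exact sm_prod deg V x hx n c

end Vale.Agent.P283R.Sp.G38
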