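import Vale.Agent.P283R.Sp.St
import Vale.Agent.P283R.Sp.Gn38

/-!
# P283R, block SP: spans of monomials
-/

open Set

noncomputable section

namespace Vale.Agent.P283R.Sp

open Vale.Agent.P287D Vale.Agent.P283M Vale.Agent.P297Z Sl

namespace L29

section

variable {R M J : Type} [CommRing R] [Algebra ℂ R] [AddCommMonoid M] [Fintype J] {s : J → R}
  {a : J → M} {m m' : M} {x y : R}

theorem sp_one : (1 : R) ∈ Submodule.span ℂ (mons s a 0) :=
  Submodule.subset_span ⟨0, by simp, by simp⟩

theorem sp_gen (j : J) : s j ∈ Submodule.span ℂ (mons s a (a j)) := by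
  classical
  refine Submodule.subset_span ⟨Pi.single j 1, ?_, ?_⟩
  · rw [Finset.sum_eq_single j (fun i _ z => by rw [Pi.single_eq_of_ne z, zero_smul])
      fun z => (z (Finset.mem_univ _)).elim, Pi.single_eq_same, one_smul]
  · rw [Finset.prod_eq_single j (fun i _ z => by rw [Pi.single_eq_of_ne z, pow_zero])
      fun z => (z (Finset.mem_univ _)).elim, Pi.single_eq_same, pow_one]

theorem sp_mul (hx : x ∈ Submodule.span ℂ (mons s a m)) (hy : y ∈ Submodule.span ℂ (mons s a m')) :
    x * y ∈ Submodule.span ℂ (mons s a (m + m')) := by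
  have := Submodule.mul_mem_mul hx hy
  rw [Submodule.span_mul_span] at this
  refine Submodule.span_mono ?_ this
  rintro _ ⟨_, ⟨e, rfl, rfl⟩, _, ⟨e', rfl, rfl⟩, rfl⟩
  exact ⟨e + e', by simp [add_smul, Finset.sum_add_distrib],
    by simp [pow_add, Finset.prod_mul_distrib]⟩

omit [Algebra ℂ R] in
/-- induction on the monomials -/
theorem ind {p : M → R → Prop} (h1 : p 0 1) (hs : ∀ j, p (a j) (s j))
    (hm : ∀ m x m' y, p m x → p m' y → p (m + m') (x * y)) (hx : x ∈ mons s a m) : p m x := by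
  classical
  obtain ⟨e, rfl, rfl⟩ := hx
  have k : ∀ j (n : ℕ), p (n • a j) (s j ^ n) := fun j n => by
    induction n with
    | zero => rwa [zero_smul, pow_zero]
    | succ n ih => rw [succ_nsmul, pow_succ]; exact hm _ _ _ _ ih (hs j)
  induction (Finset.univ : Finset J) using Finset.induction_on with
  | empty => exact h1
  | insert j t hj ih => rw [Finset.sum_insert hj, Finset.prod_insert hj]; exact hm _ _ _ _ (k _ _) ih

end

variable {K : Type} [Field K] [Algebra ℂ K] {k : ℕ} {r : Fin k → Pl K} {T : Set (Pl K)}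

theorem cm_add (m m' : Fin k → ℤ) (E : Pl K) : cm r (m + m') E = cm r m E + cm r m' E := by
  simp only [cm, Pi.add_apply, add_mul, Finset.sum_add_distrib]

theorem cm_zero (E : Pl K) : cm r 0 E = 0 := by simp [cm]

theorem cm_neg (m : Fin k → ℤ) (E : Pl K) : cm r (-m) E = -cm r m E := by
  simp only [cm, Pi.neg_apply, neg_mul, Finset.sum_neg_distrib]

theorem cm_nsmul (n : ℕ) (m : Fin k → ℤ) (E : Pl K) : cm r (n • m) E = n * cm r m E := by
  simp only [cm, Pi.smul_apply, nsmul_eq_mul, mul_assoc, Finset.mul_sum]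

theorem sc_one : (1 : K) ∈ Sc T (cm r 0) := fun _ E _ => by rw [cm_zero, Pl.ord_one, add_zero]

theorem sc_mul {m m' : Fin k → ℤ} {x y : K} (hx : x ∈ Sc T (cm r m)) (hy : y ∈ Sc T (cm r m')) :
    x * y ∈ Sc T (cm r (m + m')) := fun c E e => by
  have x0 := left_ne_zero_of_mul c
  have y0 := right_ne_zero_of_mul c
  have k1 := hx x0 E e
  have k2 := hy y0 E e
  rw [Pl.ord_mul _ x0 y0, cm_add]
  omega

end L29

open L29

/-- **LEI** -/
theorem lei29 : LEI := fun R M J _ _ _ _ s a D h m x hx => by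
  induction hx using Submodule.span_induction with
  | mem x hx =>
    refine (ind (p := fun m x => x ∈ Submodule.span ℂ (mons s a m) ∧
      D x ∈ Submodule.span ℂ (mons s a m)) ⟨sp_one, by rw [D.map_one_eq_zero]; exact zero_mem _⟩
      (fun j => ⟨sp_gen j, Submodule.span_le.2 ?_ (h j)⟩)
      (fun m x m' y u v => ⟨sp_mul u.1 v.1, ?_⟩) hx).2
    · rintro _ ⟨i, e, rfl⟩
      exact (show a i = a j from e) ▸ sp_gen i
    · rw [D.leibniz, smul_eq_mul, smul_eq_mul, mul_comm y]
      exact add_mem (sp_mul u.1 v.2) (sp_mul u.2 v.1)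
  | zero => rw [map_zero]; exact zero_mem _
  | add x y _ _ hx hy => rw [map_add]; exact add_mem hx hy
  | smul c x _ hx => rw [D.map_smul]; exact Submodule.smul_mem _ _ hx

/-- **GA** -/
theorem ga29 : GA := fun K _ _ k n A ⟨J, _, s, a, hn, h⟩ => by
  refine ⟨n, le_rfl, G38.gg_span A (h 0 ▸ sp_one)
    (fun m m' x u y v => h _ ▸ sp_mul (h m ▸ u) (h m' ▸ v)) a (fun j => Submodule.span ℂ {s j})
    (fun _ => inferInstance) (fun j => Submodule.span_le.2 (singleton_subset_iff.2 (h _ ▸ sp_gen j)))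
    (fun m => h m ▸ Submodule.span_mono ?_) n (le_trans ?_ hn)⟩
  · rintro _ ⟨e, rfl, rfl⟩
    exact G38.mo_prod a _ s (fun j => Submodule.mem_span_singleton_self _) e
  · rw [← Finset.card_univ, Finset.card_eq_sum_ones]
    exact Finset.sum_le_sum fun j _ => by
      simpa using finrank_span_le_card (R := ℂ) ({s j} : Set K)

/-- **LOC** -/
theorem loc29 : LOC := fun K _ _ T T' k n r le fin spn ⟨J, _, s, a, hn, h⟩ => by
  classical
  obtain ⟨m0, φ, φ0, hφ⟩ := spn (fun E => if E ∈ T' then 0 else 1)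
    (fin.subset fun E e => ⟨e.1, fun c => e.2 (if_pos c)⟩)
  refine ⟨Option J, inferInstance, fun j => j.elim φ⁻¹ s, fun j => j.elim (-m0) a,
    by rw [Fintype.card_option]; omega, fun m => le_antisymm (fun ψ hψ => ?_)
      (Submodule.span_le.2 fun x hx => ind (p := fun m x => x ∈ Sc T' (cm r m)) sc_one ?_
        (fun _ _ _ _ => sc_mul) hx)⟩
  · rcases eq_or_ne ψ 0 with rfl | ψ0
    · exact zero_mem _
    obtain ⟨N, hN⟩ := (fin.image fun E => (-(E.ord ψ + cm r m E)).toNat).bddAbove
    have u : ψ * φ ^ N ∈ Sc T (cm r (m + N • m0)) := fun _ E e => by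
      have k1 := hφ E e
      rw [Pl.ord_mul _ ψ0 (pow_ne_zero _ φ0), Pl.ord_pow, cm_add, cm_nsmul, add_add_add_comm, ← mul_add,
        ← k1]
      split_ifs with c
      · rw [mul_zero, add_zero]
        exact hψ ψ0 E c
      · have := hN ⟨E, ⟨e, c⟩, rfl⟩
        simp only at this
        omega
    have v : ∀ m, ∀ x ∈ Submodule.span ℂ (mons s a m), x ∈ Submodule.span ℂ
        (mons (fun j : Option J => j.elim φ⁻¹ s) (fun j => j.elim (-m0) a) m) := fun m =>
      Submodule.span_mono fun _ ⟨e, e1, e2⟩ =>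
        ⟨fun j => j.elim 0 e, by simpa using e1, by simpa using e2⟩
    have w : φ⁻¹ ^ N ∈ Submodule.span ℂ
        (mons (fun j : Option J => j.elim φ⁻¹ s) (fun j => j.elim (-m0) a) (N • -m0)) :=
      Submodule.subset_span ⟨fun j => j.elim N 0, by simp, by simp⟩
    have := sp_mul (v _ _ ((h _).le u)) w
    rwa [smul_neg, add_neg_cancel_right, mul_assoc, ← mul_pow, mul_inv_cancel₀ φ0, one_pow,
      mul_one] at this
  · rintro (_ | j)
    · intro _ E e
      have k1 := hφ E (le e)
      rw [if_pos e] at k1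
      simp only [Option.elim]
      rw [Pl.ord_inv, cm_neg]
      omega
    · exact fun c E e => (h _).ge (sp_gen j) c E (le e)

end Vale.Agent.P283R.Sp
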