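import Vale.Agent.P283R.Sp.St

/-!
# P283R, block SP: sections are regular functions; the eigenvectors among them
-/

open Set

noncomputable section

namespace Vale.Agent.P283R.Sp

open Vale.Agent.P287D Vale.Agent.P283M Sl

namespace R95

variable {N : ℕ} {c : Fin N → ℕ} {K : Type} [Field K] [Algebra ℂ K]
  {H : Subgroup (GL (Fin N) ℂ)} {ι : K →ₐ[ℂ] LL c} {T V : Set (Pl K)} {f : Pl K → BlockPoly c}

theorem al_inj : Function.Injective (al c) := IsFractionRing.injective (BlockPoly c) (LL c)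

theorem f_ne (h : Eqn H ι T V f) (E : Pl K) : al c (f E) ≠ 0 :=
  (map_ne_zero_iff _ al_inj).2 (h.sqf E).ne_zero

/-- the factorization of a twisted function -/
theorem fac (h : Eqn H ι T V f) {s : Finset (Pl K)} {m : Pl K → ℤ} (hs : Spp V s m) {φ : K}
    (φ0 : φ ≠ 0) : ∃ (s' : Finset (Pl K)) (n k : ℕ) (p : BlockPoly c), ↑s' ⊆ V ∧
      (∀ E ∈ V, E ∉ s' → E.ord φ + m E = 0) ∧ p ∣ del c ^ k ∧
      al c (del c) ^ n * (ι φ * tw f s m) * al c (∏ E ∈ s', f E ^ (-(E.ord φ + m E)).toNat) =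
        al c (p * ∏ E ∈ s', f E ^ (E.ord φ + m E).toNat) := by
  classical
  have fn : {E ∈ V | E.ord φ ≠ 0}.Finite := (h.fin φ).subset fun E e => ⟨h.sub e.1, e.2⟩
  have sub : ↑(s ∪ fn.toFinset) ⊆ V := fun E e => by
    rcases Finset.mem_union.1 e with e | e
    exacts [hs.1 e, (fn.mem_toFinset.1 e).1]
  have z : ∀ E ∈ V, E ∉ s ∪ fn.toFinset → E.ord φ = 0 := fun E e n => by
    by_contra k
    exact n (Finset.mem_union_right _ (fn.mem_toFinset.2 ⟨e, k⟩))
  obtain ⟨u, ⟨n, k, p, p1, p2⟩, e⟩ := h.fac φ φ0 _ sub z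
  refine ⟨_, n, k, p, sub, fun E e n => by
    rw [z E e n, hs.2 E e fun k => n (Finset.mem_union_left _ k), add_zero], p1, ?_⟩
  have t : tw f s m = tw f (s ∪ fn.toFinset) m := Finset.prod_subset Finset.subset_union_left
    fun E e n => by rw [hs.2 E (sub e) n, zpow_zero]
  rw [e, t, map_mul, ← p2, mul_assoc, mul_assoc, mul_assoc, mul_assoc, map_prod, map_prod, tw, tw,
    ← Finset.prod_mul_distrib, ← Finset.prod_mul_distrib]
  congr 2
  refine Finset.prod_congr rfl fun E _ => ?_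
  rw [map_pow, map_pow, ← zpow_natCast, ← zpow_natCast, ← zpow_add₀ (f_ne h E),
    ← zpow_add₀ (f_ne h E)]
  congr 1
  omega

theorem fac' (h : Eqn H ι T V f) {s : Finset (Pl K)} {m : Pl K → ℤ} (hs : Spp V s m) {φ : K}
    (φ0 : φ ≠ 0) (hφ : φ ∈ Sc T m) : ∃ (s' : Finset (Pl K)) (n k : ℕ) (p : BlockPoly c),
      (∀ E ∈ V, E ∉ s' → E.ord φ + m E = 0) ∧ p ∣ del c ^ k ∧
      al c (del c) ^ n * (ι φ * tw f s m) =
        al c (p * ∏ E ∈ s', f E ^ (E.ord φ + m E).toNat) := by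
  obtain ⟨s', n, k, p, a, b, e, g⟩ := fac h hs φ0
  refine ⟨s', n, k, p, b, e, ?_⟩
  rw [← g, Finset.prod_eq_one, map_one, mul_one]
  intro E hE
  have := hφ φ0 E (h.sub (a hE))
  rw [show (-(E.ord φ + m E)).toNat = 0 by omega, pow_zero]

end R95

open R95

/-- **RGS** -/
theorem rgs95 : RGS := by
  intro N c K _ _ H ι T V f h s m hs
  refine ⟨?_, fun φ φ0 ⟨n', p', e'⟩ E hE => ?_⟩
  · rintro _ ⟨φ, hφ, rfl⟩
    rcases eq_or_ne φ 0 with rfl | φ0
    · exact ⟨0, 0, by simp⟩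
    obtain ⟨s', n, k, p, -, -, e⟩ := fac' h hs φ0 hφ
    exact ⟨n, _, e⟩
  · obtain ⟨s', n, k, p, a, b, d, e⟩ := fac h hs φ0
    by_contra hn
    have m' : E ∈ s' := by
      by_contra k
      exact hn (b E hE k).ge
    have q : del c ^ n * p' * ∏ E ∈ s', f E ^ (-(E.ord φ + m E)).toNat =
        del c ^ n' * (p * ∏ E ∈ s', f E ^ (E.ord φ + m E).toNat) := al_inj (by
      rw [map_mul, map_mul, map_mul _ (del c ^ n'), ← e, ← e', map_pow, map_pow]
      ring)
    have dv : f E ∣ del c ^ n' * (p * ∏ E ∈ s', f E ^ (E.ord φ + m E).toNat) :=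
      q ▸ ((dvd_pow_self _ (by omega)).trans (Finset.dvd_prod_of_mem
        (fun E => f E ^ (-(E.ord φ + m E)).toNat) m')).mul_left _
    refine h.nc E hE (IsRelPrime.isUnit_of_dvd ?_ dv)
    refine (h.cop E).pow_right.mul_right (((h.cop E).pow_right.of_dvd_right d).mul_right
      (IsRelPrime.prod_right fun E' _ => ?_))
    rcases eq_or_ne E E' with rfl | ne
    · rw [show (E.ord φ + m E).toNat = 0 by omega, pow_zero]
      exact isRelPrime_one_right
    · exact (h.cop2 E E' ne).pow_right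

/-- **HWV** -/
theorem hwv95 (hd : DEL) (hf : FAC) : HWV := by
  intro N c K _ _ H ι T V f h D hD s m hs φ hφ φ0 hi E hE nh
  obtain ⟨s', n, k, p, b, d, e⟩ := fac' h hs φ0 hφ
  obtain ⟨d0, d1, -⟩ := hd N c
  by_contra hn
  have m' : E ∈ s' := by
    by_contra k
    exact hn (b E hE k)
  have := hφ φ0 E (h.sub hE)
  have p0 : p * ∏ E ∈ s', f E ^ (E.ord φ + m E).toNat ≠ 0 :=
    mul_ne_zero (ne_zero_of_dvd_ne_zero (pow_ne_zero _ d0) d)
      (Finset.prod_ne_zero_iff.2 fun E _ => pow_ne_zero _ (h.sqf E).ne_zero)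
  refine nh fun i j ij le => ?_
  obtain ⟨a, ha⟩ := hi i j ij le
  refine hf N c i j ij _ _ (a + if i = j then n else 0) p0 (al_inj ?_)
    (((dvd_pow_self _ (by omega)).trans (Finset.dvd_prod_of_mem
      (fun E => f E ^ (E.ord φ + m E).toNat) m')).mul_left _)
  rw [← hD, map_smul, ← e, Derivation.leibniz, ha, Derivation.leibniz_pow, hD, d1 i j ij]
  generalize ι φ * tw f s m = x
  split_ifs
  · cases n
    · simp
    · simp only [smul_eq_mul, Algebra.smul_def, nsmul_eq_mul, map_add, map_natCast,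
        Nat.add_sub_cancel]
      ring
  · simp

end Vale.Agent.P283R.Sp
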