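import Vale.Agent.P283R.Sp.St

/-!
# P283R, block SP: the class group is spanned by the colours and the boundary
-/

open Set

noncomputable section

namespace Vale.Agent.P283R.Sp

open Vale.Agent.P287D Vale.Agent.P283M Sl

namespace S18

variable {N : ℕ} {c : Fin N → ℕ} {K : Type} [Field K] [Algebra ℂ K]

theorem tw_ne {f : Pl K → BlockPoly c} (h : ∀ E, f E ≠ 0) (s : Finset (Pl K)) (m : Pl K → ℤ) :
    tw f s m ≠ 0 :=
  Finset.prod_ne_zero_iff.2 fun E _ => zpow_ne_zero _ fun e =>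
    h E (IsFractionRing.injective (BlockPoly c) (LL c) (e.trans (map_zero _).symm))

theorem cm_self {k : ℕ} {r : Fin k → Pl K} (h : Function.Injective r) (m : Fin k → ℤ)
    (i : Fin k) : cm r m (r i) = m i := by
  unfold cm
  rw [Finset.sum_eq_single i (fun j _ e => by rw [if_neg fun a => e (h a), mul_zero])
    (fun a => (a (Finset.mem_univ i)).elim), if_pos rfl, mul_one]

theorem cm_not {k : ℕ} {r : Fin k → Pl K} (m : Fin k → ℤ) {E : Pl K} (h : ¬ ∃ i, r i = E) :
    cm r m E = 0 :=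
  Finset.sum_eq_zero fun i _ => by rw [if_neg fun a => h ⟨i, a⟩, mul_zero]

/-- an effective divisor moves into the colours and the boundary -/
theorem eff (h1 : EXT) (h2 : CRL) (h3 : STB) (h4 : RGS) (h5 : HWV) {H ι T V f}
    (h : Eqn (c := c) (K := K) H ι T V f) (m : Pl K → ℤ) (m0 : ∀ E, 0 ≤ m E)
    (fin : {E ∈ V | m E ≠ 0}.Finite) :
    ∃ φ : K, φ ≠ 0 ∧ ∀ E ∈ V, ¬ Hi (f E) → E.ord φ + m E = 0 := by
  obtain ⟨D, hD⟩ := h1 N c
  have sp : Spp V fin.toFinset m :=
    ⟨fun E a => (fin.mem_toFinset.1 a).1, fun E a b => by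
      by_contra e
      exact b (fin.mem_toFinset.2 ⟨a, e⟩)⟩
  by_contra n
  have le := h2 N c D hD (SS ι T f fin.toFinset m) ⊥ (h3 N c K H ι T V f h D hD _ m sp)
    (fun i j _ x hx => by rw [(Submodule.mem_bot ℂ).1 hx, map_zero]; exact zero_mem _)
    (h4 N c K H ι T V f h _ m sp).1 (fun x hx x0 hi => by
      obtain ⟨φ, a, rfl⟩ := hx
      have p0 : φ ≠ 0 := fun e => x0 (by rw [e, map_zero])
      exact (n ⟨φ, p0, h5 N c K H ι T V f h D hD _ m sp φ a p0 hi⟩).elim)
  have o : (1 : K) ∈ Sc T m := fun _ E _ => by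
    have := m0 E
    have e : E.ord 1 = 0 := by simp
    omega
  have z := (Submodule.mem_bot ℂ).1 (le (Submodule.mem_map_of_mem o))
  refine tw_ne (fun E => (h.sqf E).ne_zero) fin.toFinset m ?_
  simpa using z

end S18

open S18 in
theorem spn18 (h1 : EXT) (h2 : CRL) (h3 : STB) (h4 : RGS) (h5 : HWV) : SPN := by
  intro N c K _ _ H ι T V f h k r en G fin
  obtain ⟨a, a0, ha⟩ := eff h1 h2 h3 h4 h5 h (fun E => max (G E) 0) (fun E => le_max_right _ _)
    (fin.subset fun E e => ⟨h.sub e.1, fun z => e.2 (by simp [z])⟩)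
  obtain ⟨b, b0, hb⟩ := eff h1 h2 h3 h4 h5 h (fun E => max (-G E) 0) (fun E => le_max_right _ _)
    (fin.subset fun E e => ⟨h.sub e.1, fun z => e.2 (by simp [z])⟩)
  refine ⟨fun i => G (r i) - (r i).ord (b / a), b / a, div_ne_zero b0 a0, fun E e => ?_⟩
  by_cases x : ∃ i, r i = E
  · obtain ⟨i, rfl⟩ := x
    rw [cm_self en.1]
    omega
  · have y : E ∈ V ∧ ¬ Hi (f E) := by
      by_contra z
      exact x ((en.2 E).2 ⟨e, fun v => by_contra fun w => z ⟨v, w⟩⟩)
    have k1 := ha E y.1 y.2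
    have k2 := hb E y.1 y.2
    have k3 : E.ord (b / a) = E.ord b - E.ord a := P297Z.Pl.ord_div E.toPlace b0 a0
    rw [cm_not _ x, k3]
    omega

end Vale.Agent.P283R.Sp
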