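import Vale.Agent.P283R.Sp.St
import Vale.Agent.P283R.Sp.Exp37

/-!
# P283R, block SP: the rows TAY and STB
-/

open Set

noncomputable section

namespace Vale.Agent.P283R.Sp

open Vale.Agent.P287D Vale.Agent.P283M Sl

namespace T37

variable {N : ℕ} {c : Fin N → ℕ}

theorem det_ne (i j : Fin N) {s : ℂ} (hs : s ≠ -1) :
    (1 + Matrix.single j i s : Matrix (Fin N) (Fin N) ℂ).det ≠ 0 := by
  by_cases h : j = i
  · subst h
    have e : (1 + Matrix.single j j s : Matrix (Fin N) (Fin N) ℂ) =
        Matrix.diagonal (Function.update 1 j (1 + s)) := by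
      ext a b
      by_cases hab : a = b
      · subst hab
        by_cases ha : a = j
        · subst ha; simp
        · simp [ha, Ne.symm ha]
      · rw [Matrix.diagonal_apply_ne _ hab, Matrix.add_apply, Matrix.one_apply_ne hab,
          Matrix.single_apply_of_ne, add_zero]
        rintro ⟨rfl, rfl⟩
        exact hab rfl
    rw [e, Matrix.det_diagonal, Finset.prod_update_of_mem (Finset.mem_univ _)]
    simp only [Pi.one_apply, Finset.prod_const_one, mul_one]
    exact fun h0 => hs (by linear_combination h0)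
  · have := Matrix.det_transvection_of_ne j i h s
    rw [Matrix.transvection] at this
    rw [this]
    exact one_ne_zero

theorem sh_tr {i j : Fin N} (h : c i = c j) (s : ℂ) (p : BlockPoly c) :
    shift c (1 + Matrix.single j i s) 1 p = _root_.P283R.Sp.O37.tr (dd c i j) s p := by
  unfold shift _root_.P283R.Sp.O37.tr
  congr 2
  funext e
  rw [Matrix.map_one _ (map_zero _) (map_one _), mul_one, Matrix.map_add _ (map_add _),
    Matrix.map_one _ (map_zero _) (map_one _), add_mul, one_mul, Matrix.add_apply, dd,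
    MvPolynomial.mkDerivation_X, Matrix.map_single]
  congr 1
  · simp [blockVar, e.2]
  · by_cases hj : e.1.1 = j
    · have h1 : c i = c e.1.2 := by rw [h, ← hj, e.2]
      rw [if_pos hj, hj, Matrix.single_mul_apply_same, MvPolynomial.smul_eq_C_mul]
      simp [blockVar, sw, h1]
    · rw [if_neg hj, Matrix.single_mul_apply_of_ne (h := hj), smul_zero]

theorem inf_ne : {s : ℂ | s ≠ -1}.Infinite := (Set.finite_singleton (-1 : ℂ)).infinite_compl

/-- the elements of the one parameter groups -/
def gl (i j : Fin N) {s : ℂ} (hs : s ≠ -1) : GL (Fin N) ℂ :=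
  Matrix.GeneralLinearGroup.mkOfDetNeZero _ (det_ne i j hs)

theorem gl_val (i j : Fin N) {s : ℂ} (hs : s ≠ -1) :
    (gl i j hs : Matrix (Fin N) (Fin N) ℂ) = 1 + Matrix.single j i s := rfl

theorem gl_gen {i j : Fin N} (h : c i = c j) {s : ℂ} (hs : s ≠ -1) : Gen c (gl i j hs) :=
  ⟨i, j, s, h, rfl⟩

theorem blk_one : Block c (1 : Matrix (Fin N) (Fin N) ℂ) := fun i j h =>
  Matrix.one_apply_ne fun e => h (congrArg c e)

theorem gen_blk {g : GL (Fin N) ℂ} (h : Gen c g) : Block c g := by
  obtain ⟨i, j, s, h, e⟩ := h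
  intro a b hab
  rw [e, Matrix.add_apply, blk_one a b hab, Matrix.single_apply_of_ne, add_zero]
  rintro ⟨rfl, rfl⟩
  exact hab h.symm

/-- a space of regular functions that is stable under the group is stable under the vector
fields -/
theorem stb_of (hd : DEL) {D : DD c} (hD : Ex D) (W : Submodule ℂ (LL c)) (rg : ∀ x ∈ W, Reg x)
    (st : ∀ g, Gen c g → ∀ x ∈ W, ∀ x', Shifted g 1 x x' → x' ∈ W) : Stb D W := by
  intro i j h x hx
  obtain ⟨d0, d1, d2⟩ := hd N c
  obtain ⟨n, p, hp⟩ := rg x hx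
  have inj : Function.Injective (al c) := IsFractionRing.injective (BlockPoly c) (LL c)
  have a0 : al c (del c) ≠ 0 := fun e => d0 (inj (e.trans (map_zero _).symm))
  have an : al c (del c) ^ n ≠ 0 := pow_ne_zero _ a0
  let T : BlockPoly c →ₗ[ℂ] LL c :=
    LinearMap.mulRight ℂ (al c (del c) ^ n)⁻¹ ∘ₗ (al c).toLinearMap
  have hT : ∀ q, T q = al c q * (al c (del c) ^ n)⁻¹ := fun _ => rfl
  have k1 : T (dd c i j p) ∈ W := by
    refine _root_.P283R.Sp.O37.stable (dd c i j) T W p _ inf_ne fun s hs => ?_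
    rw [← sh_tr h, ← gl_val i j hs]
    set g := gl i j hs with hg
    have dg : (g : Matrix (Fin N) (Fin N) ℂ).det ≠ 0 := det_ne i j hs
    have e1 : shift c g 1 (del c ^ n) = (g : Matrix (Fin N) (Fin N) ℂ).det ^ n • del c ^ n := by
      have := d2 g 1 (gen_blk (gl_gen h hs)) blk_one
      rw [Matrix.det_one, mul_one] at this
      rw [← smul_pow, ← this]
      exact map_pow _ _ _
    have k2 := st g (gl_gen h hs) x hx
      (((g : Matrix (Fin N) (Fin N) ℂ).det ^ n)⁻¹ • T (shift c g 1 p)) ⟨p, del c ^ n,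
        ⟨pow_ne_zero _ d0, by rw [mul_comm, map_pow]; exact hp⟩, ?_, ?_⟩
    · exact (W.smul_mem_iff (inv_ne_zero (pow_ne_zero _ dg))).1 k2
    · rw [e1]
      exact smul_ne_zero (pow_ne_zero _ dg) (pow_ne_zero _ d0)
    · change _ * al c _ = al c _
      rw [e1, map_smul, map_pow, hT, smul_mul_smul_comm, inv_mul_cancel₀ (pow_ne_zero _ dg),
        one_smul, inv_mul_cancel_right₀ an]
  have e2 : ∃ a : ℂ, D i j (al c (del c) ^ n) = a • al c (del c) ^ n := by
    rw [Derivation.leibniz_pow, hD, d1 i j h]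
    split_ifs
    · rcases n with _ | n
      · exact ⟨0, by simp⟩
      · refine ⟨(n + 1 : ℕ), ?_⟩
        rw [Nat.add_sub_cancel, smul_eq_mul, ← pow_succ, Nat.cast_smul_eq_nsmul]
    · exact ⟨0, by simp⟩
  obtain ⟨a, ha⟩ := e2
  have e3 : D i j x = T (dd c i j p) - a • x := by
    have := congrArg (D i j) hp
    rw [Derivation.leibniz, hD, ha, smul_eq_mul, smul_eq_mul] at this
    rw [hT, ← this, Algebra.smul_def, Algebra.smul_def]
    field_simp
    ring
  rw [e3]
  exact W.sub_mem k1 (W.smul_mem a hx)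

end T37

theorem tay : TAY := fun _ c W st i j h p hp =>
  _root_.P283R.Sp.O37.stable (dd c i j) LinearMap.id W p _ T37.inf_ne fun s hs => by
    rw [← T37.sh_tr h]
    exact st _ (T37.gl_gen h hs) p hp

theorem stb (hd : DEL) (h1 : RGS) (h2 : STG) : STB := fun N c K _ _ H ι T V f e _ hD s m sp =>
  T37.stb_of hd hD _ (h1 N c K H ι T V f e s m sp).1 (h2 N c K H ι T V f e s m sp)

end Vale.Agent.P283R.Sp
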