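import Vale.Agent.P283R.Sp.St

/-!
# P283R, block SP: the units
-/

open Set MvPolynomial

noncomputable section

namespace Vale.Agent.P283R.Sp

open Vale.Agent.P287D Vale.Agent.P283M Sl

namespace U39

variable {N : ℕ} {c : Fin N → ℕ} {p q : BlockPoly c}

theorem dd_X (i j : Fin N) (w : Vr c) :
    dd c i j (X w) = if w.1.1 = j then X (sw c i w) else 0 := mkDerivation_X _ _ _

theorem sw_self (w : Vr c) : sw c w.1.1 w = w := dif_pos w.2

theorem eig_mul {δ : Derivation ℂ (BlockPoly c) (BlockPoly c)} {a b : ℂ} (h : δ p = a • p)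
    (k : δ q = b • q) : δ (p * q) = (a + b) • (p * q) := by
  rw [δ.leibniz, h, k]
  simp only [smul_eq_C_mul, smul_eq_mul, map_add]
  ring

theorem mon_eig (i : Fin N) (d : Vr c →₀ ℕ) :
    ∃ n : ℕ, ∀ r, dd c i i (monomial d r) = (n : ℂ) • monomial d r := by
  induction d using Finsupp.induction_linear with
  | zero => exact ⟨0, fun r => by simp [monomial_zero']⟩
  | add d d' h h' =>
    obtain ⟨n, h⟩ := h
    obtain ⟨n', h'⟩ := h'
    refine ⟨n + n', fun r => ?_⟩
    rw [← mul_one r, ← monomial_mul, eig_mul (h r) (h' 1), Nat.cast_add]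
  | single w k =>
    have x : ∃ n : ℕ, dd c i i (X w) = (n : ℂ) • X w := by
      rw [dd_X]
      split_ifs with e
      · exact ⟨1, by rw [← e, sw_self]; simp⟩
      · exact ⟨0, by simp⟩
    obtain ⟨n, hn⟩ := x
    refine ⟨k * n, fun r => ?_⟩
    rw [← C_mul_X_pow_eq_monomial]
    induction k with
    | zero => simp
    | succ k ih =>
      rw [pow_succ, ← mul_assoc, eig_mul ih hn]
      push_cast
      rw [add_mul, one_mul]

/-- the diagonal weights are natural numbers -/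
theorem nat_eig {i : Fin N} {a : ℂ} (p0 : p ≠ 0) (h : dd c i i p = a • p) : ∃ n : ℕ, a = n := by
  classical
  choose n hn using mon_eig (c := c) i
  obtain ⟨d, hd⟩ := exists_coeff_ne_zero p0
  refine ⟨n d, mul_right_cancel₀ hd ?_⟩
  have k := congrArg (coeff d) h
  conv_lhs at k => rw [p.as_sum, map_sum, coeff_sum]
  simp only [hn, coeff_smul, coeff_monomial, smul_eq_mul, mul_ite, mul_zero, Finset.sum_ite_eq',
    mem_support_iff, ne_eq, hd, not_false_eq_true, if_true] at k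
  exact k.symm

/-- the weights of the roots vanish -/
theorem off (p0 : p ≠ 0) (h : Hi p) {i j : Fin N} (e : c i = c j) (l : j < i) :
    dd c i j p = 0 := by
  have b : ⁅dd c j j, dd c i j⁆ = -dd c i j := derivation_ext fun w => by
    rw [Derivation.commutator_apply, Derivation.neg_apply, dd_X, dd_X]
    split_ifs with z
    · have s : (sw c i w).1.1 = i := by rw [sw, dif_pos (e.trans (z ▸ w.2))]
      rw [dd_X, if_neg (s.trans_ne l.ne'), ← z, sw_self, dd_X, if_pos rfl, zero_sub]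
    · simp
  obtain ⟨a, ha⟩ := h i j e l.le
  obtain ⟨n, hn⟩ := h j j rfl le_rfl
  have k := congrArg (fun δ : Derivation ℂ _ _ => δ p) b
  simp only [Derivation.commutator_apply, Derivation.neg_apply, ha, hn, Derivation.map_smul,
    smul_smul, mul_comm a n, sub_self] at k
  rw [ha]
  exact neg_eq_zero.1 k.symm

/-- the weight of an eigenvector -/
def Wp (p : BlockPoly c) (v : Fin N → ℤ) : Prop := p ≠ 0 ∧
  ∀ i j, c i = c j → j ≤ i → dd c i j p = (if i = j then (v i : ℂ) else 0) • p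

theorem wp_of (p0 : p ≠ 0) (h : Hi p) : ∃ v, Wp p v := by
  choose a ha using fun i => h i i rfl le_rfl
  choose n hn using fun i => nat_eig p0 (ha i)
  refine ⟨fun i => n i, p0, fun i j e l => ?_⟩
  split_ifs with z
  · subst z
    rw [ha, hn, Int.cast_natCast]
  · rw [off p0 h e (lt_of_le_of_ne l (Ne.symm z)), zero_smul]

theorem Wp.mul {v w : Fin N → ℤ} (h : Wp p v) (k : Wp q w) : Wp (p * q) (v + w) :=
  ⟨mul_ne_zero h.1 k.1, fun i j e l => by
    rw [eig_mul (h.2 i j e l) (k.2 i j e l)]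
    split_ifs <;> simp⟩

theorem wp_one : Wp (1 : BlockPoly c) 0 := ⟨one_ne_zero, fun i j _ _ => by simp⟩

variable {x y : LL c} {v w : Fin N → ℤ}

/-- the weight of a rational function -/
def Wl (x : LL c) (v : Fin N → ℤ) : Prop :=
  ∃ p q a b, Wp p a ∧ Wp q b ∧ v = a - b ∧ x * al c q = al c p

theorem Wp.wl (h : Wp p v) : Wl (al c p) v := ⟨p, 1, v, 0, h, wp_one, by simp, by simp⟩

theorem wl_one : Wl (1 : LL c) 0 := by simpa using (wp_one (c := c)).wl

theorem Wl.mul (h : Wl x v) (k : Wl y w) : Wl (x * y) (v + w) := by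
  obtain ⟨p, q, a, b, h1, h2, rfl, h3⟩ := h
  obtain ⟨p', q', a', b', k1, k2, rfl, k3⟩ := k
  exact ⟨_, _, _, _, h1.mul k1, h2.mul k2, by abel, by rw [map_mul, map_mul, ← h3, ← k3]; ring⟩

theorem Wl.inv (h : Wl x v) : Wl x⁻¹ (-v) := by
  obtain ⟨p, q, a, b, h1, h2, rfl, h3⟩ := h
  have x0 : x ≠ 0 := by
    rintro rfl
    exact h1.1 (IsFractionRing.injective _ (LL c) (by simpa using h3.symm))
  exact ⟨q, p, b, a, h2, h1, by abel, by rw [← h3, inv_mul_cancel_left₀ x0]⟩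

theorem Wl.pow (h : Wl x v) (n : ℕ) : Wl (x ^ n) (n • v) := by
  induction n with
  | zero => simpa using wl_one
  | succ n ih => rw [pow_succ, succ_nsmul]; exact ih.mul h

theorem Wl.zpow (h : Wl x v) (n : ℤ) : ∃ w, Wl (x ^ n) w := by
  cases n with
  | ofNat n => exact ⟨_, by simpa using h.pow n⟩
  | negSucc n => exact ⟨_, by rw [zpow_negSucc]; exact (h.pow _).inv⟩

theorem wl_prod {J : Type} (s : Finset J) {x : J → LL c} {v : J → Fin N → ℤ}
    (h : ∀ j ∈ s, Wl (x j) (v j)) : Wl (∏ j ∈ s, x j) (∑ j ∈ s, v j) := by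
  classical
  induction s using Finset.induction_on with
  | empty => simpa using wl_one
  | insert j s hj ih =>
    rw [Finset.prod_insert hj, Finset.sum_insert hj]
    exact (h j (by simp)).mul (ih fun i hi => h i (by simp [hi]))

theorem wl_un (de : DEL) (fa : FAC) (h : Un x) : ∃ v, Wl x v := by
  obtain ⟨n, m, p, d, e⟩ := h
  obtain ⟨d0, d1, -⟩ := de N c
  have k : ∀ n : ℕ, Wp (del c ^ n) (n • fun _ => 1) := fun n => by
    induction n with
    | zero => simpa using wp_one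
    | succ n ih =>
      rw [pow_succ, succ_nsmul]
      exact ih.mul ⟨d0, fun i j e _ => by rw [d1 i j e]; split_ifs <;> simp⟩
  obtain ⟨v, hv⟩ := wp_of (ne_zero_of_dvd_ne_zero (k m).1 d) fun i j e l =>
    fa N c i j e _ p _ (k m).1 ((k m).2 i j e l) d
  exact ⟨_, p, _, v, _, hv, k n, rfl, by rw [map_pow, mul_comm, e]⟩

/-- a sublattice is generated by `2 N` elements as a monoid -/
theorem lat (L : Submodule ℤ (Fin N → ℤ)) : ∃ g : Fin (2 * N) → Fin N → ℤ, (∀ j, g j ∈ L) ∧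
    ∀ v ∈ L, ∃ e : Fin (2 * N) → ℕ, v = ∑ j, e j • g j := by
  classical
  have r : Module.finrank ℤ L ≤ N := by simpa using L.finrank_le
  let b := Module.finBasis ℤ L
  let g : Fin N → L := Function.extend (Fin.castLE r) b 0
  let σ : Fin N ⊕ Fin N ≃ Fin (2 * N) := finSumFinEquiv.trans (finCongr (two_mul N).symm)
  refine ⟨fun j => (Sum.elim g (-g) (σ.symm j) : L), fun j => Subtype.prop _, fun v hv => ?_⟩
  have sp : (⟨v, hv⟩ : L) ∈ Submodule.span ℤ (range g) :=
    Submodule.span_mono (s := range b) (by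
      rintro _ ⟨i, rfl⟩
      exact ⟨_, (Fin.castLE_injective r).extend_apply _ _ i⟩) (b.span_eq.symm ▸ trivial)
  obtain ⟨a, ha⟩ := (Submodule.mem_span_range_iff_exists_fun _).1 sp
  refine ⟨fun j => Sum.elim (fun i => (a i).toNat) (fun i => (-a i).toNat) (σ.symm j), ?_⟩
  rw [← σ.sum_comp]
  simp only [Equiv.symm_apply_apply, Fintype.sum_sum_type, Sum.elim_inl, Sum.elim_inr,
    Pi.neg_apply, Submodule.coe_neg, smul_neg]
  rw [← Finset.sum_add_distrib, show v = ((⟨v, hv⟩ : L) : Fin N → ℤ) from rfl, ← ha,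
    Submodule.coe_sum]
  refine Finset.sum_congr rfl fun i _ => ?_
  rw [← sub_eq_add_neg, ← natCast_zsmul, ← natCast_zsmul, ← sub_smul, Int.toNat_sub_toNat_neg,
    Submodule.coe_smul]

end U39

open U39

/-- **UNT** -/
theorem unt (de : DEL) (fa : FAC) (co : CON) : UNT := fun N c K _ _ H ι T V f h => by
  classical
  have mul : ∀ φ ψ, Cu V f φ → Cu V f ψ → Cu V f (φ * ψ) := fun φ ψ a b =>
    ⟨mul_ne_zero a.1 b.1, fun E e n => by
      rw [P297Z.Pl.ord_mul _ a.1 b.1, a.2 E e n, b.2 E e n, add_zero]⟩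
  have inv : ∀ φ, Cu V f φ → Cu V f φ⁻¹ := fun φ a =>
    ⟨inv_ne_zero a.1, fun E e n => by rw [P297Z.Pl.ord_inv, a.2 E e n, neg_zero]⟩
  have ex : ∀ φ, Cu V f φ → ∃ v, Wl (ι φ) v := fun φ a => by
    have fi : {E ∈ V | E.ord φ ≠ 0}.Finite := (h.fin φ).subset fun E e => ⟨h.sub e.1, e.2⟩
    obtain ⟨u, hu, e⟩ := h.fac φ a.1 fi.toFinset (fun E e => (fi.mem_toFinset.1 e).1)
      fun E e n => by_contra fun z => n (fi.mem_toFinset.2 ⟨e, z⟩)
    obtain ⟨v, hv⟩ := wl_un de fa hu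
    have : ∀ E, ∃ w, E ∈ fi.toFinset → Wl (al c (f E) ^ E.ord φ) w := fun E => by
      by_cases e : E ∈ fi.toFinset
      · obtain ⟨e1, e2⟩ := fi.mem_toFinset.1 e
        obtain ⟨w, hw⟩ := wp_of (h.sqf E).ne_zero (by_contra fun n => e2 (a.2 E e1 n))
        exact (hw.wl.zpow _).imp fun _ k _ => k
      · exact ⟨0, fun k => (e k).elim⟩
    choose w hw using this
    exact ⟨_, e ▸ hv.mul (wl_prod _ hw)⟩
  let L : AddSubgroup (Fin N → ℤ) :=
    { carrier := {v | ∃ φ, Cu V f φ ∧ Wl (ι φ) v}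
      zero_mem' := ⟨1, ⟨one_ne_zero, fun E _ _ => by simp⟩, by simpa using wl_one⟩
      add_mem' := fun ⟨φ, a, b⟩ ⟨ψ, a', b'⟩ => ⟨_, mul φ ψ a a', by rw [map_mul]; exact b.mul b'⟩
      neg_mem' := fun ⟨φ, a, b⟩ => ⟨_, inv φ a, by rw [map_inv₀]; exact b.inv⟩ }
  obtain ⟨g, g1, g2⟩ := lat L.toIntSubmodule
  choose u u1 u2 using g1
  refine ⟨u, u1, fun φ a => ?_⟩
  obtain ⟨v, hv⟩ := ex φ a
  obtain ⟨e, rfl⟩ := g2 v ⟨φ, a, hv⟩
  have n : ∏ j, u j ^ e j ≠ 0 := Finset.prod_ne_zero_iff.2 fun j _ => pow_ne_zero _ (u1 j).1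
  have k := hv.mul (wl_prod Finset.univ fun j _ => (u2 j).pow (e j)).inv
  simp only [← map_pow, ← map_prod, ← map_inv₀, ← map_mul, add_neg_cancel] at k
  obtain ⟨p, q, a, b, h1, h2, z, h3⟩ := k
  obtain rfl : a = b := sub_eq_zero.1 z.symm
  obtain ⟨r, rfl⟩ := co N c K H ι h.sph _ p q h2.1 h3 fun i j e l => by
    rw [h1.2 i j e l, h2.2 i j e l, mul_smul_comm, mul_smul_comm, mul_comm]
  refine ⟨r, e, ?_⟩
  have q0 : al c q ≠ 0 := fun z => h2.1 (IsFractionRing.injective _ (LL c) (by simpa using z))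
  rw [map_smul, Algebra.smul_def, ← ι.commutes] at h3
  rw [Algebra.smul_def, ← ι.toRingHom.injective (mul_right_cancel₀ q0 h3),
    inv_mul_cancel_right₀ n]

end Vale.Agent.P283R.Sp
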