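import Vale.Agent.P283R.Sp.Out
import Vale.Agent.P283R.Sp.Con6
import Vale.Agent.P283R.Sp.Del38
import Vale.Agent.P283R.Sp.Eq22
import Vale.Agent.P283R.Sp.Ext19
import Vale.Agent.P283R.Sp.Fac27
import Vale.Agent.P283R.Sp.Fxd15
import Vale.Agent.P283R.Sp.Lei29
import Vale.Agent.P283R.Sp.Rgs95
import Vale.Agent.P283R.Sp.Spn18
import Vale.Agent.P283R.Sp.Tay37
import Vale.Agent.P283R.Sp.Unt39
import Vale.Agent.P283R.Sp.Gm8
import Vale.Agent.P283R.Sp.Coc59
import Vale.Agent.P283R.Sp.Colw56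
import Vale.Agent.P283R.Sp.E138

/-!
# P283R, block SP: the theorem on the tier from the equations
-/

namespace Vale.Agent.P283R.Sp

theorem stb0 : STB := stb del38 rgs95 (stg59 div27 del38 (coc59 div27) rgs95)

theorem out_of (eqn : EQN) : OUT :=
  out eqn (cnt38 col56) (spn18 ext19 (crl19 del38) stb0 rgs95 (hwv95 del38 fac27))
    (gm ext19 (une19 del38 fac27) (crl19 del38) dim27 rgs95 stb0 (hwv95 del38 fac27) (cnt38 col56)
      (unt del38 fac27 con) lei29) loc29 ga29

end Vale.Agent.P283R.Sp
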