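import Mathlib

/-! Pure algebra for the colour bound of block SP: the degree bound from the differential
equation. -/

open Polynomial

namespace P283R.Sp.O37

/-- a separable solution of `(1 + a s + b s^2) P' = (c + e s) P` has degree at most two -/
theorem deg_le {L : Type*} [Field L] (P : L[X]) (hs : P.Separable) (a b c e : L)
    (h : (1 + C a * X + C b * X ^ 2) * derivative P = (C c + C e * X) * P) : P.natDegree ≤ 2 := by
  have hd : P ∣ (1 + C a * X + C b * X ^ 2) := by
    have : P ∣ (1 + C a * X + C b * X ^ 2) * derivative P := h ▸ Dvd.intro_left _ rfl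
    exact (show IsCoprime P (derivative P) from hs).dvd_of_dvd_mul_right this
  have hn : (1 + C a * X + C b * X ^ 2 : L[X]) ≠ 0 := by
    intro h0
    have := congrArg (fun p : L[X] => p.coeff 0) h0
    simp at this
  refine (natDegree_le_of_dvd hd hn).trans ?_
  compute_degree

/-- the recurrence on the Taylor coefficients gives the degree bound -/
theorem mid {L : Type*} [Field L] [CharZero L] (F : ℕ → L) (P : L[X])
    (hP : ∀ k, (k.factorial : L) * P.coeff k = F k) (hs : P.Separable) (lam a c m : L)
    (hr : ∀ k : ℕ, F (k + 1) = (lam - k * a) * F k + c * k * (m - k + 1) * F (k - 1)) :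
    P.natDegree ≤ 2 := by
  refine deg_le P hs a c lam (c * m) ?_
  have key : ∀ k : ℕ, P.coeff (k + 1) * ((k : L) + 1) =
      (lam - k * a) * P.coeff k + (if k = 0 then 0 else c * (m - k + 1) * P.coeff (k - 1)) := by
    intro k
    have hk : (k.factorial : L) ≠ 0 := Nat.cast_ne_zero.2 k.factorial_ne_zero
    apply mul_left_cancel₀ hk
    have h1 := hr k
    rw [← hP, ← hP, ← hP, Nat.factorial_succ] at h1
    rcases k with _ | k
    · simp at h1 ⊢
      linear_combination h1
    · rw [if_neg k.succ_ne_zero]
      simp only [Nat.add_sub_cancel] at h1 ⊢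
      have h2 : ((k + 1).factorial : L) = ((k : L) + 1) * k.factorial := by
        rw [Nat.factorial_succ]; push_cast; ring
      push_cast at h1 ⊢
      rw [h2] at h1 ⊢
      linear_combination h1
  ext k
  have e1 : (1 + C a * X + C c * X ^ 2) * derivative P =
      derivative P + C a * (X * derivative P) + C c * (X * (X * derivative P)) := by ring
  have e2 : (C lam + C (c * m) * X) * P = C lam * P + C (c * m) * (X * P) := by ring
  rw [e1, e2]
  simp only [coeff_add, coeff_C_mul]
  rcases k with _ | _ | k
  · have := key 0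
    simp [coeff_derivative] at this ⊢
    linear_combination this
  · have := key 1
    simp [coeff_derivative, coeff_X_mul] at this ⊢
    linear_combination this
  · have := key (k + 2)
    rw [if_neg (by omega)] at this
    simp only [coeff_X_mul, coeff_derivative]
    have e3 : k + 2 - 1 = k + 1 := by omega
    rw [e3] at this
    push_cast at this ⊢
    linear_combination this

/-- the recurrence from a derivation `y - sum c_b D_b` that kills the quotients `y^k F / F` -/
theorem recur {R L B : Type*} [CommRing R] [Field L] [Algebra R L] [Fintype B]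
    (y : Derivation R L L) (D : B → Derivation R L L) (c : B → L) (F : L) (hF : F ≠ 0)
    (hd : ∀ k : ℕ, y (y^[k] F / F) = ∑ b, c b * D b (y^[k] F / F)) (u w z : B → L) (m : L)
    (hD : ∀ (b : B) (k : ℕ), D b (y^[k] F) =
      (u b - k * w b) * y^[k] F + z b * k * (m - k + 1) * y^[k - 1] F) :
    ∃ lam a e : L, ∀ k : ℕ,
      y^[k + 1] F = (lam - k * a) * y^[k] F + e * k * (m - k + 1) * y^[k - 1] F := by
  refine ⟨y F / F, ∑ b, c b * w b, ∑ b, c b * z b, fun k => ?_⟩
  have h0 : ∀ b, D b F = u b * F := fun b => by simpa using hD b 0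
  have hq : y^[k] F = F * (y^[k] F / F) := by field_simp
  set q := y^[k] F / F with hqd
  have h1 : y^[k + 1] F = F * y q + q * y F := by
    rw [Function.iterate_succ_apply', hq, Derivation.leibniz]; simp
  have h2 : ∀ b, F * D b q = (-(k * w b)) * y^[k] F + z b * k * (m - k + 1) * y^[k - 1] F := by
    intro b
    have h3 := hD b k
    have h4 : D b (y^[k] F) = F * D b q + q * D b F := by
      conv_lhs => rw [hq]
      rw [Derivation.leibniz]; simp
    rw [h4, h0] at h3
    have h5 : q * (u b * F) = u b * y^[k] F := by rw [hq]; ring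
    linear_combination h3 - h5
  have h6 : F * y q = ∑ b, c b * ((-(k * w b)) * y^[k] F + z b * k * (m - k + 1) * y^[k - 1] F) := by
    rw [hd k, Finset.mul_sum]
    exact Finset.sum_congr rfl fun b _ => by rw [← h2 b]; ring
  have h7 : q * y F = y F / F * y^[k] F := by rw [hqd]; ring
  have h8 : ∑ b, c b * ((-(k * w b)) * y^[k] F + z b * k * (m - k + 1) * y^[k - 1] F) =
      (∑ b, c b * w b) * (-(k * y^[k] F)) + (∑ b, c b * z b) * (k * (m - k + 1) * y^[k - 1] F) := by
    rw [Finset.sum_mul, Finset.sum_mul, ← Finset.sum_add_distrib]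
    exact Finset.sum_congr rfl fun b _ => by ring
  rw [h1, h6, h7, h8]
  ring

/-- `y^3 F = 0` and the raising relation give the weight -/
theorem wt_le {L : Type*} [Field L] [CharZero L] (G : ℕ → L) (h0 : G 0 ≠ 0) (h3 : G 3 = 0)
    (e : L → L) (he : e 0 = 0) (m : L) (hr : ∀ k : ℕ, e (G k) = k * (m - k + 1) * G (k - 1)) :
    m = 0 ∨ m = 1 ∨ m = 2 := by
  by_cases h1 : G 1 = 0
  · have := hr 1
    rw [h1, he] at this
    simp [h0] at this
    exact Or.inl (by linear_combination this)
  by_cases h2 : G 2 = 0
  · have := hr 2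
    rw [h2, he] at this
    simp [h1] at this
    exact Or.inr (Or.inl (by linear_combination this))
  · have := hr 3
    rw [h3, he] at this
    simp [h2] at this
    exact Or.inr (Or.inr (by linear_combination this))

/-- the middle step of the colour bound -/
theorem two {R L B : Type*} [CommRing R] [Field L] [CharZero L] [Algebra R L] [Fintype B]
    (y e : Derivation R L L) (D : B → Derivation R L L) (c : B → L) (F : L) (hF : F ≠ 0)
    (hd : ∀ k : ℕ, y (y^[k] F / F) = ∑ b, c b * D b (y^[k] F / F)) (u w z : B → L) (m : L)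
    (hD : ∀ (b : B) (k : ℕ), D b (y^[k] F) =
      (u b - k * w b) * y^[k] F + z b * k * (m - k + 1) * y^[k - 1] F)
    (he : ∀ k : ℕ, e (y^[k] F) = k * (m - k + 1) * y^[k - 1] F)
    (P : L[X]) (hP : ∀ k, (k.factorial : L) * P.coeff k = y^[k] F) (hs : P.Separable) :
    y^[3] F = 0 ∧ (m = 0 ∨ m = 1 ∨ m = 2) := by
  obtain ⟨lam, a, e', hr⟩ := recur y D c F hF hd u w z m hD
  have h2 := mid (fun k => y^[k] F) P hP hs lam a e' m hr
  have h3 : y^[3] F = 0 := by
    rw [← hP 3, coeff_eq_zero_of_natDegree_lt (by omega), mul_zero]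
  exact ⟨h3, wt_le (fun k => y^[k] F) hF h3 e (map_zero e) m he⟩

end P283R.Sp.O37
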