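import Vale.Agent.P283R.Sp.Mid
import Vale.Agent.P283R.Sp.Eq99
import Vale.Agent.P283R.Sp.Gen20
import Vale.Agent.P283R.Sl.Mb

/-!
# P283R, block SP: bounded klt complements for spherical varieties
-/

namespace Vale.Agent.P283R.Sp

open Sl Sl.Var

theorem sph_va (v1 : VA1) (v2 : VA2) (dv : DVS) : SPH :=
  sph_of dv (out_of (eqn (eq1 del38) (eq2 v1 (e138 ext19)) (fxd15 div27 v2) v2))

theorem ll_mono {N M : ℕ} (h : N ≤ M) : ll N ≤ ll M := by
  unfold ll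
  gcongr
  omega

theorem gen_mono {X Z : Var} {d l l' : ℕ} {f : X.X ⟶ Z.X} {ω : X.Form d} {B : X.QDiv} {z : Pt Z.X}
    (h : Generated l f ω B z) (e : l ≤ l') : Generated l' f ω B z :=
  let ⟨k, n, V, D, a, b⟩ := h
  ⟨k, n, V, D, by omega, b⟩

theorem on_of (h : SPH) (M : ℕ → ℕ) : On fun d _ _ f ω B z => FanoType f ω ∧
    NefOver f (-logCan ω B) ∧ ∃ W, z.In W ∧ ∃ N ≤ M d, Spherical N (pre f W) := by
  intro d hd ε hε R hR
  obtain ⟨n, hn, H⟩ := on_gen' (ll (M d) + 1) d hd ε hε R hR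
  exact ⟨n, hn, fun X Z f ω B z a b c e s t ⟨u, v, W, p, N, le, q⟩ =>
    H X Z f ω B z a b c e s t ⟨u, v, gen_mono (h X Z d N f ω B z W hd a b s p q)
      (Nat.succ_le_succ (ll_mono le))⟩⟩

end Vale.Agent.P283R.Sp
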