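import Vale.Agent.P283R.Sp.St

/-!
# P283R, block SP: the theorem on the tier
-/

open Set

noncomputable section

namespace Vale.Agent.P283R.Sp

open Vale.Agent.P287D

theorem out (eqn : EQN) (cnt : CNT) (spn : SPN) (gm : GM) (loc : LOC) (ga : GA) : OUT := by
  intro N c K _ _ H ι S T T' D le fn
  obtain ⟨f, E⟩ := eqn N c K H ι S T D
  have fi : {x | x ∈ T ∧ (x ∈ Vt ι T → Hi (f x))}.Finite :=
    (E.bdf.union (cnt N c K H ι T _ f E).1).subset fun x h => by
      by_cases w : x ∈ Vt ι T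
      · exact .inr ⟨w, h.2 w⟩
      · exact .inl ⟨h.1, w⟩
  obtain ⟨k, r, a, b⟩ := fi.fin_param
  have en : Enu T (Vt ι T) f r := ⟨a, fun x => Set.ext_iff.1 b x⟩
  have sp := spn N c K H ι T _ f E k r en
  obtain ⟨n, hn, g⟩ := ga K k _ _ (loc K T T' k _ r le fn sp (gm N c K H ι T _ f E k r en))
  exact ⟨k, n, r, a, fun i => ((en.2 _).1 ⟨i, rfl⟩).1, by omega, g, sp⟩

end Vale.Agent.P283R.Sp
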