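import Vale.Agent.P297.H927.Der

/-!
# P283R, block SP: the vector fields of a subgroup with a dense orbit span
-/

set_option linter.all false

open Function Set

noncomputable section

namespace Vale.Agent.P283R.Sp.S6

variable {P L L' K : Type} [CommRing P] [Field L] [Field L'] [Field K] [Algebra ℂ P] [Algebra ℂ L]
  [Algebra ℂ L'] [Algebra ℂ K]

/-- the graph of the restriction -/
def Gr (α : P →ₐ[ℂ] L) (β : P →ₐ[ℂ] L') : Subalgebra ℂ (L × L') where
  carrier := {a | ∃ p q, β q ≠ 0 ∧ a.1 * α q = α p ∧ a.2 * β q = β p}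
  mul_mem' := by
    rintro a b ⟨p, q, h, h1, h2⟩ ⟨p', q', k, k1, k2⟩
    refine ⟨p * p', q * q', by simp [h, k], ?_, ?_⟩
    · simp only [map_mul, Prod.fst_mul, ← h1, ← k1]; ring
    · simp only [map_mul, Prod.snd_mul, ← h2, ← k2]; ring
  add_mem' := by
    rintro a b ⟨p, q, h, h1, h2⟩ ⟨p', q', k, k1, k2⟩
    refine ⟨p * q' + p' * q, q * q', by simp [h, k], ?_, ?_⟩
    · simp only [map_mul, map_add, Prod.fst_add, ← h1, ← k1]; ring
    · simp only [map_mul, map_add, Prod.snd_add, ← h2, ← k2]; ring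
  algebraMap_mem' c := ⟨algebraMap ℂ P c, 1, by simp, by simp, by simp⟩

variable {α : P →ₐ[ℂ] L} {β : P →ₐ[ℂ] L'}

theorem ne (hα : Injective α) {q : P} (h : β q ≠ 0) : α q ≠ 0 := fun e =>
  h (by rw [hα (e.trans (map_zero α).symm), map_zero])

theorem zero (hα : Injective α) {a : L × L'} (h : a ∈ Gr α β) (z : a.1 = 0) : a.2 = 0 := by
  obtain ⟨p, q, h, h1, h2⟩ := h
  rw [z, zero_mul] at h1
  rw [hα (h1.symm.trans (map_zero α).symm), map_zero] at h2
  exact (mul_eq_zero.1 h2).resolve_right h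

theorem der {b : Derivation ℂ L L} {b' : Derivation ℂ L' L'}
    (hb : ∀ p, ∃ r, b (α p) = α r ∧ b' (β p) = β r) {a : L × L'} (h : a ∈ Gr α β) :
    (b a.1, b' a.2) ∈ Gr α β := by
  obtain ⟨p, q, h, h1, h2⟩ := h
  obtain ⟨r, r1, r2⟩ := hb p
  obtain ⟨s, s1, s2⟩ := hb q
  refine ⟨r * q - p * s, q * q, by simp [h], ?_, ?_⟩
  · have := congrArg b h1
    rw [Derivation.leibniz, r1, s1, smul_eq_mul, smul_eq_mul] at this
    simp only [map_mul, map_sub, ← h1, ← this]
    ring
  · have := congrArg b' h2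
    rw [Derivation.leibniz, r2, s2, smul_eq_mul, smul_eq_mul] at this
    simp only [map_mul, map_sub, ← h2, ← this]
    ring

theorem sum_ap {J : Type} (s : Finset J) (b : J → Derivation ℂ L L) (a : L) :
    (∑ j ∈ s, b j) a = ∑ j ∈ s, b j a := by
  classical
  induction s using Finset.induction_on with
  | empty => simp
  | insert j s h ih => simp [Finset.sum_insert h, ih]

/-- **SPAN** -/
theorem span (hα : Injective α) (hβ : ∀ a, ∃ p q, β q ≠ 0 ∧ a * β q = β p) {J : Type} [Fintype J]
    (b : J → Derivation ℂ L L) (b' : J → Derivation ℂ L' L')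
    (hb : ∀ j p, ∃ r, b j (α p) = α r ∧ b' j (β p) = β r)
    (sp : ∀ D : Derivation ℂ L' L', ∃ c : J → L', ∀ a, D a = ∑ j, c j * b' j a)
    (i : K →ₐ[ℂ] L) {d : ℕ} {y : Fin d → K} (hy : IsTranscendenceBasis ℂ y)
    (den : ∀ φ, ∃ p q, β q ≠ 0 ∧ i φ * α q = α p) (δ : Derivation ℂ L L) :
    ∃ c : J → L, ∀ φ, δ (i φ) = ∑ j, c j * b j (i φ) := by
  classical
  haveI : CharZero L := (algebraMap ℂ L).charZero_iff (algebraMap ℂ L).injective |>.1 inferInstance
  haveI : CharZero L' := (algebraMap ℂ L').charZero_iff (algebraMap ℂ L').injective |>.1 inferInstance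
  have ex : ∀ φ, ∃ a, (i φ, a) ∈ Gr α β := fun φ =>
    let ⟨p, q, h, e⟩ := den φ
    ⟨β p / β q, p, q, h, e, div_mul_cancel₀ _ h⟩
  have ex' : ∀ a', ∃ a, (a, a') ∈ Gr α β := fun a =>
    let ⟨p, q, h, e⟩ := hβ a
    ⟨α p / α q, p, q, h, div_mul_cancel₀ _ (ne hα h), e⟩
  choose y' hy' using fun k => ex (y k)
  have ind : AlgebraicIndependent ℂ y' := by
    refine algebraicIndependent_iff.2 fun R hR => by_contra fun R0 => ?_
    have u0 : MvPolynomial.aeval y R ≠ 0 := fun e => R0 (algebraicIndependent_iff.1 hy.1 R e)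
    have m : (i (MvPolynomial.aeval y R), MvPolynomial.aeval y' R) ∈ Gr α β := by
      clear hR R0 u0
      induction R using MvPolynomial.induction_on with
      | C c => simpa using (Gr α β).algebraMap_mem c
      | add p q hp hq => simpa using add_mem hp hq
      | mul_X p k hp => simpa using mul_mem hp (hy' k)
    obtain ⟨w, hw⟩ := ex (MvPolynomial.aeval y R)⁻¹
    have k := zero hα (sub_mem (mul_mem m hw) (one_mem _)) (by
      simp only [Prod.fst_sub, Prod.fst_mul, Prod.fst_one]
      rw [← map_mul, mul_inv_cancel₀ u0, map_one, sub_self])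
    simp [hR] at k
  obtain ⟨s, s1, hs⟩ := exists_isTranscendenceBasis_superset (R := ℂ) (s := range y')
    ind.to_subtype_range
  choose D hD using fun k => P297.H927.exists_derivation_of_basis hs
    fun x => if x.1 = y' k then 1 else 0
  choose c' hc' using fun k => sp (D k)
  choose c hc using fun k j => ex' (c' k j)
  let A : Matrix (Fin d) (Fin d) (Gr α β) := fun k l =>
    ∑ j, ⟨_, hc k j⟩ * ⟨_, der (hb j) (hy' l)⟩
  let p1 : Gr α β →+* L := (RingHom.fst L L').comp (Gr α β).val.toRingHom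
  let p2 : Gr α β →+* L' := (RingHom.snd L L').comp (Gr α β).val.toRingHom
  have e2 : p2.mapMatrix A = 1 := by
    ext k l
    have := hD k ⟨y' l, s1 ⟨l, rfl⟩⟩
    rw [hc'] at this
    simp only [ind.injective.eq_iff] at this
    change p2 (∑ j, _) = _
    rw [map_sum, Matrix.one_apply]
    simp only [eq_comm (a := k)]
    exact this
  have d0 : (p1.mapMatrix A).det ≠ 0 := fun e => by
    have := zero hα A.det.2 ((RingHom.map_det p1 A).trans e)
    have k : p2 A.det = 1 := by rw [RingHom.map_det, e2, Matrix.det_one]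
    exact one_ne_zero (k.symm.trans this)
  let a := Matrix.vecMul (fun l => δ (i (y l))) (p1.mapMatrix A)⁻¹
  have ha : Matrix.vecMul a (p1.mapMatrix A) = fun l => δ (i (y l)) := by
    rw [Matrix.vecMul_vecMul, Matrix.nonsing_inv_mul _ d0.isUnit, Matrix.vecMul_one]
  refine ⟨fun j => ∑ k, a k * c k j, fun φ => sub_eq_zero.1 ?_⟩
  have key := P297.H927.eq_zero_of_isAlgebraic_adjoin
    (D := δ - ∑ j, (∑ k, a k * c k j) • b j) (s := range fun l => i (y l)) (y := i φ) ?_ ?_
  · simpa [sum_ap] using key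
  · rintro _ ⟨l, rfl⟩
    have := congrFun ha l
    change ∑ k, a k * p1 (∑ j, _) = _ at this
    simp only [map_sum, Finset.mul_sum] at this
    rw [Finset.sum_comm] at this
    simp only [Derivation.coe_sub, Pi.sub_apply, sum_ap, Derivation.smul_apply,
      smul_eq_mul, Finset.sum_mul, sub_eq_zero, mul_assoc]
    exact this.symm
  · obtain ⟨p, p0, hp⟩ := hy.isAlgebraic_field.1 φ
    let g : IntermediateField.adjoin ℂ (range y) →+*
        IntermediateField.adjoin ℂ (range fun l => i (y l)) :=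
      (i.toRingHom.comp (IntermediateField.adjoin ℂ (range y)).val.toRingHom).codRestrict _
        fun x => by
          have := IntermediateField.adjoin_map ℂ (range y) i
          rw [← range_comp] at this
          exact this ▸ ⟨x.1, x.2, rfl⟩
    refine ⟨p.map g, (Polynomial.map_ne_zero_iff g.injective).2 p0, ?_⟩
    have := congrArg i hp
    rw [map_zero, Polynomial.aeval_def] at this
    rw [Polynomial.aeval_def, Polynomial.eval₂_map, ← this]
    exact (Polynomial.hom_eval₂ p _ i.toRingHom φ).symm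

end Vale.Agent.P283R.Sp.S6
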