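import Vale.Agent.P283R.Sl.Sp
import Vale.Agent.P283R.Sl.Ga
import Vale.Agent.P283R.Sl.Br
import Vale.Agent.P283M.Qv
import Vale.Agent.P287D.Va.Bas

/-!
# P283R, block SP: spherical varieties have rings of sections with few generators, the statements
-/

open Set CategoryTheory AlgebraicGeometry

noncomputable section

namespace Vale.Agent.P283R.Sp

open Vale.Agent.P287D Vale.Agent.P283M Sl

section defs

variable {N : ℕ} (c : Fin N → ℕ)

/-- the variables -/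
abbrev Vr : Type := {e : Fin N × Fin N // c e.1 = c e.2}

/-- the rational functions on `G` -/
abbrev LL : Type := FractionRing (BlockPoly c)

/-- polynomials as rational functions -/
abbrev al : BlockPoly c →ₐ[ℂ] LL c := IsScalarTower.toAlgHom ℂ _ _

/-- the variable in the row `i` and in the column of `w` -/
def sw (i : Fin N) (w : Vr c) : Vr c := if h : c i = c w.1.2 then ⟨(i, w.1.2), h⟩ else w

/-- the vector field `x_(j a) ↦ x_(i a)` -/
def dd (i j : Fin N) : Derivation ℂ (BlockPoly c) (BlockPoly c) :=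
  MvPolynomial.mkDerivation ℂ fun w => if w.1.1 = j then .X (sw c i w) else 0

/-- the determinant -/
def del : BlockPoly c := (blockVar c).det

/-- the elements of the one parameter subgroups of the `dd i j` -/
def Gen (g : GL (Fin N) ℂ) : Prop :=
  ∃ i j s, c i = c j ∧ (g : Matrix (Fin N) (Fin N) ℂ) = 1 + Matrix.single j i s

/-- the vector fields on the rational functions -/
abbrev DD : Type := Fin N → Fin N → Derivation ℂ (LL c) (LL c)

variable {c}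

/-- `D` extends `dd` -/
def Ex (D : DD c) : Prop := ∀ i j p, D i j (al c p) = al c (dd c i j p)

/-- eigenvectors of the triangular matrices -/
def Hi (p : BlockPoly c) : Prop := ∀ i j, c i = c j → j ≤ i → ∃ a : ℂ, dd c i j p = a • p

/-- eigenvectors of the triangular matrices -/
def HiL (D : DD c) (x : LL c) : Prop := ∀ i j, c i = c j → j ≤ i → ∃ a : ℂ, D i j x = a • x

/-- regular functions on `G` -/
def Reg (x : LL c) : Prop := ∃ (n : ℕ) (p : BlockPoly c), al c (del c) ^ n * x = al c p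

/-- invertible functions on `G` -/
def Un (x : LL c) : Prop :=
  ∃ (n m : ℕ) (p : BlockPoly c), p ∣ del c ^ m ∧ al c (del c) ^ n * x = al c p

/-- stable spaces -/
def Stb (D : DD c) (W : Submodule ℂ (LL c)) : Prop := ∀ i j, c i = c j → ∀ x ∈ W, D i j x ∈ W

/-- semi-invariants of `H` -/
def Sem (H : Subgroup (GL (Fin N) ℂ)) (p : BlockPoly c) : Prop :=
  ∀ h ∈ H, ∃ a : ℂ, shift c 1 (h : GL (Fin N) ℂ) p = a • p

variable {K : Type} [Field K] [Algebra ℂ K]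

/-- `K` is the field of invariants of `H`, and `B H` is dense -/
structure Sph (H : Subgroup (GL (Fin N) ℂ)) (ι : K →ₐ[ℂ] LL c) : Prop where
  blk : ∀ h ∈ H, Block c (h : GL (Fin N) ℂ)
  fix : ∀ a, (∃ b, ι b = a) ↔ ∀ h ∈ H, Shifted 1 (h : GL (Fin N) ℂ) a a
  den : ∀ p, (∀ b : GL (Fin N) ℂ, Block c b → (∀ j k, k < j → b j k = 0) → ∀ h ∈ H,
    valueAt c (b * h : GL (Fin N) ℂ) p = 0) → p = 0

/-- `T` are the prime divisors of a `G`-variety -/
structure Dvs (ι : K →ₐ[ℂ] LL c) (T : Set (Pl K)) : Prop where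
  fin : ∀ φ, {E ∈ T | E.ord φ ≠ 0}.Finite
  act : ∀ g : GL (Fin N) ℂ, Block c g → ∀ E ∈ T, ∃ E' ∈ T,
    ∀ a a', Shifted g 1 (ι a) (ι a') → (a ∈ E.ring ↔ a' ∈ E'.ring)
  cht : ∃ (d : ℕ) (A : Finset K), FF K (d + 1) ∧ IntermediateField.adjoin ℂ (A : Set K) = ⊤ ∧
    (∀ Q, Ov A Q → On d (inf A) Q → Q ∈ T) ∧ {Q ∈ T | ¬ (Ov A Q ∧ On d (inf A) Q)}.Finite

/-- `p` lies over `E` -/
def Over (ι : K →ₐ[ℂ] LL c) (p : BlockPoly c) (E : Pl K) : Prop :=
  ∀ a, a ∈ E.ring ↔ ∃ r s, ¬ p ∣ s ∧ ι a * al c s = al c r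

/-- `p` is horizontal -/
def Hor (ι : K →ₐ[ℂ] LL c) (p : BlockPoly c) : Prop :=
  ∀ a, ∃ r s, ¬ p ∣ s ∧ ι a * al c s = al c r

/-- the prime divisors of the open orbit -/
def Vt (ι : K →ₐ[ℂ] LL c) (T : Set (Pl K)) : Set (Pl K) :=
  {E ∈ T | ∃ p, Prime p ∧ ¬ p ∣ del c ∧ Over ι p E}

/-- `F` is the equation of the inverse image of `E` in `G` -/
def Chr (ι : K →ₐ[ℂ] LL c) (E : Pl K) (F : BlockPoly c) : Prop :=
  Squarefree F ∧ ∀ p, Prime p → (p ∣ F ↔ ¬ p ∣ del c ∧ Over ι p E)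

/-- the twist -/
def tw (f : Pl K → BlockPoly c) (s : Finset (Pl K)) (m : Pl K → ℤ) : LL c :=
  ∏ E ∈ s, al c (f E) ^ m E

/-- `V` are the prime divisors of the open orbit, `f` are their equations -/
structure Eqn (H : Subgroup (GL (Fin N) ℂ)) (ι : K →ₐ[ℂ] LL c) (T V : Set (Pl K))
    (f : Pl K → BlockPoly c) : Prop where
  sph : Sph H ι
  fin : ∀ φ, {E ∈ T | E.ord φ ≠ 0}.Finite
  sub : V ⊆ T
  bdf : (T \ V).Finite
  sqf : ∀ E, Squarefree (f E)
  nc : ∀ E ∈ V, ¬ IsUnit (f E)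
  cop : ∀ E, IsRelPrime (f E) (del c)
  cop2 : ∀ E E', E ≠ E' → IsRelPrime (f E) (f E')
  sem : ∀ E, Sem H (f E)
  fac : ∀ φ ≠ 0, ∀ s : Finset (Pl K), ↑s ⊆ V → (∀ E ∈ V, E ∉ s → E.ord φ = 0) →
    ∃ u, Un u ∧ ι φ = u * tw f s fun E => E.ord φ
  fxd : ∀ E ∈ T \ V, ∀ g, Gen c g → ∀ a a', Shifted g 1 (ι a) (ι a') → E.ord a = E.ord a'

/-- the sections of `m` -/
def Sc (T : Set (Pl K)) (m : Pl K → ℤ) : Submodule ℂ K where
  carrier := {φ | φ ≠ 0 → ∀ E ∈ T, 0 ≤ E.ord φ + m E}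
  zero_mem' a := (a rfl).elim
  add_mem' {a b} ha hb c E e := by
    rcases eq_or_ne a 0 with rfl | a0
    · rw [zero_add] at c ⊢
      exact hb c E e
    rcases eq_or_ne b 0 with rfl | b0
    · rw [add_zero]
      exact ha a0 E e
    have k1 := ha a0 E e
    have k2 := hb b0 E e
    have k3 : min (E.ord a) (E.ord b) ≤ E.ord (a + b) :=
      P297Z.Pl.min_ord_le_add E.toPlace a0 b0 c
    omega
  smul_mem' c a ha e E f := by
    have c0 : c ≠ 0 := by rintro rfl; exact e (zero_smul _ _)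
    have a0 : a ≠ 0 := by rintro rfl; exact e (smul_zero _)
    rw [Pl.ord_smul _ c0]
    exact ha a0 E f

/-- the sections as functions on `G` -/
def SS (ι : K →ₐ[ℂ] LL c) (T : Set (Pl K)) (f : Pl K → BlockPoly c) (s : Finset (Pl K))
    (m : Pl K → ℤ) : Submodule ℂ (LL c) :=
  (Sc T m).map (LinearMap.mulRight ℂ (tw f s m) ∘ₗ ι.toLinearMap)

/-- `s` contains the support of `m` on `V` -/
def Spp (V : Set (Pl K)) (s : Finset (Pl K)) (m : Pl K → ℤ) : Prop :=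
  ↑s ⊆ V ∧ ∀ E ∈ V, E ∉ s → m E = 0

/-- the divisor of `φ` on the open orbit consists of colours -/
def Cu (V : Set (Pl K)) (f : Pl K → BlockPoly c) (φ : K) : Prop :=
  φ ≠ 0 ∧ ∀ E ∈ V, ¬ Hi (f E) → E.ord φ = 0

open Classical in
/-- the combination of the prime divisors `r i` -/
def cm {k : ℕ} (r : Fin k → Pl K) (m : Fin k → ℤ) (E : Pl K) : ℤ :=
  ∑ i, m i * if r i = E then 1 else 0

/-- `r` enumerates the colours and the boundary -/
def Enu (T V : Set (Pl K)) (f : Pl K → BlockPoly c) {k : ℕ} (r : Fin k → Pl K) : Prop :=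
  Function.Injective r ∧ ∀ E, (∃ i, r i = E) ↔ E ∈ T ∧ (E ∈ V → Hi (f E))

/-- every divisor is linearly equivalent to a combination of the `r i` -/
def Spn (T : Set (Pl K)) {k : ℕ} (r : Fin k → Pl K) : Prop :=
  ∀ G : Pl K → ℤ, {E ∈ T | G E ≠ 0}.Finite →
    ∃ (m : Fin k → ℤ) (φ : K), φ ≠ 0 ∧ ∀ E ∈ T, G E = E.ord φ + cm r m E

/-- the monomials of degree `m` -/
def mons {R M J : Type} [CommRing R] [AddCommMonoid M] [Fintype J] (s : J → R) (a : J → M)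
    (m : M) : Set R := {x | ∃ e : J → ℕ, ∑ j, e j • a j = m ∧ x = ∏ j, s j ^ e j}

/-- the pieces are spanned by the monomials in at most `n` elements -/
def Mon {k : ℕ} (n : ℕ) (A : (Fin k → ℤ) → Submodule ℂ K) : Prop :=
  ∃ (J : Type) (_ : Fintype J) (s : J → K) (a : J → Fin k → ℤ), Fintype.card J ≤ n ∧
    ∀ m, A m = Submodule.span ℂ (mons s a m)

/-- the bound -/
def ll (N : ℕ) : ℕ := 2 * N ^ 2 * (2 * N ^ 2 + 1) ^ N ^ 2 + 2 * N

end defs

/-- for all blocks -/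
def ForC (Q : ∀ N : ℕ, (Fin N → ℕ) → Prop) : Prop := ∀ N c, Q N c

/-- for all fields of invariants -/
def ForI (Q : ∀ (N : ℕ) (c : Fin N → ℕ) (K : Type) [Field K] [Algebra ℂ K],
    Subgroup (GL (Fin N) ℂ) → (K →ₐ[ℂ] LL c) → Prop) : Prop :=
  ∀ (N : ℕ) (c : Fin N → ℕ) (K : Type) [Field K] [Algebra ℂ K] H ι, Sph H ι → Q N c K H ι

/-- for all systems of equations -/
def ForE (Q : ∀ (N : ℕ) (c : Fin N → ℕ) (K : Type) [Field K] [Algebra ℂ K],
    Subgroup (GL (Fin N) ℂ) → (K →ₐ[ℂ] LL c) → Set (Pl K) → Set (Pl K) →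
      (Pl K → BlockPoly c) → Prop) : Prop :=
  ∀ (N : ℕ) (c : Fin N → ℕ) (K : Type) [Field K] [Algebra ℂ K] H ι T V f, Eqn H ι T V f →
    Q N c K H ι T V f

/-! ### polynomials -/

/-- **EXT** -/
def EXT : Prop := ForC fun _ c => ∃ D : DD c, Ex D

/-- **TAY**: groups and vector fields -/
def TAY : Prop := ForC fun _ c => ∀ W : Submodule ℂ (BlockPoly c),
  (∀ g, Gen c g → ∀ p ∈ W, shift c g 1 p ∈ W) → ∀ i j, c i = c j → ∀ p ∈ W, dd c i j p ∈ W

/-- **DEL**: the determinant -/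
def DEL : Prop := ForC fun N c => del c ≠ 0 ∧
  (∀ i j, c i = c j → dd c i j (del c) = if i = j then del c else 0) ∧
  ∀ g h : Matrix (Fin N) (Fin N) ℂ, Block c g → Block c h →
    shift c g h (del c) = (g.det * h.det) • del c

/-- **COM**: left and right commute -/
def COM : Prop := ForC fun N c => ∀ h : Matrix (Fin N) (Fin N) ℂ, Block c h → ∀ i j, c i = c j →
  ∀ p, shift c 1 h (dd c i j p) = dd c i j (shift c 1 h p)

/-- **FAC**: the factors of an eigenvector -/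
def FAC : Prop := ForC fun _ c => ∀ i j, c i = c j → ∀ (p q : BlockPoly c) (a : ℂ), p ≠ 0 →
  dd c i j p = a • p → q ∣ p → ∃ b : ℂ, dd c i j q = b • q

/-- **DIV**: roots -/
def DIV : Prop := ForC fun _ c => ∀ g, Gen c g → Block c g ∧ ∀ n : ℕ, 0 < n →
  ∃ g', Gen c g' ∧ g' ^ n = g ∧ ∀ k : ℕ, Gen c (g' ^ k)

/-- **UNE**: the invertible functions are eigenvectors -/
def UNE : Prop := ForC fun _ c => ∀ D : DD c, Ex D → ∀ u, Un u → u ≠ 0 ∧
  ∀ i j, c i = c j → ∃ a : ℂ, D i j u = a • u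

/-- **CRL**: complete reducibility -/
def CRL : Prop := ForC fun _ c => ∀ D : DD c, Ex D → ∀ W W' : Submodule ℂ (LL c), Stb D W →
  Stb D W' → (∀ x ∈ W, Reg x) → (∀ x ∈ W, x ≠ 0 → HiL D x → x ∈ W') → W ≤ W'

/-- **DIM** -/
def DIM : Prop := ForC fun N c => ∀ n : ℕ,
  Module.finrank ℂ (MvPolynomial.restrictTotalDegree (Vr c) ℂ n) ≤ (n + 1) ^ N ^ 2

/-! ### the dense orbit -/

/-- **CON**: the invariants of the triangular matrices -/
def CON : Prop := ForI fun _ c _ _ _ _ ι => ∀ φ p q, q ≠ 0 → ι φ * al c q = al c p →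
  (∀ i j, c i = c j → j ≤ i → q * dd c i j p = p * dd c i j q) → ∃ a : ℂ, p = a • q

/-- **COL**: the degree of the colours -/
def COL : Prop := ForI fun N c _ _ _ H _ => ∀ F : BlockPoly c, Squarefree F → IsRelPrime F (del c) →
  Hi F → Sem H F → F.totalDegree ≤ 2 * N ^ 2

/-! ### valuations -/

/-- **VA1** -/
def VA1 : Prop := ForI fun _ c _ _ _ _ ι => ∀ T, Dvs ι T → ∀ p, Prime p → ¬ p ∣ del c →
  Hor ι p ∨ ∃ E ∈ T, Over ι p E

/-- **VA2** -/
def VA2 : Prop := ForI fun _ _ _ _ _ _ ι => ∀ T, Dvs ι T → (T \ Vt ι T).Finite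

/-- **E1**: no ramification -/
def E1 : Prop := ForI fun _ c _ _ _ _ ι => ∀ p E, Prime p → ¬ p ∣ del c → Over ι p E →
  ∃ t r s, t ≠ 0 ∧ E.ord t = 1 ∧ ¬ p ∣ r ∧ ¬ p ∣ s ∧ ι t * al c s = al c (p * r)

/-- **EQ1**: the equations -/
def EQ1 : Prop := ForI fun _ _ _ _ _ H ι => ∀ E, ∃ F, Chr ι E F ∧ Sem H F

/-- **EQ2**: the factorization -/
def EQ2 : Prop := ForI fun _ _ K _ _ _ ι => ∀ T f, Dvs ι T → (∀ E, Chr ι E (f E)) → ∀ φ ≠ 0,
  ∀ s : Finset (Pl K), ↑s ⊆ Vt ι T → (∀ E ∈ Vt ι T, E ∉ s → E.ord φ = 0) →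
    ∃ u, Un u ∧ ι φ = u * tw f s fun E => E.ord φ

/-- **FXD**: the boundary is fixed -/
def FXD : Prop := ForI fun _ c _ _ _ _ ι => ∀ T, Dvs ι T → ∀ E ∈ T \ Vt ι T, ∀ g, Gen c g →
  ∀ a a', Shifted g 1 (ι a) (ι a') → E.ord a = E.ord a'

/-- **EQN** -/
def EQN : Prop := ForI fun _ _ _ _ _ H ι => ∀ T, Dvs ι T → ∃ f, Eqn H ι T (Vt ι T) f

/-! ### sections -/

/-- **RGS**: sections are regular, and conversely -/
def RGS : Prop := ForE fun _ _ _ _ _ _ ι T V f => ∀ s m, Spp V s m →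
  (∀ x ∈ SS ι T f s m, Reg x) ∧
  ∀ φ ≠ 0, Reg (ι φ * tw f s m) → ∀ E ∈ V, 0 ≤ E.ord φ + m E

/-- **COC**: the cocycle -/
def COC : Prop := ForE fun _ c _ _ _ H ι T V _ => ∀ F ≠ 0, Sem H F → ∀ g, Gen c g →
  ∃ κ ≠ 0, ι κ * al c F = al c (shift c g 1 F) ∧ ∀ E ∈ T \ V, E.ord κ = 0

/-- **STG**: the sections are stable under the group -/
def STG : Prop := ForE fun _ c _ _ _ _ ι T V f => ∀ s m, Spp V s m → ∀ g, Gen c g →
  ∀ x ∈ SS ι T f s m, ∀ x', Shifted g 1 x x' → x' ∈ SS ι T f s m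

/-- **STB**: the sections are stable under the vector fields -/
def STB : Prop := ForE fun _ c _ _ _ _ ι T V f => ∀ D : DD c, Ex D → ∀ s m, Spp V s m →
  Stb D (SS ι T f s m)

/-- **HWV**: the eigenvectors among the sections -/
def HWV : Prop := ForE fun _ c _ _ _ _ ι T V f => ∀ D : DD c, Ex D → ∀ s m, Spp V s m →
  ∀ φ ∈ Sc T m, φ ≠ 0 → HiL D (ι φ * tw f s m) → ∀ E ∈ V, ¬ Hi (f E) → E.ord φ + m E = 0

/-- **CNT**: the colours -/
def CNT : Prop := ForE fun N _ _ _ _ _ _ _ V f => {E ∈ V | Hi (f E)}.Finite ∧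
  {E ∈ V | Hi (f E)}.ncard ≤ 2 * N ^ 2 ∧ ∀ E, Hi (f E) → (f E).totalDegree ≤ 2 * N ^ 2

/-- **UNT**: the units -/
def UNT : Prop := ForE fun N _ K _ _ _ _ _ V f => ∃ u : Fin (2 * N) → K, (∀ j, Cu V f (u j)) ∧
  ∀ φ, Cu V f φ → ∃ (a : ℂ) (e : Fin (2 * N) → ℕ), φ = a • ∏ j, u j ^ e j

/-- **SPN**: the class group -/
def SPN : Prop := ForE fun _ _ K _ _ _ _ T V f => ∀ (k : ℕ) (r : Fin k → Pl K), Enu T V f r → Spn T r

/-- **LEI**: the span of the monomials is stable -/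
def LEI : Prop := ∀ (R M J : Type) [CommRing R] [Algebra ℂ R] [AddCommMonoid M] [Fintype J]
  (s : J → R) (a : J → M) (D : Derivation ℂ R R),
  (∀ j, D (s j) ∈ Submodule.span ℂ (s '' {i | a i = a j})) →
  ∀ m, ∀ x ∈ Submodule.span ℂ (mons s a m), D x ∈ Submodule.span ℂ (mons s a m)

/-- **GM**: the generators -/
def GM : Prop := ForE fun N _ K _ _ _ _ T V f => ∀ (k : ℕ) (r : Fin k → Pl K), Enu T V f r →
  Mon (k + ll N) fun m => Sc T (cm r m)

/-- **LOC**: one more generator -/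
def LOC : Prop := ∀ (K : Type) [Field K] [Algebra ℂ K] (T T' : Set (Pl K)) (k n : ℕ)
  (r : Fin k → Pl K), T' ⊆ T → (T \ T').Finite → Spn T r → (Mon n fun m => Sc T (cm r m)) →
  Mon (n + 1) fun m => Sc T' (cm r m)

/-- **GA** -/
def GA : Prop := ∀ (K : Type) [Field K] [Algebra ℂ K] (k n : ℕ)
  (A : (Fin k → ℤ) → Submodule ℂ K), Mon n A → ∃ n' ≤ n, GradedGen n' fun m => (A m : Set K)

/-- **OUT**: the theorem on the tier -/
def OUT : Prop := ForI fun N _ K _ _ _ ι => ∀ T T', Dvs ι T → T' ⊆ T → (T \ T').Finite →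
  ∃ (k n : ℕ) (r : Fin k → Pl K), Function.Injective r ∧ (∀ i, r i ∈ T) ∧ n ≤ k + (ll N + 1) ∧
    (GradedGen n fun m => (Sc T' (cm r m) : Set K)) ∧ Spn T r

/-- **SPH**: the theorem -/
def SPH : Prop := ∀ (X Z : Var) (d N : ℕ) (f : X.X ⟶ Z.X) (ω : X.Form d) (B : X.QDiv)
  (z : Pt Z.X) (W : Z.X.Opens), 1 ≤ d → dimension X.str = d → ω.Nonzero → Contraction f →
  z.In W → Spherical N (pre f W) → Generated (ll N + 1) f ω B z

end Vale.Agent.P283R.Sp
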