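import Vale.Agent.P283R.Sp.St

/-!
# P283R, block SP: groups and vector fields
-/

open Set Polynomial

noncomputable section

namespace Vale.Agent.P283R.Sp

open Sl

namespace T72

/-- a polynomial with infinitely many values in a subspace has its coefficients there -/
theorem coeff_mem {R : Type} [CommRing R] [Algebra ℂ R] (W : Submodule ℂ R) (q : R[X])
    (S : Set ℂ) (hS : S.Infinite) (h : ∀ s ∈ S, q.eval (algebraMap ℂ R s) ∈ W) (k : ℕ) :
    q.coeff k ∈ W := by
  by_contra hk
  obtain ⟨l, l1, l2⟩ := W.exists_le_ker_of_notMem hk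
  set r : ℂ[X] := ∑ n ∈ Finset.range (q.natDegree + 1), monomial n (l (q.coeff n)) with hr
  have e : ∀ s : ℂ, r.eval s = l (q.eval (algebraMap ℂ R s)) := by
    intro s
    rw [hr, eval_finsetSum, eval_eq_sum_range (p := q), map_sum]
    refine Finset.sum_congr rfl fun n _ => ?_
    rw [eval_monomial, ← map_pow, mul_comm (q.coeff n), ← Algebra.smul_def, map_smul, smul_eq_mul,
      mul_comm]
  have r0 : r = 0 := by
    refine eq_zero_of_infinite_isRoot r (hS.mono fun s hs => ?_)
    exact (e s).trans (l2 (h s hs))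
  have : r.coeff k = l (q.coeff k) := by
    rw [hr, finsetSum_coeff]
    simp only [coeff_monomial]
    rw [Finset.sum_ite_eq']
    split_ifs with a
    · rfl
    · rw [coeff_eq_zero_of_natDegree_lt (by simpa using a), map_zero]
  rw [r0, coeff_zero] at this
  exact l1 this.symm

variable {N : ℕ} (c : Fin N → ℕ)

/-- the flow of `dd i j` -/
def fl (i j : Fin N) : BlockPoly c →ₐ[ℂ] (BlockPoly c)[X] :=
  MvPolynomial.aeval fun w => C (.X w) + C (dd c i j (.X w)) * X

theorem fl_co (i j : Fin N) (p : BlockPoly c) :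
    (fl c i j p).coeff 0 = p ∧ (fl c i j p).coeff 1 = dd c i j p := by
  induction p using MvPolynomial.induction_on with
  | C a =>
    have : fl c i j (MvPolynomial.C a) = C (MvPolynomial.C a) := by
      rw [fl, MvPolynomial.algHom_C]; rfl
    rw [this]
    refine ⟨coeff_C_zero, ?_⟩
    rw [coeff_C_of_ne_zero one_ne_zero]
    exact ((dd c i j).map_algebraMap a).symm
  | add p q hp hq => simp only [map_add, coeff_add, hp.1, hp.2, hq.1, hq.2, and_self]
  | mul_X p w hp =>
    have : fl c i j (.X w) = C (.X w) + C (dd c i j (.X w)) * X := by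
      rw [fl, MvPolynomial.aeval_X]
    rw [map_mul, this, mul_add, ← mul_assoc]
    refine ⟨?_, ?_⟩
    · rw [coeff_add, coeff_mul_C, mul_coeff_zero, coeff_X_zero, mul_zero, add_zero, hp.1]
    · rw [coeff_add, coeff_mul_C, coeff_mul_X, coeff_mul_C, hp.1, hp.2, Derivation.leibniz,
        smul_eq_mul, smul_eq_mul]
      ring

theorem dd_X (i j : Fin N) (w : Vr c) :
    dd c i j (.X w) = if w.1.1 = j then .X (sw c i w) else 0 := by
  rw [dd, MvPolynomial.mkDerivation_X]

theorem fl_ev (i j : Fin N) (h : c i = c j) (s : ℂ) (p : BlockPoly c) :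
    (fl c i j p).eval (algebraMap ℂ _ s) = shift c (1 + Matrix.single j i s) 1 p := by
  have : ((Polynomial.aeval (algebraMap ℂ (BlockPoly c) s)).restrictScalars ℂ).comp (fl c i j) =
      MvPolynomial.aeval (fun e : Vr c => ((1 + Matrix.single j i s).map MvPolynomial.C *
        blockVar c * (1 : Matrix (Fin N) (Fin N) ℂ).map MvPolynomial.C :
          Matrix _ _ (BlockPoly c)) e.1.1 e.1.2) := by
    refine MvPolynomial.algHom_ext fun w => ?_
    obtain ⟨⟨a, b⟩, hw⟩ := w
    have hw' : c a = c b := hw
    rw [MvPolynomial.aeval_X, AlgHom.comp_apply, fl, MvPolynomial.aeval_X,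
      Matrix.map_one _ (map_zero _) (map_one _), Matrix.mul_one,
      Matrix.map_add _ (map_add _), Matrix.map_one _ (map_zero _) (map_one _), Matrix.add_mul,
      Matrix.one_mul, Matrix.map_single, dd_X]
    simp only [AlgHom.restrictScalars_apply, map_add, map_mul, aeval_C, aeval_X,
      Algebra.algebraMap_self, RingHom.id_apply, Matrix.add_apply]
    have e1 : blockVar c a b = .X ⟨(a, b), hw⟩ := dif_pos hw'
    rw [e1]
    congr 1
    by_cases haj : a = j
    · subst haj
      have hb : c i = c b := h.trans hw'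
      have e2 : blockVar c i b = .X ⟨(i, b), hb⟩ := dif_pos hb
      have e3 : sw c i ⟨(a, b), hw⟩ = ⟨(i, b), hb⟩ := dif_pos hb
      rw [if_pos rfl, Matrix.single_mul_apply_same, e2, e3, mul_comm]
      rfl
    · rw [if_neg haj, zero_mul, Matrix.single_mul_apply_of_ne _ _ _ _ _ haj]
  have := DFunLike.congr_fun this p
  rw [shift, ← this, AlgHom.comp_apply, AlgHom.restrictScalars_apply, coe_aeval_eq_eval]

theorem ex_gen (i j : Fin N) (h : c i = c j) (s : ℂ) (hs : 1 + s ≠ 0) :
    ∃ g : GL (Fin N) ℂ, Gen c g ∧ (g : Matrix (Fin N) (Fin N) ℂ) = 1 + Matrix.single j i s := by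
  have : IsUnit (1 + Matrix.single j i s : Matrix (Fin N) (Fin N) ℂ) := by
    by_cases e : i = j
    · subst e
      refine IsUnit.of_mul_eq_one (1 + Matrix.single i i (-s / (1 + s))) ?_
      rw [add_mul, mul_add, mul_add, one_mul, one_mul, mul_one, Matrix.single_mul_single_same,
        add_assoc, ← Matrix.single_add, ← Matrix.single_add]
      have : -s / (1 + s) + (s + s * (-s / (1 + s))) = 0 := by field_simp; ring
      rw [this, Matrix.single_zero, add_zero]
    · refine IsUnit.of_mul_eq_one (1 + Matrix.single j i (-s)) ?_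
      rw [add_mul, mul_add, mul_add, one_mul, one_mul, mul_one,
        Matrix.single_mul_single_of_ne _ _ _ _ e, add_zero, add_assoc, ← Matrix.single_add,
        neg_add_cancel, Matrix.single_zero, add_zero]
  exact ⟨this.unit, ⟨i, j, s, h, this.unit_spec⟩, this.unit_spec⟩

end T72

/-- **TAY** -/
theorem tay72 : TAY := by
  intro N c W hW i j h p hp
  rw [← (T72.fl_co c i j p).2]
  refine T72.coeff_mem W _ {-1}ᶜ (Set.finite_singleton _).infinite_compl (fun s hs => ?_) 1
  obtain ⟨g, g1, g2⟩ := T72.ex_gen c i j h s fun e => hs (by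
    rw [Set.mem_singleton_iff]; linear_combination e)
  rw [T72.fl_ev c i j h, ← g2]
  exact hW g g1 p hp

end Vale.Agent.P283R.Sp
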