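import Vale.Agent.P283R.Sp.St
import Vale.Agent.P283R.Sp.Col56

/-!
# P283R, block SP: the units
-/

open Set

noncomputable section

namespace Vale.Agent.P283R.Sp

open Vale.Agent.P287D Vale.Agent.P297Z Sl

namespace U50

/-- the eigenvalues of an Euler operator are natural numbers -/
theorem nat_of {σ : Type} (d : Derivation ℂ (MvPolynomial σ ℂ) (MvPolynomial σ ℂ))
    (h : ∀ w, ∃ k : ℕ, d (.X w) = (k : ℂ) • .X w) {p : MvPolynomial σ ℂ} (p0 : p ≠ 0) {a : ℂ}
    (e : d p = a • p) : ∃ n : ℕ, a = n := by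
  classical
  have k : ∀ m : σ →₀ ℕ, ∃ n : ℕ,
      d (.monomial m 1) = (n : ℂ) • (.monomial m 1 : MvPolynomial σ ℂ) := fun m => by
    induction m using Finsupp.induction_linear with
    | zero => exact ⟨0, by simp⟩
    | add x y hx hy =>
      obtain ⟨n, hn⟩ := hx
      obtain ⟨n', hn'⟩ := hy
      refine ⟨n + n', ?_⟩
      rw [← one_mul (1 : ℂ), ← MvPolynomial.monomial_mul, d.leibniz, hn, hn']
      simp only [smul_eq_mul, MvPolynomial.smul_eq_C_mul, Nat.cast_add, map_add]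
      ring
    | single w n =>
      obtain ⟨l, hl⟩ := h w
      refine ⟨n * l, ?_⟩
      rw [← MvPolynomial.X_pow_eq_monomial]
      induction n with
      | zero => simp
      | succ n ih =>
        rw [pow_succ, d.leibniz, ih, hl]
        simp only [smul_eq_mul, MvPolynomial.smul_eq_C_mul, Nat.cast_add, Nat.cast_mul, map_add,
          map_mul, Nat.cast_one, map_one]
        ring
  choose n hn using k
  obtain ⟨m, hm⟩ := MvPolynomial.ne_zero_iff.1 p0
  have c : ∀ q : MvPolynomial σ ℂ, (d q).coeff m = n m * q.coeff m := fun q => by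
    induction q using MvPolynomial.induction_on' with
    | monomial u r =>
      rw [← mul_one r, ← smul_eq_mul, ← MvPolynomial.smul_monomial, d.map_smul, hn]
      simp only [MvPolynomial.coeff_smul, MvPolynomial.coeff_monomial, smul_eq_mul]
      split_ifs with z
      · rw [z]; ring
      · simp
    | add x y hx hy => rw [map_add, MvPolynomial.coeff_add, MvPolynomial.coeff_add, hx, hy, mul_add]
  have := c p
  rw [e, MvPolynomial.coeff_smul, smul_eq_mul] at this
  exact ⟨n m, mul_right_cancel₀ hm this⟩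

variable {N : ℕ} {c : Fin N → ℕ}

theorem dd_X (i j : Fin N) (w : Vr c) :
    dd c i j (.X w) = if w.1.1 = j then .X (sw c i w) else 0 := MvPolynomial.mkDerivation_X _ _ _

theorem diag (i : Fin N) {p : BlockPoly c} (p0 : p ≠ 0) {a : ℂ} (e : dd c i i p = a • p) :
    ∃ n : ℕ, a = n := nat_of _ (fun w => by
  rw [dd_X]
  split_ifs with z
  · subst z
    exact ⟨1, by rw [sw, dif_pos w.2]; simp⟩
  · exact ⟨0, by simp⟩) p0 e

theorem off {i j : Fin N} (h : c i = c j) (n : i ≠ j) {p : BlockPoly c} (p0 : p ≠ 0) {a : ℂ}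
    (e : dd c i j p = a • p) : a = 0 := by
  have k : C56.Nil (dd c i j) := fun w => by
    rw [dd_X]
    split_ifs with z
    · refine .inr ⟨_, rfl, ?_⟩
      rw [dd_X, sw, dif_pos (h.trans (z ▸ w.2)), if_neg n]
    · exact .inl rfl
  have l : ∀ m : ℕ, (dd c i j)^[m] p = a ^ m • p := fun m => by
    induction m with
    | zero => simp
    | succ m ih => rw [Function.iterate_succ_apply', ih, Derivation.map_smul, e, smul_smul, pow_succ]
  have := C56.ex_coeff k ((C56.ex (dd c i j) p).natDegree + 1) p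
  rw [Polynomial.coeff_eq_zero_of_natDegree_lt (Nat.lt_succ_self _), mul_zero, l] at this
  exact pow_eq_zero_iff (Nat.succ_ne_zero _) |>.1 ((smul_eq_zero.1 this.symm).resolve_right p0)

/-- eigenvectors with the weight `w` -/
def Wt (D : DD c) (x : LL c) (w : Fin N → ℤ) : Prop :=
  ∀ i j, c i = c j → j ≤ i → D i j x = (if i = j then (w i : ℂ) else 0) • x

variable {D : DD c} {x y : LL c} {w v : Fin N → ℤ}

theorem Wt.one : Wt D 1 0 := fun i j _ _ => by simp

theorem Wt.mul (h : Wt D x w) (k : Wt D y v) : Wt D (x * y) (w + v) := fun i j a b => by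
  rw [Derivation.leibniz, h i j a b, k i j a b]
  split_ifs
  · simp only [Pi.add_apply, Int.cast_add, smul_eq_mul, Algebra.smul_def, map_add]
    ring
  · simp

theorem Wt.inv (h : Wt D x w) : Wt D x⁻¹ (-w) := fun i j a b => by
  rw [Derivation.leibniz_inv, h i j a b]
  by_cases z : x = 0
  · simp [z]
  split_ifs
  · simp only [Pi.neg_apply, Int.cast_neg, smul_eq_mul, Algebra.smul_def, map_neg]
    field_simp
  · simp

theorem Wt.pow (h : Wt D x w) (n : ℕ) : Wt D (x ^ n) (n • w) := by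
  induction n with
  | zero => simpa using Wt.one
  | succ n ih => rw [pow_succ, succ_nsmul]; exact ih.mul h

theorem Wt.zpow (h : Wt D x w) (n : ℤ) : Wt D (x ^ n) (n • w) := by
  obtain ⟨m, rfl | rfl⟩ := n.eq_nat_or_neg
  · rw [zpow_natCast, natCast_zsmul]; exact h.pow m
  · rw [zpow_neg, zpow_natCast, neg_smul, natCast_zsmul]; exact (h.pow m).inv

theorem Wt.prod {J : Type} (s : Finset J) {x : J → LL c} {w : J → Fin N → ℤ}
    (h : ∀ j ∈ s, Wt D (x j) (w j)) : Wt D (∏ j ∈ s, x j) (∑ j ∈ s, w j) := by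
  classical
  induction s using Finset.induction_on with
  | empty => simpa using Wt.one
  | insert a s ha ih =>
    rw [Finset.prod_insert ha, Finset.sum_insert ha]
    exact (h a (Finset.mem_insert_self a s)).mul (ih fun j hj => h j (Finset.mem_insert_of_mem hj))

theorem wt_of (e : Ex D) {p : BlockPoly c} (p0 : p ≠ 0) (h : Hi p) : ∃ w, Wt D (al c p) w := by
  choose a ha using fun i => h i i rfl le_rfl
  choose n hn using fun i => diag i p0 (ha i)
  refine ⟨fun i => n i, fun i j x y => ?_⟩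
  rw [e, ← map_smul]
  split_ifs with z
  · subst z
    rw [ha, hn, Int.cast_natCast]
  · obtain ⟨b, hb⟩ := h i j x y
    rw [hb, off x z p0 hb]

theorem hi_pow {p : BlockPoly c} (h : Hi p) (m : ℕ) : Hi (p ^ m) := fun i j x y => by
  obtain ⟨a, ha⟩ := h i j x y
  induction m with
  | zero => exact ⟨0, by simp⟩
  | succ m ih =>
    obtain ⟨b, hb⟩ := ih
    refine ⟨a + b, ?_⟩
    rw [pow_succ, Derivation.leibniz, ha, hb]
    simp only [smul_eq_mul, MvPolynomial.smul_eq_C_mul, map_add]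
    ring

theorem wt_un (dl : DEL) (fac : FAC) (e : Ex D) (h : Un x) : ∃ w, Wt D x w := by
  obtain ⟨n, m, p, dv, k⟩ := h
  obtain ⟨d0, d1, -⟩ := dl N c
  have hd : Hi (del c) := fun i j a _ => by
    rw [d1 i j a]
    split_ifs
    exacts [⟨1, (one_smul _ _).symm⟩, ⟨0, (zero_smul _ _).symm⟩]
  obtain ⟨w, hw⟩ := wt_of e d0 hd
  obtain ⟨v, hv⟩ := wt_of e (ne_zero_of_dvd_ne_zero (pow_ne_zero m d0) dv) fun i j a b =>
    let ⟨z, hz⟩ := hi_pow hd m i j a b
    fac N c i j a _ p z (pow_ne_zero m d0) hz dv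
  have z : al c (del c) ^ n ≠ 0 := pow_ne_zero n
    ((map_ne_zero_iff _ (IsFractionRing.injective (BlockPoly c) (LL c))).2 d0)
  rw [eq_inv_mul_iff_mul_eq₀ z |>.2 k]
  exact ⟨_, (hw.pow n).inv.mul hv⟩

variable {K : Type} [Field K] [Algebra ℂ K] {H : Subgroup (GL (Fin N) ℂ)} {ι : K →ₐ[ℂ] LL c}
  {T V : Set (Pl K)} {f : Pl K → BlockPoly c} {φ ψ : K}

theorem wt_cu (dl : DEL) (fac : FAC) (e : Ex D) (h : Eqn H ι T V f) (k : Cu V f φ) :
    ∃ w, Wt D (ι φ) w := by
  have fi : {E ∈ V | E.ord φ ≠ 0}.Finite := (h.fin φ).subset fun E a => ⟨h.sub a.1, a.2⟩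
  obtain ⟨u, hu, z⟩ := h.fac φ k.1 fi.toFinset (fun E a => (fi.mem_toFinset.1 a).1) fun E a b =>
    not_not.1 fun n => b (fi.mem_toFinset.2 ⟨a, n⟩)
  obtain ⟨w, hw⟩ := wt_un dl fac e hu
  have : ∀ E, ∃ v, E ∈ fi.toFinset → Wt D (al c (f E)) v := fun E => by
    by_cases a : E ∈ fi.toFinset
    · have b := fi.mem_toFinset.1 a
      exact (wt_of e (h.sqf E).ne_zero (not_not.1 fun n => b.2 (k.2 E b.1 n))).imp fun _ v _ => v
    · exact ⟨0, fun b => (a b).elim⟩
  choose v hv using this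
  rw [z]
  exact ⟨_, hw.mul (Wt.prod _ fun E a => (hv E a).zpow _)⟩

theorem cu_one : Cu V f (1 : K) := ⟨one_ne_zero, fun _ _ _ => Pl.ord_one _⟩

theorem cu_mul (h : Cu V f φ) (k : Cu V f ψ) : Cu V f (φ * ψ) :=
  ⟨mul_ne_zero h.1 k.1, fun E a b => by rw [Pl.ord_mul _ h.1 k.1, h.2 E a b, k.2 E a b, add_zero]⟩

theorem cu_inv (h : Cu V f φ) : Cu V f φ⁻¹ :=
  ⟨inv_ne_zero h.1, fun E a b => by rw [Pl.ord_inv, h.2 E a b, neg_zero]⟩

theorem const (con : CON) (h : Sph H ι) (e : Ex D) (k : Wt D (ι φ) 0) :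
    ∃ a : ℂ, φ = algebraMap ℂ K a := by
  have inj := IsFractionRing.injective (BlockPoly c) (LL c)
  obtain ⟨p, q, hq, z⟩ := IsFractionRing.div_surjective (A := BlockPoly c) (ι φ)
  have q0 := nonZeroDivisors.ne_zero hq
  have q1 : al c q ≠ 0 := (map_ne_zero_iff _ inj).2 q0
  have r : ι φ * al c q = al c p := (eq_div_iff q1).1 z.symm
  obtain ⟨a, ha⟩ := con N c K H ι h φ p q q0 r fun i j x y => inj (by
    have t := congrArg (D i j) r
    rw [Derivation.leibniz, k i j x y, e, e] at t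
    simp only [Pi.zero_apply, Int.cast_zero, ite_self, zero_smul, smul_eq_mul] at t
    change al c _ = al c _
    rw [map_mul, map_mul, ← t, ← r]
    ring)
  refine ⟨a, ι.injective (mul_right_cancel₀ q1 ?_)⟩
  change ι φ * _ = ι _ * _
  rw [r, ha, map_smul, AlgHom.commutes, Algebra.smul_def]

end U50

open U50 in
/-- **UNT** -/
theorem unt50 (ext : EXT) (dl : DEL) (fac : FAC) (con : CON) : UNT :=
  fun N c K _ _ H ι T V f h => by
  classical
  obtain ⟨D, e⟩ := ext N c
  let L : Submodule ℤ (Fin N → ℤ) := AddSubgroup.toIntSubmodule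
    { carrier := {w | ∃ φ, Cu V f φ ∧ Wt D (ι φ) w}
      zero_mem' := ⟨1, cu_one, by rw [map_one]; exact Wt.one⟩
      add_mem' := fun ⟨φ, a, b⟩ ⟨ψ, a', b'⟩ => ⟨φ * ψ, cu_mul a a', by rw [map_mul]; exact b.mul b'⟩
      neg_mem' := fun ⟨φ, a, b⟩ => ⟨φ⁻¹, cu_inv a, by rw [map_inv₀]; exact b.inv⟩ }
  let b := Module.finBasis ℤ L
  have le : Module.finrank ℤ L ≤ N := (Submodule.finrank_le L).trans_eq (by simp)
  choose g g1 g2 using fun k => (show ∃ φ, Cu V f φ ∧ Wt D (ι φ) (b k : Fin N → ℤ) from (b k).2)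
  obtain ⟨j⟩ : Nonempty (Fin (Module.finrank ℤ L) ⊕ Fin (Module.finrank ℤ L) ↪ Fin (2 * N)) :=
    Function.Embedding.nonempty_of_card_le (by simp; omega)
  refine ⟨Function.extend j (Sum.elim g fun k => (g k)⁻¹) 1, fun i => ?_, fun φ hφ => ?_⟩
  · by_cases a : ∃ k, j k = i
    · obtain ⟨k, rfl⟩ := a
      rw [j.injective.extend_apply]
      rcases k with k | k
      exacts [g1 k, cu_inv (g1 k)]
    · rw [Function.extend_apply' _ _ _ a]
      exact cu_one
  obtain ⟨w, hw⟩ := wt_cu dl fac e h hφ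
  let z := b.repr ⟨w, φ, hφ, hw⟩
  have hz : ∑ k, z k • (b k : Fin N → ℤ) = w := by
    have t := congrArg L.subtype (b.sum_repr ⟨w, φ, hφ, hw⟩)
    rw [map_sum] at t
    exact t
  have k := hw.mul (Wt.prod Finset.univ fun k _ => (g2 k).zpow (z k)).inv
  rw [hz, add_neg_cancel] at k
  simp only [← map_zpow₀, ← map_prod, ← map_inv₀, ← map_mul] at k
  obtain ⟨a, ha⟩ := const con h.sph e k
  refine ⟨a, Function.extend j (Sum.elim (fun k => (z k).toNat) fun k => (-z k).toNat) 0, ?_⟩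
  rw [← Fintype.prod_of_injective j j.injective
    (fun k => Sum.elim g (fun k => (g k)⁻¹) k ^
      Sum.elim (fun k => (z k).toNat) (fun k => (-z k).toNat) k) _
    (fun i a => by rw [Function.extend_apply' _ (0 : Fin (2 * N) → ℕ) _ a]; simp)
    (fun i => by rw [j.injective.extend_apply, j.injective.extend_apply]),
    Fintype.prod_sum_type, ← Finset.prod_mul_distrib, Algebra.smul_def, ← ha]
  have t : ∀ k, g k ^ (z k).toNat * (g k)⁻¹ ^ (-z k).toNat = g k ^ z k := fun k => by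
    rw [inv_pow, ← zpow_natCast, ← zpow_natCast, ← zpow_neg, ← zpow_add₀ (g1 k).1]
    exact congrArg _ (by omega)
  simp only [Sum.elim_inl, Sum.elim_inr, t]
  exact (inv_mul_cancel_right₀
    (Finset.prod_ne_zero_iff.2 fun k _ => zpow_ne_zero _ (g1 k).1) φ).symm

end Vale.Agent.P283R.Sp
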