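import Vale.Agent.P283R.Sp.Vf61

/-!
# P283R, blocks SP and SQ: prime divisors upstairs and downstairs
-/

set_option linter.all false

open Set
open Vale.Agent.P297Z Vale.Agent.P287D

noncomputable section

namespace Vale.Agent.P283R.Sp.V61

variable {K L : Type} [Field K] [Field L] [Algebra ℂ K] [Algebra ℂ L] {d n N : ℕ}
  {A : Subalgebra ℂ L} {R : Pl L}

theorem pd_of_alg (hL : FF L (n + 1)) (hR : ∀ a ∈ A, a ∈ R.ring)
    (h : ∀ z : R.κ, IsAlgebraic (Algebra.adjoin ℂ (range fun a : A => R.rd a)) z) : Pd n A R := by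
  obtain ⟨z, z1, z2⟩ := pick (d := n) (Bm.trdeg_κ hL R) (s₁ := range fun a : A => R.rd a) (s₂ := ∅)
    ⟨by rwa [union_empty]⟩ (c := 0) (by simp) (zero_add _)
  choose w hw using z1
  exact ⟨hR, fun i => w i, fun i => (w i).2, (funext hw).symm ▸ z2⟩

theorem pd_of_PD (hL : FF L (n + 1)) (h : PD A R) : Pd n A R := by
  obtain ⟨q, c, k⟩ := h
  refine pd_of_alg hL (fun a b => (c ⟨a, b⟩).1) fun z => ?_
  obtain ⟨f, hf, rfl⟩ := Bm.rd_surj R z
  obtain ⟨s, t, ht, e⟩ := k f hf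
  have m : ∀ a : A, IsAlgebraic (Algebra.adjoin ℂ (range fun a : A => R.rd a)) (R.rd a) := fun a =>
    isAlgebraic_algebraMap (⟨_, Algebra.subset_adjoin ⟨a, rfl⟩⟩ :
      Algebra.adjoin ℂ (range fun a : A => R.rd a))
  have z : R.rd (f * t) = R.rd s := by rw [e, div_mul_cancel₀ _ (Hr.ne_of_notMem ht)]
  rw [Bm.rd_mul R hf (c t).1] at z
  rw [eq_div_of_mul_eq (mt (c t).2.2 ht) z, div_eq_mul_inv]
  exact (m s).mul (IsAlgebraic.inv_iff.2 (m t))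

/-- a place whose centre has codimension one -/
theorem PD_of_pd (h : Aff (n + 1) A) (nor : IsIntegrallyClosed A) (hR : ∀ a ∈ A, a ∈ R.ring) {g : A}
    (g0 : g ≠ 0) (hg : R.ord g = 0) {T : Subalgebra ℂ L} (pd : Pd n T R)
    (hT : ∀ O : Subalgebra ℂ L, A ≤ O → (g : L)⁻¹ ∈ O → T ≤ O) : PD A R := by
  have := h.noeth
  obtain ⟨q, c⟩ : ∃ q, Cen A q R := ⟨RingHom.ker (Bm.rdh R A hR), fun a => ⟨hR _ a.2, Iff.rfl⟩⟩
  have hq := Hr.cen_prime c
  obtain ⟨O, hO, _, dO⟩ := exO h q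
  have nm : ∀ t : A, t ≠ 0 → R.ord t = 0 → t ∉ q := fun t t0 e k =>
    rd_ne (fun z => t0 (Subtype.ext z)) e ((c t).2.1 k)
  have le := hT O (fun a b => (hO _).2 ⟨⟨a, b⟩, 1, nm 1 one_ne_zero (by simp), by simp⟩)
    ((hO _).2 ⟨1, g, nm g g0 hg, by simp⟩)
  have mO : ∀ a ∈ O, a ∈ R.ring := fun a b => Hr.cen_lo c ((hO a).1 b)
  have k4 := dim_one h.ff mO (fun x a => by
    obtain ⟨s, t, ht, e⟩ := (hO _).1 x.2
    have t0 := Hr.ne_of_notMem ht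
    have hs : s ∉ q := fun k => a (by
      have z : R.rd ((x : L) * t) = 0 := by rw [e, div_mul_cancel₀ _ t0]; exact (c s).2.1 k
      rw [Bm.rd_mul R (mO _ x.2) (hR _ t.2)] at z
      exact (mul_eq_zero.1 z).resolve_right (mt (c t).2.2 ht))
    exact IsUnit.of_mul_eq_one ⟨_, (hO _).2 ⟨t, s, hs, rfl⟩⟩ (Subtype.ext (by
      change (x : L) * (t / s) = 1
      rw [e, div_mul_div_cancel₀ t0, div_self (Hr.ne_of_notMem hs)]))) pd le
  rw [Ring.krullDimLE_iff, dO] at k4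
  have q0 : q ≠ ⊥ := fun e => Pl.ring_ne_top R.toPlace (eq_top_iff.2 fun a _ => by
    obtain ⟨s, t, rfl⟩ := h.fr a
    by_cases t0 : t = 0
    · simp [t0]
    exact Hr.cen_lo c ⟨s, t, by rw [e]; exact t0, rfl⟩)
  have h1 : q.height = 1 := le_antisymm (by exact_mod_cast k4)
    (Order.one_le_iff_ne_zero.2 (mt Ideal.height_eq_zero_iff_eq_bot.1 q0))
  obtain ⟨R', a, b⟩ := Hr.exists_pl h nor hq h1
  obtain rfl : R' = R := Pl.ext' (congrArg _
    (P297Z.Pl.eq_of_le' (v := R'.toPlace) (w := R.toPlace) fun x y => Hr.cen_lo c (b x y)))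
  exact ⟨q, a, b⟩

theorem pd_iff (h : Aff (n + 1) A) (nor : IsIntegrallyClosed A) : Pd n A R ↔ PD A R :=
  ⟨fun k => PD_of_pd h nor k.1 one_ne_zero (by simp) k fun _ a _ => a, pd_of_PD h.ff⟩

variable [Algebra K L] [IsScalarTower ℂ K L] {T : Set (Pl K)}

/-- **a prime divisor which can be moved is horizontal or lies over a prime divisor** -/
theorem vdn (hK : FF K (d + 1)) (h : Aff (n + 1) A) (ch : Chart d T) (r : Pd n A R)
    (mv : ∀ c ∈ A, c ≠ 0 → ∃ (l : L ≃ₐ[ℂ] L) (m : K ≃ₐ[ℂ] K),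
      (∀ a, l (algebraMap K L a) = algebraMap K L (m a)) ∧ (∀ x, x ∈ A ↔ l x ∈ A) ∧
      R.ord (l c) = 0 ∧ ∀ Q ∈ T, ∃ Q' ∈ T, ∀ a, a ∈ Q.ring ↔ m a ∈ Q'.ring) :
    Trv (algebraMap K L) R ∨ ∃ Q ∈ T, Lies (algebraMap K L) R Q := by
  obtain ⟨-, A₀, f, fA, h1, -⟩ := ch
  obtain ⟨g, g0, -, B, l1, l2, l3, l4⟩ := setup h f (δ := 1) one_ne_zero
  obtain ⟨c, -, c0, hc⟩ := (val hK h.ff A₀ fA B (fr_of h l1) l4).1
  obtain ⟨s, t, rfl⟩ := h.fr c
  have s0 := (div_ne_zero_iff.1 c0).1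
  have t0 := (div_ne_zero_iff.1 c0).2
  have g1 : (g : L) ≠ 0 := fun z => g0 (Subtype.ext z)
  obtain ⟨l, m, e1, e2, e3, e4⟩ :=
    mv (g * (s * t)) (g * (s * t)).2 (mul_ne_zero g1 (mul_ne_zero s0 t0))
  let S := Semi.of_alg l.symm
  have mem : ∀ x, x ∈ (S.pl R).ring ↔ l x ∈ R.ring := fun x => by
    rw [← S.mem_pl (P := R) (f := l x)]
    simp
  have od : ∀ x, (S.pl R).ord x = R.ord (l x) := fun x => by
    rw [← S.ord_pl R (l x)]
    simp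
  have mA : ∀ a ∈ A, a ∈ (S.pl R).ring := fun a b => (mem a).2 (r.1 _ ((e2 a).1 b))
  have o := (od _).trans e3
  rw [Pl.ord_mul _ g1 (mul_ne_zero s0 t0), Pl.ord_mul _ s0 t0] at o
  have o1 := Pl.ord_nonneg_of_mem _ (mA _ g.2)
  have o2 := Pl.ord_nonneg_of_mem _ (mA _ s.2)
  have o3 := Pl.ord_nonneg_of_mem _ (mA _ t.2)
  obtain ⟨-, v, v1, v2⟩ := r
  have pd : Pd n (Algebra.adjoin ℂ (B : Set L)) (S.pl R) :=
    ⟨fun a b => l3 { (S.pl R).ring.toSubring with algebraMap_mem' := (S.pl R).con } mA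
      ((Pl.ord_eq_zero_iff _ g1).1 (by omega)).2 b, fun i => l.symm (v i),
      fun i => l1 ((e2 _).2 (by simpa using v1 i)), by
        have := v2.map' (f := (Semi.κA l.symm R).toAlgHom) (Semi.κA l.symm R).injective
        convert this using 2 with i
        exact (S.κ_rd R (v i)).symm⟩
  rcases h.ff.ok (IsScalarTower.toAlgHom ℂ K L) (S.pl R) with k | ⟨Q, k⟩
  · refine .inl fun a => ?_
    obtain ⟨a, rfl⟩ := m.surjective a
    exact e1 a ▸ (mem _).1 (k a)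
  obtain ⟨Q', q1, q2⟩ := e4 Q (h1 Q (hc _ Q pd (by rw [Pl.ord_div _ s0 t0]; omega) k))
  refine .inr ⟨Q', q1, fun a => ?_⟩
  obtain ⟨a, rfl⟩ := m.surjective a
  rw [← q2, ← e1, ← mem]
  exact k a

/-- **almost all prime divisors lie under a prime divisor** -/
theorem vupp (hK : FF K (d + 1)) (h : Aff (n + 1) A) (nor : IsIntegrallyClosed A) (ch : Chart d T) :
    {Q | Q ∈ T ∧ ¬ ∃ R, PD A R ∧ Lies (algebraMap K L) R Q}.Finite := by
  obtain ⟨fin, A₀, f, fA, -, h2⟩ := ch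
  obtain ⟨g, g0, -, B, l1, l2, l3, l4⟩ := setup h f (δ := 1) one_ne_zero
  obtain ⟨a, -, -, ha⟩ := (val hK h.ff A₀ fA B (fr_of h l1) l4).2
  refine (h2.union (fin a)).subset fun Q ⟨q1, q2⟩ => by_contra fun c => q2 ?_
  simp only [mem_union, mem_setOf_eq, q1, true_and, not_or, not_not] at c
  obtain ⟨R, r1, r2⟩ := ha Q c.1 c.2
  exact ⟨R, PD_of_pd h nor (fun a b => r2.1 a (l1 b)) g0
    (Pl.ord_unit R.toPlace (r2.1 _ (l1 g.2)) (r2.1 _ l2)) r2 l3, r1⟩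

end Vale.Agent.P283R.Sp.V61
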