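import Mathlib.RingTheory.Nullstellensatz
import Vale.Agent.P283R.Sp.Bas
import Vale.Agent.P283R.Sp.Del38
import Vale.Agent.P283R.Sp.Vg61
import Vale.Agent.P283M.Kl.Bas

/-!
# P283R, block SP: the rows `VA1` and `VA2`
-/

set_option linter.all false

open Set
open Vale.Agent.P297Z Vale.Agent.P287D Vale.Agent.P283M

noncomputable section

namespace Vale.Agent.P283R.Sp

open Sl

namespace V61

section

variable {K : Type} [Field K] [Algebra ℂ K] {d : ℕ} {v : Finset K} {Q : Pl K}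

theorem aff_of {A : Subalgebra ℂ K} (fg : A.FG) (fr : ∀ a : K, ∃ s t : A, a = s / t) :
    ∃ n, Aff n A := by
  obtain ⟨B, rfl⟩ := fg
  have h1 : IntermediateField.adjoin ℂ (B : Set K) = ⊤ := eq_top_iff.2 fun f _ => by
    obtain ⟨s, t, rfl⟩ := fr f
    exact div_mem (IntermediateField.algebra_adjoin_le_adjoin ℂ _ s.2)
      (IntermediateField.algebra_adjoin_le_adjoin ℂ _ t.2)
  have : Algebra.EssFiniteType ℂ K :=
    IntermediateField.fg_top_iff.1 (h1 ▸ IntermediateField.fg_adjoin_finset B)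
  have : IsFractionRing (Algebra.adjoin ℂ (B : Set K)) K := .of_field _ _ fr
  have := IsLocalization.isAlgebraic K (nonZeroDivisors (Algebra.adjoin ℂ (B : Set K)))
  obtain ⟨t, t1, ht⟩ := exists_isTranscendenceBasis_subset (R := ℂ) (B : Set K)
  have := (B.finite_toSet.subset t1).to_subtype
  obtain ⟨n, ⟨e⟩⟩ := Finite.exists_equiv_fin t
  have k := ht.comp_equiv e.symm
  have := k.isAlgebraic_field
  have : Algebra.EssFiniteType (IntermediateField.adjoin ℂ (Set.range (Subtype.val ∘ e.symm))) K :=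
    .of_comp ℂ _ _
  exact ⟨n, ⟨_, k.1, Algebra.finite_of_essFiniteType_of_isAlgebraic⟩, ⟨B, rfl⟩, fr⟩

theorem on_iff (hK : FF K (d + 1)) : Ov v Q ∧ On d (inf v) Q ↔ Pd d (Algebra.adjoin ℂ v) Q := by
  classical
  have e : Ov v Q → (On d (inf v) Q ↔
      ∀ f : Q.κ, IsAlgebraic (rts (insert 1 (v.image Q.rd))) f) := fun o => by
    rw [Ba.Md.on_iff_big hK (Λ := inf v) (nef_mx _), Kl.res_inf hK o]
    convert big_mx_iff (Bm.ff_κ hK Q) using 3
    unfold inf
    congr!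
  have m : Ov v Q → ∀ a ∈ Algebra.adjoin ℂ (v : Set K), a ∈ Q.ring := fun o a b =>
    (Algebra.adjoin_le (S := { Q.ring.toSubring with algebraMap_mem' := Q.con }) o) b
  refine ⟨fun ⟨o, h⟩ => pd_of_alg hK (m o) fun z => ?_, fun ⟨h, w, w1, w2⟩ => ?_⟩
  · have k : ∀ a ∈ insert 1 (v.image Q.rd), a ∈ IntermediateField.adjoin ℂ
        (range fun a : Algebra.adjoin ℂ (v : Set K) => Q.rd a) := fun a b => by
      rcases Finset.mem_insert.1 b with rfl | b
      · exact one_mem _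
      obtain ⟨a', b', rfl⟩ := Finset.mem_image.1 b
      exact IntermediateField.subset_adjoin _ _ ⟨⟨a', Algebra.subset_adjoin b'⟩, rfl⟩
    exact IntermediateField.isAlgebraic_adjoin_iff.1 (((e o).1 h z).tower_top_of_subalgebra_le
      (A := (rts _).toSubalgebra) (B := (IntermediateField.adjoin ℂ _).toSubalgebra)
      (rts_le_iff.2 fun a ha b hb => div_mem (k a ha) (k b hb)))
  have o : Ov v Q := fun a b => h a (Algebra.subset_adjoin b)
  refine ⟨o, (e o).2 fun z => ?_⟩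
  have k : ∀ a ∈ Algebra.adjoin ℂ (v : Set K), Q.rd a ∈ rts (insert 1 (v.image Q.rd)) :=
    fun a b => by
    induction b using Algebra.adjoin_induction with
    | mem a b =>
      simpa using div_mem_rts (s := insert 1 (v.image Q.rd))
        (Finset.mem_insert_of_mem (Finset.mem_image_of_mem _ b)) (Finset.mem_insert_self _ _)
    | algebraMap r => rw [Bm.rd_const]; exact IntermediateField.algebraMap_mem _ r
    | add a b c d e k => rw [Bm.rd_add Q (h a c) (h b d)]; exact add_mem e k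
    | mul a b c d e k => rw [Bm.rd_mul Q (h a c) (h b d)]; exact mul_mem e k
  have b := w2.isTranscendenceBasis_of_trdeg_le_of_finite (by simp [Bm.trdeg_κ hK Q])
  exact (b.isAlgebraic.isAlgebraic z).tower_top_of_subalgebra_le (B := (rts _).toSubalgebra)
    (Algebra.adjoin_le (by rintro _ ⟨i, rfl⟩; exact k _ (w1 i)))

theorem Pr.mem {A : Subalgebra ℂ K} [UniqueFactorizationMonoid A] {p : A} {R : Pl K} {n : ℕ}
    (h : Aff n A) (hp : Prime p) (r : Pr A p R) (x : K) :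
    x ∈ R.ring ↔ ∃ s t : A, ¬ p ∣ t ∧ x * t = s := by
  have := h.isFrac
  refine ⟨fun k => ?_, fun ⟨s, t, a, e⟩ => ?_⟩
  · obtain ⟨s, t, a, rfl⟩ := IsFractionRing.exists_reduced_fraction A x
    refine ⟨s, t, fun b => ?_, IsLocalization.mk'_spec K s t⟩
    have c : ¬ p ∣ s := fun c => hp.not_unit (a c b)
    have s0 : (s : K) ≠ 0 := fun z => c ((Subtype.ext z : s = 0) ▸ dvd_zero p)
    have t0 := nonZeroDivisors.coe_ne_zero t
    have := Pl.ord_nonneg_of_mem _ k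
    rw [IsFractionRing.mk'_eq_div] at this
    have : 0 ≤ R.ord s - R.ord (t : A) :=
      this.trans_eq (Pl.ord_div _ s0 fun z => t0 (Subtype.ext z))
    have := r.pos t0 b
    have := r.2.2 s c
    omega
  · have t0 : (t : K) ≠ 0 := fun z => a ((Subtype.ext z : t = 0) ▸ dvd_zero p)
    rw [eq_div_of_mul_eq t0 e, div_eq_mul_inv]
    exact mul_mem (r.1 _ s.2) ((Pl.ord_eq_zero_iff _ t0).1 (r.2.2 t a)).2

end

variable {N : ℕ} {c : Fin N → ℕ}

theorem ev_sh (x : Vr c → ℂ) (g : Matrix (Fin N) (Fin N) ℂ) (q : BlockPoly c) :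
    MvPolynomial.aeval x (shift c g 1 q) = MvPolynomial.aeval
      (fun e : Vr c => (g * (blockVar c).map (MvPolynomial.aeval x : BlockPoly c →ₐ[ℂ] ℂ) :
        Matrix _ _ ℂ) e.1.1 e.1.2) q := by
  rw [shift, MvPolynomial.comp_aeval_apply]
  simp only [Matrix.map_one _ (map_zero MvPolynomial.C) (map_one MvPolynomial.C), Matrix.mul_one]
  simp [Matrix.mul_apply]

theorem ex_gl (x : Vr c → ℂ) (h : MvPolynomial.aeval x (del c) ≠ 0) : ∃ g : GL (Fin N) ℂ,
    Block c g ∧ (g : Matrix (Fin N) (Fin N) ℂ) =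
      (blockVar c).map (MvPolynomial.aeval x : BlockPoly c →ₐ[ℂ] ℂ) :=
  ⟨Matrix.GeneralLinearGroup.mkOfDetNeZero _ (by rwa [del, AlgHom.map_det] at h), fun i j e => by
    change MvPolynomial.aeval x (blockVar c i j) = 0
    rw [bk_var i j e, map_zero], rfl⟩

/-- a prime can be moved away -/
theorem move {p q : BlockPoly c} (hp : Prime p) (hd : ¬ p ∣ del c) (q0 : q ≠ 0) :
    ∃ g : GL (Fin N) ℂ, Block c g ∧ ¬ p ∣ shift c g 1 q := by
  obtain ⟨x, x1, x2⟩ : ∃ x : Vr c → ℂ, MvPolynomial.aeval x p = 0 ∧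
      MvPolynomial.aeval x (del c) ≠ 0 := by
    by_contra! k
    refine hd (Ideal.mem_span_singleton.1 ?_)
    rw [← ((Ideal.span_singleton_prime hp.ne_zero).2 hp).radical,
      ← MvPolynomial.vanishingIdeal_zeroLocus_eq_radical (K := ℂ)]
    exact fun x a => k x (a p (Ideal.mem_span_singleton_self p))
  obtain ⟨y, hy⟩ : ∃ y : Vr c → ℂ, MvPolynomial.aeval y (q * del c) ≠ 0 := by
    by_contra! k
    exact mul_ne_zero q0 (del38 N c).1 (MvPolynomial.funext fun y => by simpa using k y)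
  rw [map_mul] at hy
  obtain ⟨g, g1, g2⟩ := ex_gl x x2
  obtain ⟨h, h1, h2⟩ := ex_gl y (right_ne_zero_of_mul hy)
  refine ⟨h * g⁻¹, bk_mulG h1 (bk_inv g1), fun ⟨u, e⟩ => left_ne_zero_of_mul hy ?_⟩
  have := ev_sh x (h * g⁻¹ : GL (Fin N) ℂ) q
  rw [e, map_mul, x1, zero_mul, ← g2, ← Units.val_mul, inv_mul_cancel_right, h2] at this
  simpa [var_X] using this.symm

variable (c) in
/-- the polynomials as a ring of rational functions -/
abbrev ee : BlockPoly c ≃ₐ[ℂ] (al c).range := AlgEquiv.ofInjective (al c) al_inj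

theorem ufd : UniqueFactorizationMonoid (al c).range :=
  (ee c).toMulEquiv.uniqueFactorizationMonoid inferInstance

variable {K : Type} [Field K] [Algebra ℂ K] {ι : K →ₐ[ℂ] LL c} {T : Set (Pl K)} {d : ℕ}

theorem aff (ι : K →ₐ[ℂ] LL c) (hK : FF K (d + 1)) : ∃ n, Aff (n + 1) (al c).range := by
  obtain ⟨n, h⟩ := aff_of (A := (al c).range) ((Subalgebra.fg_iff_finiteType _).2
    (Algebra.FiniteType.equiv inferInstance (ee c))) fun x =>
      let ⟨p, q, q0, e⟩ := frac x; ⟨ee c p, ee c q, eq_div_of_mul_eq (al_ne q0) e⟩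
  have k := trdeg_le_of_injective ι ι.injective
  rw [Bm.trdeg_eq hK, Bm.trdeg_eq h.ff, Nat.cast_le] at k
  obtain ⟨n, rfl⟩ : ∃ m, n = m + 1 := ⟨n - 1, by omega⟩
  exact ⟨n, h⟩

theorem chart (h : Dvs ι T) : ∃ d, FF K (d + 1) ∧ Chart d T := by
  obtain ⟨d, A, hK, a, c1, c2⟩ := h.cht
  refine ⟨d, hK, h.fin, Algebra.adjoin ℂ A, ⟨A, rfl⟩, fun x => ?_,
    fun Q k => let ⟨a, b⟩ := (on_iff hK).2 k; c1 Q a b, by simpa only [on_iff hK] using c2⟩
  obtain ⟨s, s1, t, t1, e⟩ := IntermediateField.mem_adjoin_iff_div.1 (a ▸ IntermediateField.mem_top :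
    x ∈ IntermediateField.adjoin ℂ (A : Set K))
  exact ⟨s, s1, t, t1, e⟩

theorem mem_iff {n : ℕ} (h : Aff n (al c).range) {p : BlockPoly c} (hp : Prime p) {R : Pl (LL c)}
    (r : Pr _ (ee c p) R) (x : LL c) : x ∈ R.ring ↔ ∃ r s, ¬ p ∣ s ∧ x * al c s = al c r :=
  have := ufd (c := c)
  (r.mem h ((MulEquiv.prime_iff (ee c)).2 hp) x).trans
    ⟨fun ⟨s, t, a, e⟩ => by
      obtain ⟨s, rfl⟩ := (ee c).surjective s
      obtain ⟨t, rfl⟩ := (ee c).surjective t
      exact ⟨s, t, mt (map_dvd _) a, e⟩,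
    fun ⟨s, t, a, e⟩ => ⟨ee c s, ee c t, mt (map_dvd_iff (ee c)).1 a, e⟩⟩

end V61

open V61

/-- **VA1** -/
theorem va161 : VA1 := by
  intro N c K _ _ H ι S T dv p hp hd
  let _ := ι.toRingHom.toAlgebra
  have : IsScalarTower ℂ K (LL c) := .of_algebraMap_eq fun c => (ι.commutes c).symm
  have := ufd (c := c)
  obtain ⟨d, hK, ch⟩ := chart dv
  obtain ⟨n, h⟩ := aff ι hK
  have p1 := (MulEquiv.prime_iff (ee c)).2 hp
  obtain ⟨R, r⟩ := ex_pr h p1
  refine (vdown hK h ch p1 r fun q q0 => ?_).imp (fun k a => (mem_iff h hp r _).1 (k a))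
    fun ⟨E, e, l⟩ => ⟨E, e, fun a => (l a).trans (mem_iff h hp r _)⟩
  obtain ⟨q, rfl⟩ := (ee c).surjective q
  obtain ⟨g, g1, g2⟩ := move hp hd fun z : q = 0 => q0 (by rw [z, map_zero])
  obtain ⟨m, hm⟩ := S.mvK g1
  refine ⟨ml g1, m, fun a => (hm a).symm, fun x => ⟨?_, fun ⟨u, e⟩ => ?_⟩, fun q' e k => ?_,
    fun E e => ?_⟩
  · rintro ⟨u, rfl⟩
    exact ⟨_, (ml_al g1 u).symm⟩
  · refine ⟨(sa g1 bk_oneG).symm u, (ml g1).injective (.trans ?_ e)⟩
    exact (mv_al g1 bk_oneG _).trans (congrArg (al c) ((sa g1 bk_oneG).apply_symm_apply u))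
  · obtain rfl : q' = ee c (shift c g 1 q) := Subtype.ext (e.trans (ml_al g1 q))
    exact g2 ((map_dvd_iff (ee c)).1 k)
  · obtain ⟨E', e1, e2⟩ := dv.act g g1 E e
    exact ⟨E', e1, fun a => e2 a _ ((shl_iff g1).2 (hm a))⟩

/-- **VA2** -/
theorem va261 : VA2 := by
  intro N c K _ _ H ι S T dv
  let _ := ι.toRingHom.toAlgebra
  have : IsScalarTower ℂ K (LL c) := .of_algebraMap_eq fun c => (ι.commutes c).symm
  have := ufd (c := c)
  obtain ⟨d, hK, ch⟩ := chart dv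
  obtain ⟨n, h⟩ := aff ι hK
  refine (vup hK h ch (δ := ee c (del c)) ((map_ne_zero_iff _ (ee c).injective).2
    (del38 N c).1)).subset fun E ⟨e1, e2⟩ => ⟨e1, fun ⟨p, R, hp, a, r, l⟩ => e2 ⟨e1, ?_⟩⟩
  obtain ⟨p, rfl⟩ := (ee c).surjective p
  have p1 := (MulEquiv.prime_iff (ee c)).1 hp
  exact ⟨p, p1, mt (map_dvd _) a, fun a => (l a).trans (mem_iff h p1 r _)⟩

end Vale.Agent.P283R.Sp
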